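import Mathlib.Combinatorics.SimpleGraph.Connectivity.Finite
import Mathlib.Logic.Equiv.Option
import Mathlib.SetTheory.Cardinal.NatCard

/-!
# Number of the components of a finite graph when an edge is added
-/

namespace Vale.Agent.P167.H519

open SimpleGraph

variable {V : Type*} {G G' : SimpleGraph V} {x y : V}

lemma merge_same (h : ∀ u v, G'.Adj u v ↔ G.Adj u v ∨ (u = x ∧ v = y) ∨ (u = y ∧ v = x))
    (hr : G.Reachable x y) (u v : V) : G'.Reachable u v ↔ G.Reachable u v := by
  constructor
  · intro h1
    rw [reachable_iff_reflTransGen] at h1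
    induction h1 with
    | refl => exact Reachable.refl _
    | @tail a b _ hab ih =>
      rcases (h a b).1 hab with h2 | ⟨rfl, rfl⟩ | ⟨rfl, rfl⟩
      · exact ih.trans h2.reachable
      · exact ih.trans hr
      · exact ih.trans hr.symm
  · intro h1
    exact h1.mono fun a b hab => (h a b).2 (Or.inl hab)

lemma card_same (h : ∀ u v, G'.Adj u v ↔ G.Adj u v ∨ (u = x ∧ v = y) ∨ (u = y ∧ v = x))
    (hr : G.Reachable x y) :
    Nat.card G'.ConnectedComponent = Nat.card G.ConnectedComponent :=
  Nat.card_congr (Quot.congrRight (merge_same h hr))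

lemma merge_diff (h : ∀ u v, G'.Adj u v ↔ G.Adj u v ∨ (u = x ∧ v = y) ∨ (u = y ∧ v = x))
    {u v : V} (h1 : G'.Reachable u v) : G.Reachable u v ∨ (G.Reachable u x ∧ G.Reachable y v) ∨
      (G.Reachable u y ∧ G.Reachable x v) := by
  rw [reachable_iff_reflTransGen] at h1
  induction h1 with
  | refl => exact Or.inl (Reachable.refl _)
  | @tail a b _ hab ih =>
    rcases (h a b).1 hab with h2 | ⟨rfl, rfl⟩ | ⟨rfl, rfl⟩
    · rcases ih with ih | ih | ih
      · exact Or.inl (ih.trans h2.reachable)
      · exact Or.inr (Or.inl ⟨ih.1, ih.2.trans h2.reachable⟩)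
      · exact Or.inr (Or.inr ⟨ih.1, ih.2.trans h2.reachable⟩)
    · rcases ih with ih | ih | ih
      · exact Or.inr (Or.inl ⟨ih, Reachable.refl _⟩)
      · exact Or.inr (Or.inl ⟨ih.1, Reachable.refl _⟩)
      · exact Or.inl ih.1
    · rcases ih with ih | ih | ih
      · exact Or.inr (Or.inr ⟨ih, Reachable.refl _⟩)
      · exact Or.inl ih.1
      · exact Or.inr (Or.inr ⟨ih.1, Reachable.refl _⟩)

lemma card_merge [Finite V]
    (h : ∀ u v, G'.Adj u v ↔ G.Adj u v ∨ (u = x ∧ v = y) ∨ (u = y ∧ v = x))
    (hr : ¬ G.Reachable x y) :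
    Nat.card G'.ConnectedComponent + 1 = Nat.card G.ConnectedComponent := by
  classical
  have hle : G ≤ G' := fun a b hab => (h a b).2 (Or.inl hab)
  have hxy : G'.Reachable x y := (show G'.Adj x y from (h x y).2 (Or.inr (Or.inl ⟨rfl, rfl⟩))).reachable
  set a := G.connectedComponentMk y with ha
  set f : {c : G.ConnectedComponent // c ≠ a} → G'.ConnectedComponent :=
    fun c => c.1.map (Hom.ofLE hle) with hf
  have hbij : Function.Bijective f := by
    constructor
    · rintro ⟨c, hc⟩ ⟨c', hc'⟩ hcc
      induction c using ConnectedComponent.ind with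
      | _ u =>
      induction c' using ConnectedComponent.ind with
      | _ v =>
      have h1 : G'.connectedComponentMk u = G'.connectedComponentMk v := hcc
      rw [ConnectedComponent.eq] at h1
      have hu : ¬ G.Reachable u y := fun h2 => hc (ConnectedComponent.eq.2 h2)
      have hv : ¬ G.Reachable v y := fun h2 => hc' (ConnectedComponent.eq.2 h2)
      rcases merge_diff h h1 with h2 | h2 | h2
      · exact Subtype.ext (ConnectedComponent.eq.2 h2)
      · exact absurd h2.2.symm hv
      · exact absurd h2.1 hu
    · intro c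
      induction c using ConnectedComponent.ind with
      | _ u =>
      by_cases hu : G.Reachable u y
      · refine ⟨⟨G.connectedComponentMk x, fun h2 => hr (ConnectedComponent.eq.1 h2)⟩, ?_⟩
        show G'.connectedComponentMk x = G'.connectedComponentMk u
        rw [ConnectedComponent.eq]
        exact hxy.trans (hu.mono hle).symm
      · exact ⟨⟨G.connectedComponentMk u, fun h2 => hu (ConnectedComponent.eq.1 h2)⟩, rfl⟩
  have hfin : Finite G.ConnectedComponent := Quot.finite _
  rw [← Nat.card_congr (Equiv.ofBijective f hbij), ← Nat.card_congr (Equiv.optionSubtypeNe a),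
    Finite.card_option]

end Vale.Agent.P167.H519
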