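import Vale.Agent.P167.H519.ArmLoop
import Vale.Agent.P167.H871.Fair

/-!
P167, block G: probabilities of arms; monotonicity, independence, self-duality, and G1.
-/

namespace Vale.Agent.P167

open Finset Relation MeasureTheory
open Vale.Agent.P145.FB (PStep PConn)
open Vale.Agent.P167.H871 (Fair Dep)

namespace H519

/-- the measure `μ` is a product of fair coins -/
theorem fair_mu : Fair μ := H871.fair_perc

/-- boxes of squares -/
noncomputable def annS (r R : ℤ) : Finset (ℤ × ℤ) := (Icc (-R) R ×ˢ Icc (-R) R).filter (fun v => r ≤ nm v)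

lemma mem_annS {r R : ℤ} {v : ℤ × ℤ} : v ∈ annS r R ↔ r ≤ nm v ∧ nm v ≤ R := by
  unfold annS
  rw [mem_filter, mem_product, mem_Icc, mem_Icc, nm_le]
  tauto

lemma armP_of_path {ω : Cfg} {r R : ℤ} (hrR : r ≤ R) {u v : ℤ × ℤ} (hu : Even (u.1 + u.2))
    (h : ReflTransGen (PStep (op ω)) u v) (h1 : nm u ≤ r) (h2 : R ≤ nm v) :
    ∃ u v, Even (u.1 + u.2) ∧ nm u ≤ r ∧ nm v = R ∧
      ReflTransGen (fun a b => (PStep (op ω) a b ∧ r < nm b) ∧ nm b ≤ R) u v := by
  obtain ⟨u', v', h3, h4, h5, h6⟩ := exit (f := nm) nm_step hrR h h1 h2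
  refine ⟨u', v', ?_, h4, h5, h6⟩
  have := parity_conn h3
  rw [Int.even_iff] at hu ⊢
  omega

lemma armP_iff {ω : Cfg} {r R : ℤ} (hrR : r ≤ R) : ArmP r R ω ↔
    ∃ u v, Even (u.1 + u.2) ∧ nm u ≤ r ∧ nm v = R ∧
      ReflTransGen (fun a b => (PStep (op ω) a b ∧ r < nm b) ∧ nm b ≤ R) u v := by
  constructor
  · rintro ⟨u, v, h1, h2, h3, h4⟩
    exact armP_of_path hrR h1 (h4.2.lift id fun a b hab => hab.1) h2 h3
  · rintro ⟨u, v, h1, h2, h3, h4⟩
    exact ⟨u, v, h1, h2, h3.ge, pconn_of (show nm u ≤ R by omega) h4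
      fun a b _ hab => ⟨hab.1.1, hab.2⟩⟩

lemma armP_mono {ω : Cfg} {r R r' R' : ℤ} (h : ArmP r R ω) (h1 : r ≤ r') (h2 : r' ≤ R')
    (h3 : R' ≤ R) : ArmP r' R' ω := by
  obtain ⟨u, v, h4, h5, h6, h7⟩ := h
  rw [armP_iff h2]
  exact armP_of_path h2 h4 (h7.2.lift id fun a b hab => hab.1) (by omega) (h3.trans h6)

/-- the arm event depends on the squares of the annulus only -/
lemma dep_armP {r R : ℤ} (hrR : r ≤ R) : Dep (annS r R) {ω | ArmP r R ω} := by
  intro ω ω' hω h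
  simp only [Set.mem_ofPred_eq] at h ⊢
  rw [armP_iff hrR] at h ⊢
  obtain ⟨u, v, h1, h2, h3, h4⟩ := h
  refine ⟨u, v, h1, h2, h3, ?_⟩
  have key : nm u ≤ R := by omega
  have : ReflTransGen (fun a b => (PStep (op ω') a b ∧ r < nm b) ∧ nm b ≤ R) u v ∧ nm v ≤ R := by
    clear h3
    induction h4 with
    | refl => exact ⟨ReflTransGen.refl, key⟩
    | @tail a b _ hab ih =>
      refine ⟨ih.1.tail ⟨⟨⟨hab.1.1.1, hab.1.1.2.1, ?_⟩, hab.1.2⟩, hab.2⟩, hab.2⟩
      have h5 : ω (sqr a b) = true := hab.1.1.2.2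
      show ω' (sqr a b) = true
      rw [← h5]
      refine (hω _ (mem_annS.2 ⟨?_, nm_sqr_le ih.2 hab.2⟩)).symm
      by_contra hcon
      have := nm_le_sqr hab.1.1 (n := r - 1) (by omega)
      have := hab.1.2
      omega
  exact this.1

lemma dep_armD {r R : ℤ} : Dep (annS 0 R) {ω | ArmD r R ω} := by
  rintro ω ω' hω ⟨u, v, h1, h2, h3, h4⟩
  refine ⟨u, v, h1, h2, h3, pconn_of h4.1 h4.2 fun a b ha hab => ⟨⟨hab.1.1, hab.1.2.1, ?_⟩, hab.2⟩⟩
  have h5 : ¬ ω (sqr a b) = true := hab.1.2.2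
  show ¬ ω' (sqr a b) = true
  rw [← hω _ (mem_annS.2 ⟨nm_nonneg _, nm_sqr_le ha hab.2⟩)]
  exact h5

/-- a dual arm is a primal arm of the shifted dual configuration -/
lemma armP_of_armD {ω : Cfg} {r R : ℤ} (hrR : r + 2 ≤ R) (h : ArmD r R ω) :
    ArmP (r + 1) (R - 1) (fun w => xor (ω (w.1 + 1, w.2)) true) := by
  obtain ⟨u, v, h1, h2, h3, h4⟩ := h
  rw [armP_iff (by omega)]
  refine armP_of_path (u := (u.1 - 1, u.2)) (v := (v.1 - 1, v.2)) (by omega) ?_ ?_ ?_ ?_
  · rw [Int.odd_iff] at h1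
    rw [Int.even_iff]
    simp only
    omega
  · refine h4.2.lift (fun w => (w.1 - 1, w.2)) fun a b hab => ?_
    obtain ⟨⟨h5, h6, h7⟩, -⟩ := hab
    refine ⟨by simp only; omega, by simp only; omega, ?_⟩
    have e1 : ((min a.1 b.1, min a.2 b.2) : ℤ × ℤ) =
        (min (a.1 - 1) (b.1 - 1) + 1, min a.2 b.2) := by
      ext
      · simp only; omega
      · rfl
    rw [e1] at h7
    have h8 : ω (min (a.1 - 1) (b.1 - 1) + 1, min a.2 b.2) = false := by
      simpa [op] using h7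
    show xor (ω (min (a.1 - 1) (b.1 - 1) + 1, min a.2 b.2)) true = true
    rw [h8]
    rfl
  · rw [nm_le] at h2 ⊢
    simp only
    omega
  · by_contra hcon
    have h5 := (nm_le (z := ((v.1 - 1, v.2) : ℤ × ℤ)) (n := R - 2)).1 (by omega)
    have : nm v ≤ R - 1 := by
      rw [nm_le]
      simp only at h5
      omega
    omega

/-- the probability of a primal arm -/
noncomputable def pa (r R : ℤ) : ℝ := μ.real {ω | ArmP r R ω}

lemma pa_nonneg (r R : ℤ) : 0 ≤ pa r R := measureReal_nonneg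

lemma pa_mono {r R r' R' : ℤ} (h1 : r ≤ r') (h2 : r' ≤ R') (h3 : R' ≤ R) : pa r R ≤ pa r' R' :=
  measureReal_mono (fun _ h => armP_mono h h1 h2 h3)

/-- the shift by `(1, 0)` -/
def eS : ℤ × ℤ ≃ ℤ × ℤ where
  toFun w := (w.1 + 1, w.2)
  invFun w := (w.1 - 1, w.2)
  left_inv w := by simp
  right_inv w := by simp

lemma pd_le {r R : ℤ} (hrR : r + 2 ≤ R) : μ.real {ω | ArmD r R ω} ≤ pa (r + 1) (R - 1) := by
  have h1 := fair_mu.symm (dep_armP (r := r + 1) (R := R - 1) (by omega)) eS (fun _ => true)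
  rw [pa, ← h1]
  exact measureReal_mono (fun ω h => armP_of_armD hrR h)

lemma pa_indep {t R : ℤ} (h0 : 0 ≤ t) (h : t < R) : pa 0 R ≤ pa 0 t * pa (t + 1) R := by
  have h1 := fair_mu.indep (F := annS 0 t) (G := annS (t + 1) R) (by
    rw [Finset.disjoint_left]
    intro v hv hv'
    rw [mem_annS] at hv hv'
    omega) (dep_armP h0) (dep_armP (by omega))
  rw [pa, pa, pa, ← h1]
  exact measureReal_mono fun ω h' => ⟨armP_mono h' le_rfl h0 h.le, armP_mono h' (by omega)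
    (by omega) le_rfl⟩

lemma pa_pos {R : ℤ} (hR : 0 ≤ R) : 0 < pa 0 R := by
  have h1 := fair_mu.cyl (annS 0 R) (fun _ => true)
  have h2 : (0 : ℝ) < (1 / 2) ^ (annS 0 R).card := by positivity
  rw [← h1] at h2
  refine h2.trans_le (measureReal_mono fun ω hω => ?_)
  -- all squares are open
  obtain ⟨s, hs1, hs2⟩ : ∃ s : ℤ × ℤ, Even (s.1 + s.2) ∧ nm s = R := by
    by_cases hp : Even R
    · exact ⟨(R, 0), by simpa using hp, by simp [nm, abs_of_nonneg hR, hR]⟩
    · refine ⟨(R, 1), ?_, ?_⟩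
      · rw [Int.even_iff] at hp ⊢
        simp only
        omega
      · have : 1 ≤ R := by
          rcases hR.eq_or_lt with h | h
          · exact absurd (h ▸ Even.zero) hp
          · omega
        simp [nm, abs_of_nonneg hR, this]
  have h3 := box_conn (ω := ω) (ρ := R) hR (fun v hv => hω v (mem_annS.2 ⟨nm_nonneg v, hv⟩))
    (nm s).toNat s hs1 (by have := (nm_le (z := s) (n := R)).1 hs2.le; omega)
    (by have := (nm_le (z := s) (n := R)).1 hs2.le; omega)
    (by have := (nm_le (z := s) (n := R)).1 hs2.le; omega)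
    (by have := (nm_le (z := s) (n := R)).1 hs2.le; omega) (Int.self_le_toNat _)
  show ArmP 0 R ω
  rw [armP_iff hR]
  exact armP_of_path (u := 0) hR (by simp) (conn_symm h3) (by simp [nm]) hs2.ge

end H519

open H519

/-- **G1** -/
theorem noloop (hj : S_jump) (hs : S_sign) (hst : S_step) (htwo : S_two) (hloc : S_loc) :
    S_noloop := by
  refine ⟨2, fun r R hr hR => ?_⟩
  have h1 : {ω : Cfg | Nn (r : ℝ) (R : ℝ) ω = 0} ⊆
      {ω | ArmP (r + 1) (R - 1) ω} ∪ {ω | ArmD (r + 1) (R - 1) ω} := fun ω h =>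
    noloop_det hj hs hst htwo hloc (by omega) (by omega) h
  have h2 := (measureReal_mono (μ := μ) h1).trans (measureReal_union_le _ _)
  have h3 : μ.real {ω | ArmP (r + 1) (R - 1) ω} ≤ μ.real {ω | ArmP (r + 2) (R - 2) ω} :=
    pa_mono (by omega) (by omega) (by omega)
  have h4 : μ.real {ω | ArmD (r + 1) (R - 1) ω} ≤ μ.real {ω | ArmP (r + 2) (R - 2) ω} := by
    have := pd_le (r := r + 1) (R := R - 1) (by omega)
    rw [show r + 1 + 1 = r + 2 by ring, show R - 1 - 1 = R - 2 by ring] at this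
    exact this
  linarith

end Vale.Agent.P167
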