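import Vale.Agent.P167.H519.ArmLoop

/-!
# P167, general `q`, block GQ7: deterministic gluing of arms
-/

namespace Vale.Agent.P167.H519

open Finset Relation
open Vale.Agent.P145.FB (PStep PConn)

/-- an edge of the loop to the right of a surrounded site -/
lemma W_ne_right {ℓ : Finset Ed} {s : ℤ × ℤ} (h : W ℓ s ≠ 0) :
    ∃ e ∈ ℓ, s.1 ≤ (ls e).1 ∧ (ls e).2 = s.2 := by
  unfold W at h
  obtain ⟨e, he, hne⟩ := Finset.exists_ne_zero_of_sum_ne_zero h
  refine ⟨e, he, ?_⟩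
  rcases e with ⟨x, y⟩ | ⟨x, y⟩
  · simp at hne
  · simp only [ne_eq, ite_eq_right_iff, Classical.not_imp] at hne
    obtain ⟨⟨h1, h2⟩, -⟩ := hne
    by_cases hp : Even (x + y)
    · simp only [ls, hp, if_true]
      omega
    · simp only [ls, hp, if_false]
      omega

/-- the right sites of a loop are joined by dual steps -/
lemma rs_join {ω : Cfg} {ℓ : Finset Ed} (h : IsLoop ω ℓ) {e e' : Ed} (he : e ∈ ℓ) (he' : e' ∈ ℓ) :
    ReflTransGen (PStep (op ω)ᶜ) (rs e) (rs e') := by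
  obtain ⟨e0, h0⟩ := h
  have key : ∀ n : ℕ, ReflTransGen (PStep (op ω)ᶜ) (rs e0) (rs ((nx ω)^[n] e0)) := by
    intro n
    induction n with
    | zero => exact ReflTransGen.refl
    | succ n ih =>
      rw [Function.iterate_succ_apply']
      cases hh : ω (hdv ((nx ω)^[n] e0)) with
      | true => rw [(nx_open hh).1]; exact ih
      | false => exact ih.tail (nx_closed hh).2
  obtain ⟨n, rfl⟩ := (h0 e).1 he
  obtain ⟨m, rfl⟩ := (h0 e').1 he'
  exact (conn_symm (key n)).trans (key m)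

/-- the configuration closed outside of the box of sites of radius `R` -/
def inb (R : ℤ) (ω : Cfg) : Cfg := fun v =>
  if -R ≤ v.1 ∧ v.1 + 1 ≤ R ∧ -R ≤ v.2 ∧ v.2 + 1 ≤ R then ω v else false

lemma inb_step {R : ℤ} {ω : Cfg} {s t : ℤ × ℤ} : PStep (op (inb R ω)) s t ↔
    PStep (op ω) s t ∧ nm s ≤ R ∧ nm t ≤ R := by
  constructor
  · rintro ⟨h1, h2, h3⟩
    have h4 : inb R ω (min s.1 t.1, min s.2 t.2) = true := h3
    unfold inb at h4
    by_cases hc : -R ≤ min s.1 t.1 ∧ min s.1 t.1 + 1 ≤ R ∧ -R ≤ min s.2 t.2 ∧ min s.2 t.2 + 1 ≤ R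
    · simp only [hc, and_self, if_true] at h4
      refine ⟨⟨h1, h2, h4⟩, ?_, ?_⟩ <;> rw [nm_le] <;> omega
    · simp only [hc, if_false] at h4
      simp at h4
  · rintro ⟨⟨h1, h2, h3⟩, h4, h5⟩
    refine ⟨h1, h2, ?_⟩
    rw [nm_le] at h4 h5
    show inb R ω (min s.1 t.1, min s.2 t.2) = true
    unfold inb
    have hc : -R ≤ min s.1 t.1 ∧ min s.1 t.1 + 1 ≤ R ∧ -R ≤ min s.2 t.2 ∧
        min s.2 t.2 + 1 ≤ R := by omega
    simp only [hc, and_self, if_true]
    exact h3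

lemma inb_conn {R : ℤ} {ω : Cfg} {s t : ℤ × ℤ} (hs : nm s ≤ R)
    (h : ReflTransGen (PStep (op (inb R ω))) s t) : PConn (op ω) {w | nm w ≤ R} s t :=
  pconn_of hs h fun _ _ _ hab => ⟨(inb_step.1 hab).1, (inb_step.1 hab).2.2⟩

lemma conn_inb {R : ℤ} {ω : Cfg} {s t : ℤ × ℤ} {T : ℤ} (hT : T ≤ R)
    (h : PConn (op ω) {w | nm w ≤ T} s t) : ReflTransGen (PStep (op (inb R ω))) s t := by
  obtain ⟨h0, h1⟩ := h
  have key : ReflTransGen (PStep (op (inb R ω))) s t ∧ nm t ≤ T := by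
    induction h1 with
    | refl => exact ⟨ReflTransGen.refl, h0⟩
    | tail _ hab ih =>
      exact ⟨ih.1.tail (inb_step.2 ⟨hab.1, ih.2.trans hT, (show nm _ ≤ T from hab.2).trans hT⟩),
        hab.2⟩
  exact key.1

/-- a loop which surrounds a site reaching far but not another site of the inner box -/
lemma cross_dual (hnx : S_nx) (hj : S_jump) (ho : S_out) {ω : Cfg} {t T R : ℤ} (htT : t + 2 ≤ T)
    (hTR : T ≤ R) {ℓ : Finset Ed} (hℓ : IsLoop (inb R ω) ℓ) {u v u' : ℤ × ℤ} (hu : nm u ≤ t)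
    (hv : T ≤ nm v) (hu' : nm u' ≤ t) (h1 : W ℓ u = 1) (h2 : W ℓ v = 1) (h3 : W ℓ u' = 0) :
    ArmD (t + 1) (T - 1) ω := by
  obtain ⟨e, he, het⟩ : ∃ e ∈ ℓ, nm (hdv e) ≤ t := by
    by_contra hcon
    push Not at hcon
    have h4 : ∀ v ∈ vs ℓ, t < nm v := by
      intro v hv
      unfold vs at hv
      rw [Finset.mem_image] at hv
      obtain ⟨e, he, rfl⟩ := hv
      exact hcon e he
    have h5 := W_box hnx hj hℓ h4 hu
    have h6 := W_box hnx hj hℓ h4 hu'
    omega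
  obtain ⟨e', he', heT⟩ : ∃ e ∈ ℓ, T ≤ nm (hdv e) := by
    by_contra hcon
    push Not at hcon
    have h4 : ∀ v ∈ vs ℓ, nm v < T := by
      intro v hv
      unfold vs at hv
      rw [Finset.mem_image] at hv
      obtain ⟨e, he, rfl⟩ := hv
      exact hcon e he
    have h5 := W_outside ho hℓ h4 hv
    omega
  have h4 : T - 1 ≤ nm (rs e') := by
    by_contra hcon
    have := nm_hdv_rs (e := e') (n := T - 2) (by omega)
    omega
  obtain ⟨x, y, hx0, hx, hy, hxy⟩ := arm_of_reach (F := (op ω)ᶜ) htT (rs_join hℓ he he')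
    (nm_rs het) h4 (fun v _ hv2 hv3 => by
      intro hv4
      apply hv3
      have hv5 : ω v = true := hv4
      show inb R ω v = true
      unfold inb
      have := (nm_le (z := v) (n := T - 1)).1 (by omega)
      rw [if_pos (by omega)]
      exact hv5)
  refine ⟨x, y, ?_, hx, hy, hxy⟩
  have h5 := parity_conn hx0
  have h6 := rs_odd e
  rw [Int.odd_iff] at h6 ⊢
  omega

/-- **Gluing of two arms** when there is no dual arm in the common annulus. -/
theorem glue_det' (hbd : S_bdP) (hnx : S_nx) (hj : S_jump) (ho : S_out) (hst : S_step) {ω : Cfg}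
    {q t T R : ℤ} (hqt : q ≤ t) (htT : t + 2 ≤ T) (hTR : T ≤ R) (h1 : ArmP q T ω)
    (h2 : ArmP t R ω) (h3 : ¬ ArmD (t + 1) (T - 1) ω) : ArmP q R ω := by
  classical
  obtain ⟨u1, v1, hu1e, hu1, hv1, hc1⟩ := h1
  obtain ⟨u2, v2, hu2e, hu2, hv2, hc2⟩ := h2
  set ω1 := inb R ω with hω1
  have r1 : ReflTransGen (PStep (op ω1)) u1 v1 := conn_inb hTR hc1
  have r2 : ReflTransGen (PStep (op ω1)) u2 v2 := conn_inb le_rfl hc2
  have hu1R : nm u1 ≤ R := by omega
  have hu2R : nm u2 ≤ R := by omega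
  by_cases hj12 : ReflTransGen (PStep (op ω1)) u1 u2
  · exact ⟨u1, v2, hu1e, hu1, hv2, inb_conn hu1R (hj12.trans r2)⟩
  exfalso
  -- the clusters
  have hfin : ∀ u : ℤ × ℤ, nm u ≤ R → {s | ReflTransGen (PStep (op ω1)) u s}.Finite := by
    intro u hu
    refine (finite_nm R).subset fun s hs => ?_
    have := (inb_conn hu hs)
    exact this.right_mem
  have hK : ∀ u : ℤ × ℤ, Even (u.1 + u.2) → nm u ≤ R → ∃ ℓ, IsLoop ω1 ℓ ∧
      (∀ e ∈ ℓ, ReflTransGen (PStep (op ω1)) u (ls e)) ∧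
      ∀ s, ReflTransGen (PStep (op ω1)) u s → W ℓ s = 1 := by
    intro u hue hu
    obtain ⟨ℓ, g1, g2, g3⟩ := hbd ω1 (hfin u hu).toFinset ⟨u, by simp [ReflTransGen.refl]⟩
      (fun s hs => by
        have hs' : ReflTransGen (PStep (op ω1)) u s := by simpa using hs
        have := parity_conn hs'
        rw [Int.even_iff] at hue ⊢
        omega)
      (fun s hs t hst' => by
        have hs' : ReflTransGen (PStep (op ω1)) u s := by simpa using hs
        simpa using hs'.tail hst')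
      (fun s hs t ht => by
        have hs' : ReflTransGen (PStep (op ω1)) u s := by simpa using hs
        have ht' : ReflTransGen (PStep (op ω1)) u t := by simpa using ht
        exact (conn_symm hs').trans ht')
    exact ⟨ℓ, g1, fun e he => by simpa using g2 e he, fun s hs => g3 s (by simpa using hs)⟩
  obtain ⟨ℓ1, a1, a2, a3⟩ := hK u1 hu1e hu1R
  obtain ⟨ℓ2, b1, b2, b3⟩ := hK u2 hu2e hu2R
  have hdisj : ∀ s, ReflTransGen (PStep (op ω1)) u1 s → ReflTransGen (PStep (op ω1)) u2 s →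
      False := fun s hs hs' => hj12 (hs.trans (conn_symm hs'))
  have Wst : ∀ ℓ, IsLoop ω1 ℓ → ∀ u s : ℤ × ℤ, Even (u.1 + u.2) →
      ReflTransGen (PStep (op ω1)) u s → W ℓ s = W ℓ u := by
    intro ℓ hℓ u s hu hs
    induction hs with
    | refl => rfl
    | @tail a b hua hab ih =>
      rw [← ih]
      refine (hst ω1 ℓ hℓ a b (Or.inl ⟨?_, hab⟩)).symm
      have := parity_conn hua
      rw [Int.even_iff] at hu ⊢
      omega
  by_cases hw1 : W ℓ1 u2 = 0
  · exact h3 (cross_dual hnx hj ho htT hTR a1 (by omega : nm u1 ≤ t) hv1 hu2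
      (a3 u1 ReflTransGen.refl) (a3 v1 r1) hw1)
  by_cases hw2 : W ℓ2 u1 = 0
  · exact h3 (cross_dual hnx hj ho htT hTR b1 hu2 (by omega : T ≤ nm v2) (by omega)
      (b3 u2 ReflTransGen.refl) (b3 v2 r2) hw2)
  -- the rightmost site of the two clusters
  obtain ⟨s, hs, hmax⟩ := Finset.exists_max_image ((hfin u1 hu1R).toFinset ∪ (hfin u2 hu2R).toFinset)
    (fun s : ℤ × ℤ => s.1) ⟨u1, by simp [ReflTransGen.refl]⟩
  simp only [Finset.mem_union, Set.Finite.mem_toFinset, Set.mem_ofPred_eq] at hs hmax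
  rcases hs with hs | hs
  · have hne : W ℓ2 s ≠ 0 := by rw [Wst ℓ2 b1 u1 s hu1e hs]; exact hw2
    obtain ⟨e, he, h4, h5⟩ := W_ne_right hne
    have h6 := b2 e he
    have h7 := hmax _ (Or.inr h6)
    have h8 : ls e = s := Prod.ext (le_antisymm h7 h4) h5
    rw [h8] at h6
    exact hdisj s hs h6
  · have hne : W ℓ1 s ≠ 0 := by rw [Wst ℓ1 a1 u2 s hu2e hs]; exact hw1
    obtain ⟨e, he, h4, h5⟩ := W_ne_right hne
    have h6 := a2 e he
    have h7 := hmax _ (Or.inl h6)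
    have h8 : ls e = s := Prod.ext (le_antisymm h7 h4) h5
    rw [h8] at h6
    exact hdisj s h6 hs

end Vale.Agent.P167.H519
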