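import Vale.Agent.P167.H519.GLim
import Vale.Agent.P167.H519.GGlue
import Vale.Agent.P167.H519.ArmP
import Vale.Agent.P167.FKA.Dual
import Vale.Agent.P167.FK.Sym

/-!
# P167, general `q`, block GQ7: the infinite-volume measure; positive association, self-duality,
probabilities of arms
-/

namespace Vale.Agent.P167.H519

open Finset Filter Topology MeasureTheory Vale.Agent.P167.FK Vale.Agent.P167.FKA Relation
open Vale.Agent.P145.FB (PStep PConn)
open Vale.Agent.P167.H259 (f_markov f_fkg f_comp f_comp2 Ex_out cf_cf PC_mono)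

variable {Q : ℝ} {P : Measure Cfg}

lemma loc_meas {B : Finset (ℤ × ℤ)} {E : Set Cfg} (h : Loc B (E.indicator 1)) : MeasurableSet E := by
  have h1 : Measurable (E.indicator (1 : Cfg → ℝ)) := (loc_cont h).measurable
  have h2 : E = (E.indicator (1 : Cfg → ℝ)) ⁻¹' {1} := by
    ext ω
    by_cases hω : ω ∈ E <;> simp [hω]
  rw [h2]
  exact h1 (measurableSet_singleton 1)

lemma lim_tendsto (hP : IsLim Q P) {B : Finset (ℤ × ℤ)} {F : Cfg → ℝ} (hF : Loc B F) :
    Tendsto (fun n : ℕ => Ex Q (Bq 0 n) eta0 F) atTop (𝓝 (∫ ω, F ω ∂P)) := by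
  rw [Metric.tendsto_atTop]
  intro ε hε
  obtain ⟨R, hR⟩ := hP.2 B F hF (ε / 2) (by linarith)
  refine ⟨R.toNat, fun n hn => ?_⟩
  have h1 := hR (Bq 0 n) eta0 (Bq_mono (by omega)) f_good.2.1
  rw [Real.dist_eq]
  linarith

lemma pr_int {E : Set Cfg} {B : Finset (ℤ × ℤ)} (h : Loc B (E.indicator 1)) :
    ∫ ω, E.indicator 1 ω ∂P = P.real E := by
  have h1 := integral_indicator_one (μ := P) (loc_meas h)
  rw [← h1]

lemma pr_tendsto (hP : IsLim Q P) {B : Finset (ℤ × ℤ)} {E : Set Cfg}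
    (hE : Loc B (E.indicator 1)) :
    Tendsto (fun n : ℕ => Pr Q (Bq 0 n) eta0 E) atTop (𝓝 (P.real E)) := by
  have h := lim_tendsto hP hE
  rw [pr_int hE] at h
  exact h

/-! ### local events -/

/-- `E` is a local event. -/
def LE (E : Set Cfg) : Prop := ∃ B, Loc B (E.indicator 1)

lemma loc_of_dep {B : Finset (ℤ × ℤ)} {E : Set Cfg}
    (h : ∀ ω ω' : Cfg, (∀ v ∈ B, ω v = ω' v) → ω ∈ E → ω' ∈ E) : Loc B (E.indicator 1) := by
  intro ω ω' hω
  by_cases h1 : ω ∈ E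
  · rw [Set.indicator_of_mem h1, Set.indicator_of_mem (h ω ω' hω h1)]
    rfl
  · have h2 : ω' ∉ E := fun h3 => h1 (h ω' ω (fun v hv => (hω v hv).symm) h3)
    rw [Set.indicator_of_notMem h1, Set.indicator_of_notMem h2]

lemma dep_of_loc {B : Finset (ℤ × ℤ)} {E : Set Cfg} (h : Loc B (E.indicator 1)) {ω ω' : Cfg}
    (hω : ∀ v ∈ B, ω v = ω' v) (h1 : ω ∈ E) : ω' ∈ E := by
  by_contra h2
  have := h ω ω' hω
  rw [Set.indicator_of_mem h1, Set.indicator_of_notMem h2] at this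
  simp at this

lemma LE.inter {E E' : Set Cfg} (h : LE E) (h' : LE E') : LE (E ∩ E') := by
  obtain ⟨B, hB⟩ := h
  obtain ⟨B', hB'⟩ := h'
  refine ⟨B ∪ B', loc_of_dep fun ω ω' hω h1 => ⟨?_, ?_⟩⟩
  · exact dep_of_loc hB (fun v hv => hω v (Finset.mem_union_left _ hv)) h1.1
  · exact dep_of_loc hB' (fun v hv => hω v (Finset.mem_union_right _ hv)) h1.2

lemma LE.compl {E : Set Cfg} (h : LE E) : LE Eᶜ := by
  obtain ⟨B, hB⟩ := h
  refine ⟨B, loc_of_dep fun ω ω' hω h1 h2 => h1 ?_⟩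
  exact dep_of_loc hB (fun v hv => (hω v hv).symm) h2

/-- positive association of the limit -/
lemma fkg_lim (hQ : 1 ≤ Q) (hP : IsLim Q P) {E E' : Set Cfg} (h : LE E) (h' : LE E')
    (hi : IncS E) (hi' : IncS E') : P.real E * P.real E' ≤ P.real (E ∩ E') := by
  obtain ⟨B, hB⟩ := h
  obtain ⟨B', hB'⟩ := h'
  obtain ⟨B'', hB''⟩ := LE.inter ⟨B, hB⟩ ⟨B', hB'⟩
  refine le_of_tendsto_of_tendsto ((pr_tendsto hP hB).mul (pr_tendsto hP hB')) (pr_tendsto hP hB'')
    (Filter.Eventually.of_forall fun n => ?_)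
  have h1 := f_fkg Q (Bq 0 n) eta0 _ _ hQ f_good.2.1 hi.incF hi'.incF
  refine h1.trans (le_of_eq (Ex_congr fun S _ => ?_))
  exact (ind_inter _ _ _).symm

lemma armP_iff_x {r R : ℤ} {ω : Cfg} : ArmP r R ω ↔ ArmPx 0 r R ω := by
  unfold ArmP ArmPx
  simp only [sub_zero]

lemma armD_iff_x {r R : ℤ} {ω : Cfg} : ArmD r R ω ↔ ArmDx 0 r R ω := by
  unfold ArmD ArmDx
  simp only [sub_zero]

lemma inc_armP (r R : ℤ) : IncS {ω | ArmP r R ω} := by
  have := inc_arm 0 r R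
  intro ω ω' h h1
  simp only [Set.mem_ofPred_eq, armP_iff_x] at *
  exact this ω ω' h h1

lemma le_armP {r R : ℤ} (h : r ≤ R) : Loc (annS r R) ({ω | ArmP r R ω}.indicator 1) :=
  loc_of_dep fun ω ω' hω h1 => dep_armP h ω ω' hω h1

lemma le_armD {r R : ℤ} : Loc (annS 0 R) ({ω | ArmD r R ω}.indicator 1) :=
  loc_of_dep fun ω ω' hω h1 => dep_armD ω ω' hω h1

lemma dec_armD (r R : ℤ) : IncS {ω | ArmD r R ω}ᶜ := by
  rintro ω ω' h h1 ⟨u, v, hu, h2, h3, h4⟩
  apply h1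
  exact ⟨u, v, hu, h2, h3, pconn_of h4.1 h4.2 fun a b ha hab =>
    ⟨⟨hab.1.1, hab.1.2.1, fun h5 => hab.1.2.2 (h _ h5)⟩, hab.2⟩⟩

/-- probability of a primal arm -/
noncomputable def pP (P : Measure Cfg) (r R : ℤ) : ℝ := P.real {ω | ArmP r R ω}

lemma pP_nonneg (r R : ℤ) : 0 ≤ pP P r R := measureReal_nonneg

lemma pP_mono [IsProbabilityMeasure P] {r R r' R' : ℤ} (h1 : r ≤ r') (h2 : r' ≤ R') (h3 : R' ≤ R) :
    pP P r R ≤ pP P r' R' :=
  measureReal_mono (fun _ h => armP_mono h h1 h2 h3)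

/-- the upper bound -/
lemma pP_up (hQ : 1 ≤ Q) {L : ℤ} (hL : Rat Q L) (hP : IsLim Q P) {t R : ℤ} (ht : 1 ≤ t)
    (hR : L * t + 1 ≤ R) : pP P 0 R ≤ 2 * pP P 0 t * pP P (L * t + 1) R := by
  have := hP.1
  have htL : t ≤ L * t := by have := hL.1; nlinarith
  have h1 : pP P 0 R ≤ P.real ({ω | ArmP 0 t ω} ∩ {ω | ArmP (L * t + 1) R ω}) :=
    measureReal_mono fun ω h => ⟨armP_mono h le_rfl (by omega) (by omega),
      armP_mono h (by omega) hR le_rfl⟩
  refine h1.trans ?_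
  have l1 := le_armP (r := 0) (R := t) (by omega)
  have l2 := le_armP (r := L * t + 1) (R := R) hR
  obtain ⟨B, hB⟩ := LE.inter ⟨_, l1⟩ ⟨_, l2⟩
  unfold pP
  refine le_of_tendsto_of_tendsto (pr_tendsto hP hB)
    (((pr_tendsto hP l1).const_mul 2).mul (pr_tendsto hP l2)) ?_
  filter_upwards [eventually_ge_atTop (R + 1).toNat] with n hn
  have h3 := qm_up hQ hL (D := Bq 0 n) (V := annS (L * t + 1) R) (r := t) ht
    (Bq_mono (by omega)) (fun v hv => by
      rw [mem_annS, nm_le] at hv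
      simp only [Bq, Prod.fst_zero, Prod.snd_zero, zero_sub, zero_add, Finset.mem_product,
        Finset.mem_Ico]
      omega) (fun v hv hv' => by
      rw [mem_annS] at hv
      have h4 : nm v ≤ L * t := by
        simp only [Bq, Prod.fst_zero, Prod.snd_zero, zero_sub, zero_add, Finset.mem_product,
          Finset.mem_Ico] at hv'
        rw [nm_le]
        omega
      omega) (inc_armP (L * t + 1) R).incF (ind_nonneg _) l2 (ind_nonneg {ω | ArmP 0 t ω}) (by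
      have := loc_arm 0 0 t
      simpa only [← armP_iff_x] using this)
  have h5 : Pr Q (Bq 0 n) eta0 ({ω | ArmP 0 t ω} ∩ {ω | ArmP (L * t + 1) R ω}) =
      Ex Q (Bq 0 n) eta0 (fun ω => {ω | ArmP 0 t ω}.indicator 1 ω *
        {ω | ArmP (L * t + 1) R ω}.indicator 1 ω) := Ex_congr fun S _ => ind_inter _ _ _
  rw [h5]
  refine h3.trans (le_of_eq ?_)
  show 2 * Pr Q (Bq 0 n) eta0 {ω | ArmP (L * t + 1) R ω} * Pr Q (Bq 0 n) eta0 {ω | ArmP 0 t ω} = _
  ring

/-- the conditional bounds give bounds for the limit -/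
lemma pD_le (hQ : 1 ≤ Q) {L : ℤ} (hL : Rat Q L) (hP : IsLim Q P) {r R : ℤ} (hr : 1 ≤ r)
    (hR : L * r ≤ R) : P.real {ω | ArmD r R ω} ≤ 1 / 2 := by
  have hQ0 : 0 < Q := by linarith
  refine le_of_tendsto (pr_tendsto hP (le_armD (r := r) (R := R))) ?_
  filter_upwards [eventually_ge_atTop R.toNat] with n hn
  have h := (hL.2 0 r R (Bq 0 n) eta0 (fun _ => 1) hr hR f_good.2.1
    (Finset.sdiff_subset.trans (Bq_mono (by omega))) (fun _ => zero_le_one) (fun _ _ _ => rfl)).2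
  rw [Ex_const hQ0, mul_one] at h
  refine le_trans (le_of_eq (Ex_congr fun S _ => ?_)) h
  rw [one_mul]
  simp only [armD_iff_x]

/-- the lower bound -/
lemma pP_low (hbd : S_bdP) (hnx : S_nx) (hj : S_jump) (ho : S_out) (hst : S_step) (hQ : 1 ≤ Q)
    {L : ℤ} (hL : Rat Q L) (hP : IsLim Q P) {t R : ℤ} (ht : 1 ≤ t) (hR : 3 * L * t ≤ R) :
    1 / 2 * pP P 0 (3 * L * t) * pP P t R ≤ pP P 0 R := by
  have := hP.1
  have hL2 := hL.1
  have e1 : 3 * L * t = 3 * (L * t) := by ring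
  have e2 : 2 * t ≤ L * t := by nlinarith
  have e3 : L * (t + 1) ≤ 3 * L * t - 1 := by nlinarith
  set A : Set Cfg := {ω | ArmP 0 (3 * L * t) ω}
  set B : Set Cfg := {ω | ArmP t R ω}
  set C : Set Cfg := {ω | ArmD (t + 1) (3 * L * t - 1) ω}ᶜ
  have hA : LE A := ⟨_, le_armP (by omega)⟩
  have hB : LE B := ⟨_, le_armP (by omega)⟩
  have hC : LE C := LE.compl ⟨_, le_armD⟩
  have h1 : (1 : ℝ) / 2 ≤ P.real C := by
    have h2 := pD_le hQ hL hP (r := t + 1) (R := 3 * L * t - 1) (by omega) e3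
    have h3 : P.real C = 1 - P.real {ω | ArmD (t + 1) (3 * L * t - 1) ω} :=
      probReal_compl_eq_one_sub (loc_meas le_armD)
    rw [h3]
    linarith
  have h4 := fkg_lim hQ hP hA hB (inc_armP _ _) (inc_armP _ _)
  have h5 := fkg_lim hQ hP (hA.inter hB) hC (fun ω ω' h h' => ⟨inc_armP _ _ ω ω' h h'.1,
    inc_armP _ _ ω ω' h h'.2⟩) (dec_armD _ _)
  have h6 : P.real (A ∩ B ∩ C) ≤ pP P 0 R := by
    refine measureReal_mono fun ω h => ?_
    exact glue_det' hbd hnx hj ho hst (q := 0) (t := t) (T := 3 * L * t) (by omega) (by omega) hR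
      h.1.1 h.1.2 h.2
  have h7 : 0 ≤ P.real (A ∩ B) := measureReal_nonneg
  calc 1 / 2 * pP P 0 (3 * L * t) * pP P t R = 1 / 2 * (P.real A * P.real B) := by
        show 1 / 2 * P.real A * P.real B = _
        ring
    _ ≤ 1 / 2 * P.real (A ∩ B) := by linarith
    _ ≤ P.real C * P.real (A ∩ B) := mul_le_mul_of_nonneg_right h1 h7
    _ ≤ P.real (A ∩ B ∩ C) := by rw [mul_comm]; exact h5
    _ ≤ _ := h6

/-! ### positivity -/

lemma full_armP {ω : Cfg} {R : ℤ} (hR : 0 ≤ R) (hω : ∀ v, nm v ≤ R → ω v = true) :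
    ArmP 0 R ω := by
  obtain ⟨s, hs1, hs2⟩ : ∃ s : ℤ × ℤ, Even (s.1 + s.2) ∧ nm s = R := by
    by_cases hp : Even R
    · exact ⟨(R, 0), by simpa using hp, by simp [nm, abs_of_nonneg hR, hR]⟩
    · refine ⟨(R, 1), ?_, ?_⟩
      · rw [Int.even_iff] at hp ⊢
        simp only
        omega
      · have : 1 ≤ R := by
          rcases hR.eq_or_lt with h | h
          · exact absurd (h ▸ Even.zero) hp
          · omega
        simp [nm, abs_of_nonneg hR, this]
  have h3 := box_conn (ω := ω) (ρ := R) hR hω (nm s).toNat s hs1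
    (by have := (nm_le (z := s) (n := R)).1 hs2.le; omega)
    (by have := (nm_le (z := s) (n := R)).1 hs2.le; omega)
    (by have := (nm_le (z := s) (n := R)).1 hs2.le; omega)
    (by have := (nm_le (z := s) (n := R)).1 hs2.le; omega) (Int.self_le_toNat _)
  rw [armP_iff hR]
  exact armP_of_path (u := 0) hR (by simp) (conn_symm h3) (by simp [nm]) hs2.ge

/-- finite energy -/
lemma full_pos' (hQ : 1 ≤ Q) (hP : IsLim Q P) (T : Finset (ℤ × ℤ)) :
    0 < P.real {ω : Cfg | ∀ v ∈ T, ω v = true} := by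
  have hQ0 : 0 < Q := by linarith
  have := hP.1
  have hloc : Loc T ({ω : Cfg | ∀ v ∈ T, ω v = true}.indicator 1) :=
    loc_of_dep fun ω ω' h h1 v hv => by rw [← h v hv]; exact h1 v hv
  have hinc : IncS {ω : Cfg | ∀ v ∈ T, ω v = true} := fun ω ω' h h1 v hv => h v (h1 v hv)
  have h0 : 0 < Ex Q T eta0 ({ω : Cfg | ∀ v ∈ T, ω v = true}.indicator 1) := by
    unfold Ex
    refine div_pos ?_ (Zq_pos hQ0 _ _)
    refine Finset.sum_pos' (fun S _ => mul_nonneg (pow_nonneg hQ0.le _) (ind_nonneg _ _))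
      ⟨T, by simp, ?_⟩
    refine mul_pos (pow_pos hQ0 _) ?_
    rw [Set.indicator_of_mem]
    · simp
    · intro v hv
      rw [cf_in hv]
      simpa using hv
  refine h0.trans_le (ge_of_tendsto (pr_tendsto hP hloc) ?_)
  obtain ⟨r, -, hr⟩ := exists_Bq T
  filter_upwards [eventually_ge_atTop r.toNat] with n hn
  unfold Pr
  rw [f_markov Q T (Bq 0 n) eta0 _ hQ0 (hr.trans (Bq_mono (by omega))) f_good.2.1]
  rw [← Ex_const (Q := Q) (D := Bq 0 n) (η := eta0) hQ0 (Ex Q T eta0 _)]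
  exact Ex_mono hQ0 fun S _ => f_comp Q _ _ _ _ hQ f_good.2.1 (f_good.1 _ eta0 S f_good.2.1)
    (fun v hv => by simp [eta0] at hv) hinc.incF

lemma pP_pos (hQ : 1 ≤ Q) (hP : IsLim Q P) {R : ℤ} (hR : 0 ≤ R) : 0 < pP P 0 R := by
  have := hP.1
  refine (full_pos' hQ hP (annS 0 R)).trans_le (measureReal_mono fun ω hω => ?_)
  exact full_armP hR fun v hv => hω v (mem_annS.2 ⟨nm_nonneg v, hv⟩)

/-! ### self-duality -/

lemma dual_lim (hQ0 : 0 < Q) (hP : IsLim Q P) {B : Finset (ℤ × ℤ)} {F : Cfg → ℝ} (hF : Loc B F) :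
    ∫ ω, F ω ∂P = ∫ ω, F (du ω) ∂P := by
  have hF' : Loc (B.image shi) (fun ω => F (du ω)) := by
    intro ω ω' h
    refine hF _ _ fun v hv => ?_
    have h0 : ω (v.1 - 1, v.2) = ω' (v.1 - 1, v.2) := h _ (Finset.mem_image.2 ⟨v, hv, rfl⟩)
    show (!(ω (v.1 - 1, v.2))) = !(ω' (v.1 - 1, v.2))
    rw [h0]
  refine eq_of_abs_sub_le_all fun ε hε => ?_
  obtain ⟨R, hR⟩ := hP.2 B F hF (ε / 2) (by linarith)
  obtain ⟨R', hR'⟩ := hP.2 _ _ hF' (ε / 2) (by linarith)
  set M := max (R + 1) R' with hM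
  have h1 := hR ((Bq 0 M).image (fun v => (v.1 + 1, v.2))) (du eta0) (by
    intro v hv
    rw [Finset.mem_image]
    refine ⟨(v.1 - 1, v.2), ?_, by simp⟩
    simp only [Bq, Prod.fst_zero, Prod.snd_zero, zero_sub, zero_add, Finset.mem_product,
      Finset.mem_Ico] at hv ⊢
    have := le_max_left (R + 1) R'
    omega) (f_dual.1 _ f_good.2.1)
  have h2 := hR' (Bq 0 M) eta0 (Bq_mono (le_max_right _ _)) f_good.2.1
  rw [f_dual.2 Q (Bq 0 M) eta0 F hQ0 f_good.2.1] at h1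
  rw [abs_le] at *
  constructor <;> linarith [h1.1, h1.2, h2.1, h2.2]

/-- dual arms are not more likely than primal arms -/
lemma pD_le_pP (hQ0 : 0 < Q) (hP : IsLim Q P) {r R : ℤ} (hrR : r + 2 ≤ R) :
    P.real {ω | ArmD r R ω} ≤ pP P (r + 1) (R - 1) := by
  have := hP.1
  have h1 := dual_lim hQ0 hP (le_armP (r := r + 1) (R := R - 1) (by omega))
  rw [pr_int (le_armP (by omega))] at h1
  unfold pP
  rw [h1, ← pr_int (le_armD (r := r) (R := R))]
  have hl1 : Loc (annS 0 R) ({ω | ArmD r R ω}.indicator 1) := le_armD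
  have hl2 : Loc ((annS (r + 1) (R - 1)).image shi)
      (fun ω => {ω | ArmP (r + 1) (R - 1) ω}.indicator (1 : Cfg → ℝ) (du ω)) := by
    intro ω ω' h
    refine le_armP (by omega) _ _ fun v hv => ?_
    have h0 : ω (v.1 - 1, v.2) = ω' (v.1 - 1, v.2) := h _ (Finset.mem_image.2 ⟨v, hv, rfl⟩)
    show (!(ω (v.1 - 1, v.2))) = !(ω' (v.1 - 1, v.2))
    rw [h0]
  refine le_of_tendsto_of_tendsto' (lim_tendsto hP hl1) (lim_tendsto hP hl2) fun n => ?_
  refine Ex_mono hQ0 fun S _ => ?_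
  set ω := cf (Bq 0 n) eta0 S
  by_cases hω : ω ∈ {ω | ArmD r R ω}
  · rw [Set.indicator_of_mem hω]
    have h2 : du ω ∈ {ω | ArmP (r + 1) (R - 1) ω} := by
      have h3 : ArmDx 0 r R ω := armD_iff_x.1 hω
      rw [arm_dual] at h3
      obtain ⟨u, v, h4, h5, h6, h7⟩ := h3
      show ArmP (r + 1) (R - 1) (du ω)
      have e1 : (FKA.sh 0).1 = 1 := rfl
      have e2 : (FKA.sh 0).2 = 0 := rfl
      have g1 : nm u ≤ r + 1 := by
        rw [nm_le] at h5 ⊢
        rw [Prod.fst_sub, Prod.snd_sub, e1, e2] at h5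
        omega
      have g2 : R - 1 ≤ nm v := by
        by_contra hcon
        have h8 := (nm_le (z := v) (n := R - 2)).1 (by omega)
        have h9 : nm (v - FKA.sh 0) ≤ R - 1 := by
          rw [nm_le, Prod.fst_sub, Prod.snd_sub, e1, e2]
          omega
        omega
      have g3 : ReflTransGen (PStep (op (du ω))) u v :=
        h7.2.lift (fun w => w) fun a b hab => hab.1
      rw [armP_iff (by omega)]
      exact armP_of_path (by omega) h4 g3 g1 g2
    rw [Set.indicator_of_mem h2]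
    simp
  · rw [Set.indicator_of_notMem hω]
    exact ind_nonneg _ _

end Vale.Agent.P167.H519
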