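import Vale.Agent.P167.H562.GTv
import Vale.Agent.P167.H519.GP

/-!
# P167, general `q`: ratio mixing for all nonnegative local functions
-/

namespace Vale.Agent.P167.H519

open Finset Filter Topology MeasureTheory Vale.Agent.P167.FK Vale.Agent.P167.FKA Relation
open Vale.Agent.P145.FB (PStep PConn)
open Vale.Agent.P167.H259 (f_markov f_fkg f_comp f_comp2 Ex_out cf_cf PC_mono)
open Vale.Agent.P167.H562.GL (eq_of_inc Ex_split near_of_corx far_of_corx)

variable {Q : ℝ}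

/-- **Comparison of two boundary conditions on the event of no connection**, for all nonnegative
local functions. -/
theorem gen_comp (hQ : 1 ≤ Q) {V : Finset (ℤ × ℤ)} {F : Cfg → ℝ} (hF0 : ∀ ω, 0 ≤ F ω)
    (hL : Loc V F) : ∀ (n : ℕ) (A : Finset (ℤ × ℤ)) (ξ ξ' : Cfg),
    A.card = n → V ⊆ A → Good ξ → Good ξ' → (∀ v, v ∉ A → ξ v = true → ξ' v = true) →
    Ex Q A ξ' (fun ω => F ω * (1 - {ω | Jn (Sx A ξ') V ω}.indicator 1 ω)) ≤ Ex Q A ξ F := by
  have hQ0 : 0 < Q := by linarith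
  intro n
  induction n with
  | zero =>
    intro A ξ ξ' hn hVA hξ hξ' hle
    rw [Finset.card_eq_zero] at hn
    subst hn
    have hV : V = ∅ := Finset.subset_empty.1 hVA
    subst hV
    have h1 : ∀ ω ω' : Cfg, F ω = F ω' := fun ω ω' => hL ω ω' fun v hv => absurd hv (by simp)
    refine (Ex_mono (G := fun _ => F ξ) hQ0 fun S _ => ?_).trans ?_
    · rw [h1 _ ξ]
      have := hF0 ξ
      have h2 := ind_nonneg {ω | Jn (Sx ∅ ξ') ∅ ω} (cf ∅ ξ' S)
      nlinarith
    · rw [← Ex_congr (F := fun _ => F ξ) (G := F) fun S _ => h1 _ _, Ex_const hQ0, Ex_const hQ0]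
  | succ n ih =>
    intro A ξ ξ' hn hVA hξ hξ' hle
    by_cases he : ∃ e ∈ A, ∃ c ∈ Sx A ξ', Cor e c
    · obtain ⟨e, heA, c, hc, hec⟩ := he
      by_cases heV : e ∈ V
      · -- the event of no connection is empty
        have h1 : ∀ ω : Cfg, F ω * (1 - {ω | Jn (Sx A ξ') V ω}.indicator 1 ω) = 0 := by
          intro ω
          have h2 : ω ∈ {ω | Jn (Sx A ξ') V ω} := ⟨c, hc, c, ⟨e, heV, hec⟩, ReflTransGen.refl⟩
          rw [Set.indicator_of_mem h2]
          simp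
        simp only [h1]
        rw [Ex_const hQ0]
        exact Ex_nonneg hQ0 fun S _ => hF0 _
      · set A' := A.erase e with hA'
        have hA'A : A' ⊆ A := Finset.erase_subset _ _
        have hcard : A'.card = n := by rw [hA', Finset.card_erase_of_mem heA, hn]; rfl
        have hVA' : V ⊆ A' := fun v hv => Finset.mem_erase.2 ⟨fun h => heV (h ▸ hv), hVA hv⟩
        have heA' : e ∉ A' := by rw [hA']; exact Finset.notMem_erase _ _
        have hnot : ∀ v, v ∉ A' → v ∉ A ∨ v = e := by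
          intro v hv
          by_cases h : v = e
          · exact Or.inr h
          · exact Or.inl fun h' => hv (Finset.mem_erase.2 ⟨h, h'⟩)
        have g0 : Good (cf A ξ ∅) := f_good.1 A ξ ∅ hξ
        have g1 : Good (cf A ξ {e}) := f_good.1 A ξ {e} hξ
        have g0' : Good (cf A ξ' ∅) := f_good.1 A ξ' ∅ hξ'
        have g1' : Good (cf A ξ' {e}) := f_good.1 A ξ' {e} hξ'
        set p := Pr Q A ξ {ω : Cfg | ω e = true} with hp
        set p' := Pr Q A ξ' {ω : Cfg | ω e = true} with hp'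
        have hp0 : 0 ≤ p := Pr_nonneg hQ0 _
        have hp1 : p' ≤ 1 := Pr_le_one hQ0 _
        have hpp : p ≤ p' := by
          have k1 : p = Pr Q A (cf A ξ ∅) {ω : Cfg | ω e = true} := by
            rw [hp]
            exact Ex_out (fun v hv => by rw [cf_out hv]) _
          have k2 : p' = Pr Q A (cf A ξ' ∅) {ω : Cfg | ω e = true} := by
            rw [hp']
            exact Ex_out (fun v hv => by rw [cf_out hv]) _
          rw [k1, k2]
          refine f_comp Q A _ _ _ hQ g0 g0' (fun v hv => ?_) ?_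
          · by_cases h : v ∈ A
            · rw [cf_in h] at hv; simp at hv
            · rw [cf_out h] at hv ⊢
              exact hle v h hv
          · exact IncS.incF (A := {ω : Cfg | ω e = true}) fun ω ω' h h' => h e h'
        -- induction
        have i1 := ih A' (cf A ξ {e}) (cf A ξ' {e}) hcard hVA' g1 g1' (fun v hv hvt => by
          rcases hnot v hv with h | h
          · rw [cf_out h] at hvt ⊢
            exact hle v h hvt
          · subst h
            rw [cf_in heA]; simp)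
        have i2 := ih A' (cf A ξ ∅) (cf A ξ' ∅) hcard hVA' g0 g0' (fun v hv hvt => by
          rcases hnot v hv with h | h
          · rw [cf_out h] at hvt ⊢
            exact hle v h hvt
          · subst h
            rw [cf_in heA] at hvt; simp at hvt)
        have i3 := ih A' (cf A ξ ∅) (cf A ξ' {e}) hcard hVA' g0 g1' (fun v hv hvt => by
          rcases hnot v hv with h | h
          · rw [cf_out h] at hvt ⊢
            exact hle v h hvt
          · subst h
            rw [cf_in heA]; simp)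
        -- the left side
        have hJ : ∀ S : Finset (ℤ × ℤ),
            Ex Q A' (cf A ξ' S) (fun ω => F ω * (1 - {ω | Jn (Sx A ξ') V ω}.indicator 1 ω)) ≤
            Ex Q A' (cf A ξ' S) (fun ω => F ω *
              (1 - {ω | Jn (Sx A' (cf A ξ' S)) V ω}.indicator 1 ω)) := by
          intro S
          refine Ex_mono hQ0 fun T _ => mul_le_mul_of_nonneg_left (sub_le_sub_left
            (ind_le_of_imp ?_) _) (hF0 _)
          rintro ⟨s, ⟨hse, v, hvA', hvω, hvs⟩, u, hu, hsu⟩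
          rcases hnot v hvA' with h | h
          · refine ⟨s, ⟨hse, v, h, ?_, hvs⟩, u, hu, hsu⟩
            rw [cf_out h] at hvω
            exact hvω
          · subst h
            refine ⟨c, hc, u, hu, ReflTransGen.trans ?_ hsu⟩
            refine pc_of_cor (v := v) ?_ hec hvs hc.1 hse
            rw [cf_out heA']
            exact hvω
        rw [Ex_split hQ0 heA hξ F, Ex_split hQ0 heA hξ' (fun ω => F ω *
          (1 - {ω | Jn (Sx A ξ') V ω}.indicator 1 ω)), ← hp, ← hp', ← hA']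
        have j1 := hJ {e}
        have j0 := hJ ∅
        set a1 := Ex Q A' (cf A ξ {e}) F
        set a0 := Ex Q A' (cf A ξ ∅) F
        set b1 := Ex Q A' (cf A ξ' {e}) (fun ω => F ω * (1 - {ω | Jn (Sx A ξ') V ω}.indicator 1 ω))
        set b0 := Ex Q A' (cf A ξ' ∅) (fun ω => F ω * (1 - {ω | Jn (Sx A ξ') V ω}.indicator 1 ω))
        have k1 : b1 ≤ a1 := j1.trans i1
        have k2 : b0 ≤ a0 := j0.trans i2
        have k3 : b1 ≤ a0 := j1.trans i3
        have e1 : p' * b1 + (1 - p') * b0 = p * b1 + (1 - p') * b0 + (p' - p) * b1 := by ring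
        have e2 : p * a1 + (1 - p) * a0 = p * a1 + (1 - p') * a0 + (p' - p) * a0 := by ring
        rw [e1, e2]
        have q1 := mul_le_mul_of_nonneg_left k1 hp0
        have q2 := mul_le_mul_of_nonneg_left k2 (sub_nonneg.2 hp1)
        have q3 := mul_le_mul_of_nonneg_left k3 (sub_nonneg.2 hpp)
        linarith
    · push Not at he
      have key : ∀ F : Cfg → ℝ, IncF F → (∀ ω, 0 ≤ F ω) → Loc V F →
          Ex Q A ξ F = Ex Q A ξ' F := by
        intro F hF _ hL
        refine le_antisymm ?_ ?_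
        · refine f_comp2 Q A ξ ξ' F hQ hξ hξ' ?_ hF (loc_mono hVA hL)
          intro S hS a ha haS hpc
          refine PC_mono (fun v hv => ?_) hpc
          by_cases h : v ∈ A
          · rw [cf_in h] at hv ⊢; exact hv
          · rw [cf_out h] at hv ⊢; exact hle v h hv
        · refine f_comp2 Q A ξ' ξ F hQ hξ' hξ ?_ hF (loc_mono hVA hL)
          intro S hS a ha haS hpc
          have key : ∀ u, PC (cf A ξ' S) (FK.pa a) u → PC (cf A ξ S) (FK.pa a) u ∧
              (∃ v ∈ A, Cor v u) ∧ Even (u.1 + u.2) := by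
            intro u hu
            induction hu with
            | refl => exact ⟨ReflTransGen.refl, ⟨a, ha, pa_cor a⟩, pa_even a⟩
            | @tail u w _ huw ih =>
              obtain ⟨h1, ⟨v, hvA, hvu⟩, h2⟩ := ih
              have hcw := cor_of_step huw
              have hm : cf A ξ' S (min u.1 w.1, min u.2 w.2) = true := huw.2.2
              have hwe : Even (w.1 + w.2) := (FKA.even_step huw).1 h2
              by_cases hmA : (min u.1 w.1, min u.2 w.2) ∈ A
              · refine ⟨h1.tail ⟨huw.1, huw.2.1, ?_⟩, ⟨_, hmA, hcw.2⟩, hwe⟩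
                show cf A ξ S _ = true
                rw [cf_in hmA] at hm ⊢
                exact hm
              · exfalso
                rw [cf_out hmA] at hm
                exact he v hvA u ⟨h2, _, hmA, hm, hcw.1⟩ hvu
          exact (key _ hpc).1
      have h1 := eq_of_inc (Q := Q) key V F hL ∅ (by simp)
      have h2 : ∀ ω, F ω * mT ∅ ω = F ω := fun ω => by simp [mT]
      simp only [h2] at h1
      rw [h1]
      refine Ex_mono hQ0 fun S _ => ?_
      have h3 := ind_nonneg {ω | Jn (Sx A ξ') V ω} (cf A ξ' S)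
      have h4 := hF0 (cf A ξ' S)
      nlinarith

/-- the larger boundary condition -/
theorem rat_up (hQ : 1 ≤ Q) {L : ℤ} (hL : Rat Q L) {x : ℤ × ℤ} {r : ℤ} (hr : 1 ≤ r)
    {A V : Finset (ℤ × ℤ)} (hA : Bq x (L * r) ⊆ A) (hV : V ⊆ Bq x r) {F : Cfg → ℝ}
    (hF0 : ∀ ω, 0 ≤ F ω) (hFV : Loc V F) {ξ ξ' : Cfg} (hξ : Good ξ) (hξ' : Good ξ')
    (hle : ∀ v, v ∉ A → ξ v = true → ξ' v = true) : Ex Q A ξ' F ≤ 2 * Ex Q A ξ F := by
  have hQ0 : 0 < Q := by linarith
  obtain ⟨hL2, hrat⟩ := hL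
  have hrL : r ≤ L * r := by nlinarith
  have hBB : Bq x r ⊆ Bq x (L * r) := by
    intro v hv
    simp only [Bq, Finset.mem_product, Finset.mem_Ico] at hv ⊢
    omega
  have h4 := gen_comp hQ hF0 hFV A.card A ξ ξ' rfl (hV.trans (hBB.trans hA)) hξ hξ' hle
  have h5 := (hrat x r (L * r) A ξ' F hr le_rfl hξ' (Finset.sdiff_subset.trans hA) hF0
    (fun τ τ' h => hFV τ τ' fun v hv => h v fun h' => (Finset.mem_sdiff.1 h').2 (hV hv))).1
  have h6 : Ex Q A ξ' (fun τ => F τ * (1 - {τ | Jn (Sx A ξ') V τ}.indicator 1 τ)) =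
      Ex Q A ξ' F - Ex Q A ξ' (fun τ => F τ * {τ | Jn (Sx A ξ') V τ}.indicator 1 τ) := by
    rw [← Ex_sub]
    refine Ex_congr fun S _ => ?_
    ring
  have h7 : Ex Q A ξ' (fun τ => F τ * {τ | Jn (Sx A ξ') V τ}.indicator 1 τ) ≤
      Ex Q A ξ' (fun τ => F τ * {τ | ArmPx x r (L * r) τ}.indicator 1 τ) := by
    refine Ex_mono hQ0 fun S _ => mul_le_mul_of_nonneg_left (ind_le_of_imp ?_) (hF0 _)
    rintro ⟨s, ⟨hse, v, hvA, -, hvs⟩, u, ⟨w, hw, hwu⟩, hsu⟩
    show ArmPx x r (L * r) _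
    rw [armPx_iff hrL]
    refine ⟨u, s, ?_, near_of_corx (hV hw) hwu, far_of_corx (fun h => hvA (hA h)) hvs,
      H519.conn_symm hsu⟩
    have := rtg_parity hsu
    rw [Int.even_iff] at *
    omega
  rw [h6] at h4
  linarith

/-- inverse of the duality -/
def dui (ω : Cfg) : Cfg := fun v => !(ω (v.1 + 1, v.2))

lemma dui_du (ω : Cfg) : dui (du ω) = ω := by
  funext v
  simp [dui, du]

lemma Ex_du (hQ0 : 0 < Q) (A : Finset (ℤ × ℤ)) {ξ : Cfg} (hξ : Good ξ) (F : Cfg → ℝ) :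
    Ex Q A ξ F = Ex Q (A.image (fun v => (v.1 + 1, v.2))) (du ξ) (fun ω => F (dui ω)) := by
  rw [f_dual.2 Q A ξ _ hQ0 hξ]
  simp only [dui_du]

/-- the smaller boundary condition -/
theorem rat_dn (hQ : 1 ≤ Q) {L : ℤ} (hL : Rat Q L) {x : ℤ × ℤ} {r : ℤ} (hr : 1 ≤ r)
    {A V : Finset (ℤ × ℤ)} (hA : Bq x (L * r) ⊆ A) (hV : V ⊆ Bq x r) {F : Cfg → ℝ}
    (hF0 : ∀ ω, 0 ≤ F ω) (hFV : Loc V F) {ξ ξ' : Cfg} (hξ : Good ξ) (hξ' : Good ξ')
    (hle : ∀ v, v ∉ A → ξ v = true → ξ' v = true) : Ex Q A ξ F ≤ 2 * Ex Q A ξ' F := by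
  have hQ0 : 0 < Q := by linarith
  rw [Ex_du hQ0 A hξ F, Ex_du hQ0 A hξ' F]
  refine rat_up hQ hL (x := (x.1 + 1, x.2)) (r := r) hr (V := V.image (fun v => (v.1 + 1, v.2)))
    ?_ ?_ (fun ω => hF0 _) ?_ (f_dual.1 _ hξ') (f_dual.1 _ hξ) ?_
  · intro v hv
    refine Finset.mem_image.2 ⟨(v.1 - 1, v.2), hA ?_, by simp⟩
    simp only [Bq, Finset.mem_product, Finset.mem_Ico] at hv ⊢
    omega
  · intro v hv
    obtain ⟨w, hw, rfl⟩ := Finset.mem_image.1 hv
    have := hV hw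
    simp only [Bq, Finset.mem_product, Finset.mem_Ico] at this ⊢
    omega
  · intro ω ω' h
    refine hFV _ _ fun v hv => ?_
    have h0 : ω (v.1 + 1, v.2) = ω' (v.1 + 1, v.2) := h _ (Finset.mem_image.2 ⟨v, hv, rfl⟩)
    show (!(ω (v.1 + 1, v.2))) = !(ω' (v.1 + 1, v.2))
    rw [h0]
  · intro v hv hvt
    have h1 : (v.1 - 1, v.2) ∉ A := fun h => hv (Finset.mem_image.2 ⟨_, h, by simp⟩)
    have h2 : (!(ξ' (v.1 - 1, v.2))) = true := hvt
    show (!(ξ (v.1 - 1, v.2))) = true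
    cases h3 : ξ (v.1 - 1, v.2) with
    | false => rfl
    | true => rw [hle _ h1 h3] at h2; simp at h2

/-- **Ratio mixing**: any two boundary conditions. -/
theorem rat_all (hQ : 1 ≤ Q) {L : ℤ} (hL : Rat Q L) {x : ℤ × ℤ} {r : ℤ} (hr : 1 ≤ r)
    {A V : Finset (ℤ × ℤ)} (hA : Bq x (L * r) ⊆ A) (hV : V ⊆ Bq x r) {F : Cfg → ℝ}
    (hF0 : ∀ ω, 0 ≤ F ω) (hFV : Loc V F) {ξ ξ' : Cfg} (hξ : Good ξ) (hξ' : Good ξ') :
    Ex Q A ξ F ≤ 4 * Ex Q A ξ' F := by
  have h1 := rat_dn hQ hL hr hA hV hF0 hFV hξ f_good.2.2 (fun _ _ _ => rfl)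
  have h2 := rat_up hQ hL hr hA hV hF0 hFV hξ' f_good.2.2 (fun _ _ _ => rfl)
  linarith

/-- quasi-independence in finite volume -/
theorem Ex_qi (hQ : 1 ≤ Q) {L : ℤ} (hL : Rat Q L) {x : ℤ × ℤ} {r : ℤ} (hr : 1 ≤ r)
    {D : Finset (ℤ × ℤ)} (hD : Bq x (L * r) ⊆ D) {F G : Cfg → ℝ} (hF0 : ∀ ω, 0 ≤ F ω)
    (hF : Loc (Bq x r) F) (hG0 : ∀ ω, 0 ≤ G ω) (hG : Ind (Bq x (L * r)) G) {η : Cfg}
    (hη : Good η) :
    Ex Q D η (fun ω => G ω * F ω) ≤ 16 * (Ex Q D η G * Ex Q D η F) ∧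
    1 / 16 * (Ex Q D η G * Ex Q D η F) ≤ Ex Q D η (fun ω => G ω * F ω) := by
  have hQ0 : 0 < Q := by linarith
  set B := Bq x (L * r) with hB
  set m := Ex Q B eta0 F with hm
  have hm0 : 0 ≤ m := Ex_nonneg hQ0 fun S _ => hF0 _
  have hG1 : 0 ≤ Ex Q D η G := Ex_nonneg hQ0 fun S _ => hG0 _
  have h1 : ∀ S, Ex Q B (cf D η S) F ≤ 4 * m := fun S =>
    rat_all hQ hL hr (x := x) subset_rfl subset_rfl hF0 hF (f_good.1 D η S hη) f_good.2.1
  have h2 : ∀ S, m ≤ 4 * Ex Q B (cf D η S) F := fun S =>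
    rat_all hQ hL hr (x := x) subset_rfl subset_rfl hF0 hF f_good.2.1 (f_good.1 D η S hη)
  have h3 : Ex Q D η F ≤ 4 * m := by
    rw [f_markov Q B D η F hQ0 hD hη, ← Ex_const (Q := Q) (D := D) (η := η) hQ0 (4 * m)]
    exact Ex_mono hQ0 fun S _ => h1 S
  have h4 : 1 / 4 * m ≤ Ex Q D η F := by
    rw [f_markov Q B D η F hQ0 hD hη, ← Ex_const (Q := Q) (D := D) (η := η) hQ0 (1 / 4 * m)]
    exact Ex_mono hQ0 fun S _ => by linarith [h2 S]
  rw [markov f_markov hQ0 (A := B) hD hη hG]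
  constructor
  · have h5 : Ex Q D η (fun ω => G ω * Ex Q B ω F) ≤ 4 * m * Ex Q D η G := by
      rw [← Ex_mul_left]
      refine Ex_mono hQ0 fun S _ => ?_
      rw [mul_comm]
      exact mul_le_mul_of_nonneg_right (h1 S) (hG0 _)
    nlinarith
  · have h5 : 1 / 4 * m * Ex Q D η G ≤ Ex Q D η (fun ω => G ω * Ex Q B ω F) := by
      rw [← Ex_mul_left]
      refine Ex_mono hQ0 fun S _ => ?_
      rw [mul_comm (G _)]
      exact mul_le_mul_of_nonneg_right (by linarith [h2 S]) (hG0 _)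
    nlinarith

/-- **Quasi-independence** for the infinite-volume measure. -/
theorem qi_lim (hQ : 1 ≤ Q) {L : ℤ} (hL : Rat Q L) {P : Measure Cfg} (hP : IsLim Q P)
    {x : ℤ × ℤ} {r : ℤ} (hr : 1 ≤ r) {F G : Cfg → ℝ} (hF0 : ∀ ω, 0 ≤ F ω)
    (hF : Loc (Bq x r) F) (hG0 : ∀ ω, 0 ≤ G ω) {B : Finset (ℤ × ℤ)} (hGB : Loc B G)
    (hG : Ind (Bq x (L * r)) G) :
    ∫ ω, G ω * F ω ∂P ≤ 16 * ((∫ ω, G ω ∂P) * ∫ ω, F ω ∂P) ∧
    1 / 16 * ((∫ ω, G ω ∂P) * ∫ ω, F ω ∂P) ≤ ∫ ω, G ω * F ω ∂P := by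
  have hGF : Loc (B ∪ Bq x r) (fun ω => G ω * F ω) := fun ω ω' h => by
    show G ω * F ω = G ω' * F ω'
    rw [hGB ω ω' fun v hv => h v (Finset.mem_union_left _ hv),
      hF ω ω' fun v hv => h v (Finset.mem_union_right _ hv)]
  have t1 := lim_tendsto hP hGF
  have t2 := lim_tendsto hP hGB
  have t3 := lim_tendsto hP hF
  obtain ⟨R, -, hR⟩ := exists_Bq (Bq x (L * r))
  have hev : ∀ᶠ n : ℕ in atTop, Bq x (L * r) ⊆ Bq 0 n := by
    filter_upwards [eventually_ge_atTop R.toNat] with n hn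
    exact hR.trans (Bq_mono (by omega))
  constructor
  · refine le_of_tendsto_of_tendsto t1 ((t2.mul t3).const_mul 16) ?_
    filter_upwards [hev] with n hn
    exact (Ex_qi hQ hL hr hn hF0 hF hG0 hG f_good.2.1).1
  · refine le_of_tendsto_of_tendsto ((t2.mul t3).const_mul (1 / 16)) t1 ?_
    filter_upwards [hev] with n hn
    exact (Ex_qi hQ hL hr hn hF0 hF hG0 hG f_good.2.1).2

end Vale.Agent.P167.H519
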