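import Vale.Agent.P167.H519.GFinDefs
import Vale.Agent.P167.H562.GDefs

/-!
P167: the exponents in terms of `κ`.
-/

namespace Vale.Agent.P167.H519

open Real
open Vale.Agent.P167.H562 (wt Xa cAa)

/-- the angle with `√q = 2 cos a` -/
noncomputable def angq (q : ℝ) : ℝ := Real.arccos (√q / 2)

lemma angq_cos {q : ℝ} (h4 : q < 4) : 2 * Real.cos (angq q) = √q := by
  have h1 : √q < 2 := by
    rw [show (2 : ℝ) = √4 by rw [show (4 : ℝ) = 2 ^ 2 by norm_num]; simp]
    exact Real.sqrt_lt_sqrt_iff_of_pos (by norm_num) |>.2 h4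
  have h0 := Real.sqrt_nonneg q
  unfold angq
  rw [Real.cos_arccos (by linarith) (by linarith)]
  ring

lemma angq_pos {q : ℝ} (h4 : q < 4) : 0 < angq q := by
  have h1 : √q < 2 := by
    rw [show (2 : ℝ) = √4 by rw [show (4 : ℝ) = 2 ^ 2 by norm_num]; simp]
    exact Real.sqrt_lt_sqrt_iff_of_pos (by norm_num) |>.2 h4
  exact Real.arccos_pos.2 (by linarith)

lemma angq_le {q : ℝ} (h1 : 1 ≤ q) : angq q ≤ π / 3 := by
  have h2 : 1 ≤ √q := Real.one_le_sqrt.2 h1
  unfold angq
  have h3 : Real.arccos (√q / 2) ≤ Real.arccos (1 / 2) := Real.arccos_le_arccos (by linarith)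
  have h4 : Real.arccos (1 / 2) = π / 3 := by
    rw [← Real.cos_pi_div_three, Real.arccos_cos (by positivity) (by linarith [Real.pi_pos])]
  linarith

lemma kappa_eq (q : ℝ) : kappa q = 4 * π / (π - angq q) := by
  unfold kappa angq
  rw [neg_div, Real.arccos_neg]

lemma angq_kappa {q : ℝ} (h1 : 1 ≤ q) : π * (1 - 4 / kappa q) = angq q := by
  have h2 := angq_le h1
  have h3 := Real.pi_pos
  have h4 : π - angq q ≠ 0 := by linarith
  rw [kappa_eq]
  field_simp
  ring

lemma kappa_pos {q : ℝ} (h1 : 1 ≤ q) : 0 < kappa q := by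
  have h2 := angq_le h1
  have h3 := Real.pi_pos
  rw [kappa_eq]
  have : 0 < π - angq q := by linarith
  positivity

lemma angq_eq {q : ℝ} (h1 : 1 ≤ q) : angq q = π * (kappa q - 4) / kappa q := by
  rw [← angq_kappa h1]
  have := kappa_pos h1
  field_simp

lemma cAa_kappa {q : ℝ} (h1 : 1 ≤ q) : cAa (angq q) = kappa q / (8 * π ^ 2) := by
  have h2 := angq_le h1
  have h3 := Real.pi_pos
  have h4 : π - angq q ≠ 0 := by linarith
  rw [kappa_eq]
  unfold cAa
  field_simp
  ring

/-- the one-arm exponent -/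
lemma armExp_eq {q : ℝ} (h1 : 1 ≤ q) :
    cAa (angq q) * (π ^ 2 / 4 - angq q ^ 2) = armExp (kappa q) := by
  rw [cAa_kappa h1, angq_eq h1]
  have := kappa_pos h1
  unfold armExp
  field_simp
  ring

lemma armExp_pos {q : ℝ} (h1 : 1 ≤ q) : 0 < armExp (kappa q) := by
  rw [← armExp_eq h1]
  have h2 := angq_le h1
  have h3 := Real.pi_pos
  have h5 : 0 ≤ angq q := Real.arccos_nonneg _
  refine mul_pos ?_ ?_
  · unfold cAa
    have h4 : 0 < π - angq q := by linarith
    positivity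
  · nlinarith

/-- the nesting exponents -/
lemma nestExp_eq {q : ℝ} (h1 : 1 ≤ q) (s : ℝ) :
    cAa (angq q) * (angq q ^ 2 - (π * s) ^ 2) =
      kappa q / 8 * ((1 - 4 / kappa q) ^ 2 - s ^ 2) := by
  rw [cAa_kappa h1, ← angq_kappa h1]
  have h3 := Real.pi_pos
  have := kappa_pos h1
  field_simp

/-- the mean number of loops -/
lemma meanExp_eq {q : ℝ} (h1 : 1 ≤ q) :
    2 * angq q * cAa (angq q) / Real.tan (angq q) =
      (kappa q - 4) / (4 * π * Real.tan (π * (1 - 4 / kappa q))) := by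
  rw [angq_kappa h1, cAa_kappa h1]
  have e : 2 * angq q * (kappa q / (8 * π ^ 2)) = (kappa q - 4) / (4 * π) := by
    rw [angq_eq h1]
    have h3 := Real.pi_pos
    have := kappa_pos h1
    field_simp
    ring
  rw [e, div_div]

lemma loopWt_eq {q : ℝ} (h1 : 1 ≤ q) (h4 : q < 4) (t : ℝ) : loopWt q t = wt (angq q) t := by
  unfold loopWt wt
  rw [angq_kappa h1, ← angq_cos h4]
  have : Real.cos (angq q) ≠ 0 := by
    have h2 := angq_cos h4
    have h5 : 0 < √q := Real.sqrt_pos.2 (by linarith)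
    intro h
    rw [h] at h2
    linarith
  field_simp

lemma loopProd_eq {q : ℝ} (h1 : 1 ≤ q) (h4 : q < 4) (f : ℤ × ℤ → ℝ) (ω : BondCfg) :
    loopProd q f ω = Xa (angq q) f (med ω) := by
  unfold loopProd Xa
  exact finprod_congr fun ℓ => by simp only [loopWt_eq h1 h4]

end Vale.Agent.P167.H519
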