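import Vale.Agent.P167.H519.Outer

/-!
P167, block G: no loop of an annulus surrounds the origin iff (up to constants) the annulus is
crossed by a primal or a dual path.
-/

namespace Vale.Agent.P167

open Finset Relation
open Vale.Agent.P145.FB (PStep PConn)

namespace H519

/-! ### paths and levels -/

/-- exit lemma -/
lemma exit {α : Type*} {r : α → α → Prop} {f : α → ℤ} (hf : ∀ a b, r a b → f b ≤ f a + 1) {c d : ℤ}
    (hcd : c ≤ d) {x y : α} (h : ReflTransGen r x y) (hx : f x ≤ c) (hy : d ≤ f y) :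
    ∃ u v, ReflTransGen r x u ∧ f u ≤ c ∧ f v = d ∧
      ReflTransGen (fun a b => (r a b ∧ c < f b) ∧ f b ≤ d) u v := by
  have key : (∃ u v, ReflTransGen r x u ∧ f u ≤ c ∧ f v = d ∧
      ReflTransGen (fun a b => (r a b ∧ c < f b) ∧ f b ≤ d) u v) ∨
      (f y ≤ d ∧ ∃ u, ReflTransGen r x u ∧ f u ≤ c ∧
        ReflTransGen (fun a b => (r a b ∧ c < f b) ∧ f b ≤ d) u y) := by
    clear hy
    induction h with
    | refl => exact Or.inr ⟨hx.trans hcd, x, ReflTransGen.refl, hx, ReflTransGen.refl⟩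
    | @tail y z hxy hyz ih =>
      rcases ih with h | ⟨h1, u, h0, h2, h3⟩
      · exact Or.inl h
      · rcases eq_or_lt_of_le h1 with h4 | h4
        · exact Or.inl ⟨u, y, h0, h2, h4, h3⟩
        · have h5 := hf y z hyz
          right
          refine ⟨by omega, ?_⟩
          by_cases h6 : f z ≤ c
          · exact ⟨z, hxy.tail hyz, h6, ReflTransGen.refl⟩
          · exact ⟨u, h0, h2, h3.tail ⟨⟨hyz, by omega⟩, by omega⟩⟩
  rcases key with h | ⟨h1, u, h0, h2, h3⟩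
  · exact h
  · exact ⟨u, y, h0, h2, le_antisymm h1 hy, h3⟩

lemma nm_le {z : ℤ × ℤ} {n : ℤ} :
    nm z ≤ n ↔ -n ≤ z.1 ∧ z.1 ≤ n ∧ -n ≤ z.2 ∧ z.2 ≤ n := by
  unfold nm
  rw [max_le_iff, abs_le, abs_le]
  tauto

lemma nm_nonneg (z : ℤ × ℤ) : 0 ≤ nm z := le_max_of_le_left (abs_nonneg _)

lemma nm_step {F : Set (ℤ × ℤ)} (a b : ℤ × ℤ) (h : PStep F a b) : nm b ≤ nm a + 1 := by
  have h1 := (nm_le (z := a) (n := nm a)).1 le_rfl
  rw [nm_le]
  obtain ⟨h2, h3, -⟩ := h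
  omega

/-- the lower left corner of the square crossed by a step -/
def sqr (a b : ℤ × ℤ) : ℤ × ℤ := (min a.1 b.1, min a.2 b.2)

lemma nm_sqr_le {a b : ℤ × ℤ} {n : ℤ} (ha : nm a ≤ n) (hb : nm b ≤ n) : nm (sqr a b) ≤ n := by
  rw [nm_le] at *
  simp only [sqr]
  omega

lemma nm_le_sqr {F : Set (ℤ × ℤ)} {a b : ℤ × ℤ} (h : PStep F a b) {n : ℤ}
    (hs : nm (sqr a b) ≤ n) : nm b ≤ n + 1 := by
  rw [nm_le] at *
  obtain ⟨h2, h3, -⟩ := h
  simp only [sqr] at hs
  omega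

/-! ### squares and sites of a medial edge -/

lemma hdv_ls (e : Ed) : ((ls e).1 = (hdv e).1 ∨ (ls e).1 = (hdv e).1 + 1) ∧
    ((ls e).2 = (hdv e).2 ∨ (ls e).2 = (hdv e).2 + 1) := by
  rcases e with ⟨x, y⟩ | ⟨x, y⟩ <;> by_cases hp : Even (x + y) <;> simp [ls, hdv, hp]

lemma hdv_rs (e : Ed) : ((rs e).1 = (hdv e).1 ∨ (rs e).1 = (hdv e).1 + 1) ∧
    ((rs e).2 = (hdv e).2 ∨ (rs e).2 = (hdv e).2 + 1) := by
  rcases e with ⟨x, y⟩ | ⟨x, y⟩ <;> by_cases hp : Even (x + y) <;> simp [rs, hdv, hp]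

lemma nm_ls {e : Ed} {n : ℤ} (h : nm (hdv e) ≤ n) : nm (ls e) ≤ n + 1 := by
  have := hdv_ls e
  rw [nm_le] at *
  omega

lemma nm_rs {e : Ed} {n : ℤ} (h : nm (hdv e) ≤ n) : nm (rs e) ≤ n + 1 := by
  have := hdv_rs e
  rw [nm_le] at *
  omega

lemma nm_hdv_ls {e : Ed} {n : ℤ} (h : nm (ls e) ≤ n) : nm (hdv e) ≤ n + 1 := by
  have := hdv_ls e
  rw [nm_le] at *
  omega

lemma nm_hdv_rs {e : Ed} {n : ℤ} (h : nm (rs e) ≤ n) : nm (hdv e) ≤ n + 1 := by
  have := hdv_rs e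
  rw [nm_le] at *
  omega

/-! ### the modified configuration -/

/-- all squares at distance at most `ρ` are open, all squares at distance at least `P` are
closed -/
def md (ρ P : ℤ) (ω : Cfg) : Cfg := fun v => if nm v ≤ ρ then true else if P ≤ nm v then false
  else ω v

lemma md_mid {ρ P : ℤ} {ω : Cfg} {v : ℤ × ℤ} (h1 : ρ < nm v) (h2 : nm v < P) :
    md ρ P ω v = ω v := by
  unfold md
  rw [if_neg (by omega), if_neg (by omega)]

lemma md_in {ρ P : ℤ} {ω : Cfg} {v : ℤ × ℤ} (h1 : nm v ≤ ρ) : md ρ P ω v = true := by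
  unfold md
  rw [if_pos h1]

lemma md_out {ρ P : ℤ} {ω : Cfg} {v : ℤ × ℤ} (h0 : ρ < P) (h1 : P ≤ nm v) :
    md ρ P ω v = false := by
  unfold md
  rw [if_neg (by omega), if_pos h1]

/-- the even sites of the inner box are connected to the origin -/
lemma box_conn {ω : Cfg} {ρ : ℤ} (h0 : 0 ≤ ρ) (hω : ∀ v, nm v ≤ ρ → ω v = true) (n : ℕ) :
    ∀ s : ℤ × ℤ, Even (s.1 + s.2) → -ρ ≤ s.1 → s.1 ≤ ρ + 1 → -ρ ≤ s.2 → s.2 ≤ ρ + 1 → nm s ≤ n →
      ReflTransGen (PStep (op ω)) s 0 := by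
  induction n with
  | zero =>
    intro s _ _ _ _ _ h
    rw [nm_le] at h
    have : s = 0 := by
      ext
      · simp only [Prod.fst_zero]; omega
      · simp only [Prod.snd_zero]; omega
    rw [this]
  | succ n ih =>
    rintro ⟨x, y⟩ hev h1 h2 h3 h4 h5
    simp only at hev h1 h2 h3 h4
    by_cases hz : x = 0 ∧ y = 0
    · obtain ⟨rfl, rfl⟩ := hz
      exact ReflTransGen.refl
    · rw [Int.even_iff] at hev
      have h5' := h5
      rw [nm_le] at h5
      simp only [Nat.cast_add, Nat.cast_one] at h5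
      -- one step towards the origin
      obtain ⟨t, ht1, ht2, ht3, ht4, ht5⟩ : ∃ t : ℤ × ℤ, PStep (op ω) (x, y) t ∧
          (-ρ ≤ t.1 ∧ t.1 ≤ ρ + 1) ∧ (-ρ ≤ t.2 ∧ t.2 ≤ ρ + 1) ∧ nm t ≤ n ∧
          (t.1 + t.2) % 2 = 0 := by
        by_cases hx : 0 < x <;> by_cases hy : 0 < y
        · refine ⟨(x - 1, y - 1), ⟨by simp, by simp, ?_⟩, by simp only; omega, by simp only; omega,
            by rw [nm_le]; simp only; omega, by simp only; omega⟩
          refine hω _ ?_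
          rw [nm_le]; simp only; omega
        · refine ⟨(x - 1, y + 1), ⟨by simp, by simp, ?_⟩, by simp only; omega, by simp only; omega,
            by rw [nm_le]; simp only; omega, by simp only; omega⟩
          refine hω _ ?_
          rw [nm_le]; simp only; omega
        · refine ⟨(x + 1, y - 1), ⟨by simp, by simp, ?_⟩, by simp only; omega, by simp only; omega,
            by rw [nm_le]; simp only; omega, by simp only; omega⟩
          refine hω _ ?_
          rw [nm_le]; simp only; omega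
        · refine ⟨(x + 1, y + 1), ⟨by simp, by simp, ?_⟩, by simp only; omega, by simp only; omega,
            by rw [nm_le]; simp only; omega, by simp only; omega⟩
          refine hω _ ?_
          rw [nm_le]; simp only; omega
      exact ReflTransGen.head ht1 (ih t (by rw [Int.even_iff]; exact ht5) ht2.1 ht2.2 ht3.1 ht3.2
        ht4)

lemma parity_conn {F : Set (ℤ × ℤ)} {s t : ℤ × ℤ} (h : ReflTransGen (PStep F) s t) :
    (t.1 + t.2) % 2 = (s.1 + s.2) % 2 := by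
  induction h with
  | refl => rfl
  | @tail u v _ huv ih =>
    obtain ⟨h1, h2, -⟩ := huv
    omega

lemma conn_symm {F : Set (ℤ × ℤ)} {s t : ℤ × ℤ} (h : ReflTransGen (PStep F) s t) :
    ReflTransGen (PStep F) t s :=
by
  induction h with
  | refl => exact ReflTransGen.refl
  | tail _ huv ih => exact ReflTransGen.head huv.symm ih

/-- a restricted path is a `PConn` -/
lemma pconn_of {F R : Set (ℤ × ℤ)} {r : ℤ × ℤ → ℤ × ℤ → Prop} {u v : ℤ × ℤ} (hu : u ∈ R)
    (h : ReflTransGen r u v) (hr : ∀ a b, a ∈ R → r a b → PStep F a b ∧ b ∈ R) :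
    PConn F R u v := by
  induction h with
  | refl => exact PConn.refl hu
  | tail _ hab ih =>
    have := hr _ _ ih.right_mem hab
    exact ih.tail this.1 this.2

/-- a finite set of sites -/
lemma finite_nm (n : ℤ) : {s : ℤ × ℤ | nm s ≤ n}.Finite := by
  refine ((Set.finite_Icc (-n) n).prod (Set.finite_Icc (-n) n)).subset fun s hs => ?_
  have := (nm_le).1 (show nm s ≤ n from hs)
  exact ⟨⟨this.1, this.2.1⟩, this.2.2⟩

/-- a path which leaves the region where two configurations differ -/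
lemma arm_of_reach {F F' : Set (ℤ × ℤ)} {ρ P : ℤ} (hρP : ρ + 2 ≤ P) {x t : ℤ × ℤ}
    (h : ReflTransGen (PStep F') x t) (hx : nm x ≤ ρ + 1) (ht : P - 1 ≤ nm t)
    (hF : ∀ v, ρ < nm v → nm v < P → v ∈ F' → v ∈ F) :
    ∃ u v, ReflTransGen (PStep F') x u ∧ nm u ≤ ρ + 1 ∧ P - 1 ≤ nm v ∧
      PConn F {w | nm w ≤ P - 1} u v := by
  obtain ⟨u, v, h0, hu, hv, huv⟩ := exit (f := nm) nm_step (c := ρ + 1) (d := P - 1) (by omega) h
    hx ht
  refine ⟨u, v, h0, hu, hv.ge, pconn_of (show nm u ≤ P - 1 by omega) huv ?_⟩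
  rintro a b ha ⟨⟨hab, h1⟩, h2⟩
  refine ⟨⟨hab.1, hab.2.1, hF _ ?_ ?_ hab.2.2⟩, h2⟩
  · by_contra hcon
    have := nm_le_sqr hab (n := ρ) (not_lt.1 hcon)
    omega
  · have := nm_sqr_le (n := P - 1) ha h2
    exact lt_of_le_of_lt this (by omega)

/-- **No loop around the origin in the annulus: there is a primal or a dual arm.** -/
theorem loop_of_no_arm (hj : S_jump) (hs : S_sign) (hst : S_step) (htwo : S_two) (hloc : S_loc)
    {ω : Cfg} {ρ P : ℤ} (h0 : 0 ≤ ρ) (hρP : ρ + 2 ≤ P) (hP : ¬ ArmP (ρ + 1) (P - 1) ω)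
    (hD : ¬ ArmD (ρ + 1) (P - 1) ω) :
    ∃ ℓ, IsLoop ω ℓ ∧ (∀ v ∈ vs ℓ, ρ < nm v ∧ nm v < P) ∧ W ℓ 0 ≠ 0 := by
  classical
  set ω' := md ρ P ω with hω'
  have hnm0 : nm (0 : ℤ × ℤ) = 0 := by simp [nm]
  have hmid : ∀ v, ρ < nm v → nm v < P → (v ∈ op ω' ↔ v ∈ op ω) := by
    intro v h1 h2
    simp only [op, Set.mem_ofPred_eq, hω', md_mid h1 h2]
  have hinner : ∀ s : ℤ × ℤ, Even (s.1 + s.2) → -ρ ≤ s.1 → s.1 ≤ ρ + 1 → -ρ ≤ s.2 → s.2 ≤ ρ + 1 →
      ReflTransGen (PStep (op ω')) 0 s := fun s h1 h2 h3 h4 h5 =>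
    conn_symm (box_conn h0 (fun v hv => md_in hv) (nm s).toNat s h1 h2 h3 h4 h5
      (Int.self_le_toNat _))
  -- the primal cluster of the origin
  have hK1 : ∀ t, ReflTransGen (PStep (op ω')) 0 t → nm t ≤ P - 2 := by
    intro t ht
    by_contra hcon
    obtain ⟨u, v, h1, h2, h3, h4⟩ := arm_of_reach (F := op ω) hρP ht (by omega) (by omega)
      (fun v h1 h2 h3 => (hmid v h1 h2).1 h3)
    refine hP ⟨u, v, ?_, h2, h3, h4⟩
    have := parity_conn h1
    rw [Int.even_iff]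
    simpa using this
  obtain ⟨K1, hK1m⟩ : ∃ K : Finset (ℤ × ℤ), ∀ s, s ∈ K ↔ ReflTransGen (PStep (op ω')) 0 s := by
    have : {s | ReflTransGen (PStep (op ω')) 0 s}.Finite :=
      (finite_nm (P - 2)).subset fun s hs => hK1 s hs
    exact ⟨this.toFinset, fun s => this.mem_toFinset⟩
  obtain ⟨ℓ, hℓ, hℓ1, hℓ2⟩ := bdP hj hs hst ω' K1 ⟨0, (hK1m 0).2 ReflTransGen.refl⟩ (by
      intro s hs
      have := parity_conn ((hK1m s).1 hs)
      rw [Int.even_iff]
      simpa using this) (by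
      intro s hs t hst
      exact (hK1m t).2 (((hK1m s).1 hs).tail hst)) (by
      intro s hs t ht
      exact (conn_symm ((hK1m s).1 hs)).trans ((hK1m t).1 ht))
  have hzero : (0 : ℤ × ℤ) ∈ K1 := (hK1m 0).2 ReflTransGen.refl
  by_cases hin : ∀ e ∈ ℓ, ρ < nm (hdv e)
  · -- the loop `ℓ` lies in the annulus
    have hvs : ∀ v ∈ vs ℓ, ρ < nm v ∧ nm v < P := by
      intro v hv
      obtain ⟨e, he, rfl⟩ := mem_image.1 hv
      have h1 := nm_hdv_ls (hK1 _ ((hK1m _).1 (hℓ1 e he)))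
      exact ⟨hin e he, by omega⟩
    refine ⟨ℓ, hloc ω' ω ℓ hℓ (fun v hv => md_mid (hvs v hv).1 (hvs v hv).2), hvs, ?_⟩
    rw [hℓ2 0 hzero]
    exact one_ne_zero
  · push Not at hin
    obtain ⟨e0, he0, hin⟩ := hin
    -- the dual cluster on the other side
    have hs0 : nm (rs e0) ≤ ρ + 1 := nm_rs hin
    have hmid' : ∀ v, ρ < nm v → nm v < P → v ∈ (op ω')ᶜ → v ∈ (op ω)ᶜ := by
      intro v h1 h2 h3 h4
      exact h3 ((hmid v h1 h2).2 h4)
    have hK2 : ∀ t, ReflTransGen (PStep (op ω')ᶜ) (rs e0) t → nm t ≤ P - 2 := by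
      intro t ht
      by_contra hcon
      obtain ⟨u, v, h1, h2, h3, h4⟩ := arm_of_reach (F := (op ω)ᶜ) hρP ht hs0 (by omega) hmid'
      refine hD ⟨u, v, ?_, h2, h3, h4⟩
      have h5 := parity_conn h1
      have h6 := rs_odd e0
      rw [Int.odd_iff] at h6 ⊢
      omega
    obtain ⟨K2, hK2m⟩ : ∃ K : Finset (ℤ × ℤ), ∀ s, s ∈ K ↔
        ReflTransGen (PStep (op ω')ᶜ) (rs e0) s := by
      have : {s | ReflTransGen (PStep (op ω')ᶜ) (rs e0) s}.Finite :=
        (finite_nm (P - 2)).subset fun s hs => hK2 s hs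
      exact ⟨this.toFinset, fun s => this.mem_toFinset⟩
    have hr0 : rs e0 ∈ K2 := (hK2m _).2 ReflTransGen.refl
    obtain ⟨ℓ', hℓ', hℓ1', hℓ2'⟩ := bdD hj hs hst ω' K2 ⟨_, hr0⟩ (by
        intro s hs
        have h5 := parity_conn ((hK2m s).1 hs)
        have h6 := rs_odd e0
        rw [Int.odd_iff] at h6 ⊢
        omega) (by
        intro s hs t hst
        exact (hK2m t).2 (((hK2m s).1 hs).tail hst)) (by
        intro s hs t ht
        exact (conn_symm ((hK2m s).1 hs)).trans ((hK2m t).1 ht))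
    -- the two loops are different
    have hne : ℓ' ≠ ℓ := by
      rintro rfl
      have h1 := hj ω' ℓ' hℓ e0
      rw [if_pos he0, hℓ2' _ hr0, hℓ2 _ (hℓ1 e0 he0)] at h1
      omega
    have hnot : e0 ∉ ℓ' := fun h => (htwo ω' ℓ' ℓ hℓ' hℓ hne).1 e0 he0 h
    have h1 := hj ω' ℓ' hℓ' e0
    rw [if_neg hnot, hℓ2' _ hr0, add_zero] at h1
    -- the winding number of `ℓ'` on the cluster of the origin
    have hW : ∀ s ∈ K1, W ℓ' s = -1 := by
      intro s hs
      rw [← h1]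
      refine conn_W ((conn_symm ((hK1m s).1 hs)).trans ((hK1m _).1 (hℓ1 e0 he0)))
        fun u hu v huv => hst ω' ℓ' hℓ' u v (Or.inl ⟨?_, huv⟩)
      have h5 := parity_conn ((hK1m s).1 hs)
      rw [Int.even_iff, hu, h5]
      rfl
    have hvs : ∀ v ∈ vs ℓ', ρ < nm v ∧ nm v < P := by
      intro v hv
      obtain ⟨e, he, rfl⟩ := mem_image.1 hv
      have h2 := nm_hdv_rs (hK2 _ ((hK2m _).1 (hℓ1' e he)))
      refine ⟨?_, by omega⟩
      by_contra hcon
      have h3 := hdv_ls e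
      have h4 := (nm_le (z := hdv e) (n := ρ)).1 (not_lt.1 hcon)
      have h5 : ls e ∈ K1 := (hK1m _).2 (hinner _ (ls_even e) (by omega) (by omega) (by omega)
        (by omega))
      have h6 := hj ω' ℓ' hℓ' e
      rw [if_pos he, hW _ h5, hℓ2' _ (hℓ1' e he)] at h6
      omega
    refine ⟨ℓ', hloc ω' ω ℓ' hℓ' (fun v hv => md_mid (hvs v hv).1 (hvs v hv).2), hvs, ?_⟩
    rw [hW 0 hzero]
    norm_num

end H519

end Vale.Agent.P167
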