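import Vale.Agent.P167.H519.GMono
import Vale.Agent.P167.H519.NoLoop
import Mathlib.MeasureTheory.Measure.Prokhorov

/-!
# P167, general `q`: the infinite-volume measure
-/

namespace Vale.Agent.P167.H519

open Finset Filter Topology MeasureTheory Vale.Agent.P167.FK Vale.Agent.P167.FKA Relation
open Vale.Agent.P145.FB (PStep PConn)
open Vale.Agent.P167.H259 (f_markov f_fkg f_comp f_comp2 Ex_out cf_cf PC_mono)

variable {Q : ℝ}

/-- `P` is the infinite-volume measure: limit of the finite-volume expectations of the local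
functions, uniformly in the domain and in the boundary conditions. -/
def IsLim (Q : ℝ) (P : Measure Cfg) : Prop := IsProbabilityMeasure P ∧
  ∀ (B : Finset (ℤ × ℤ)) (F : Cfg → ℝ), Loc B F → ∀ ε > 0, ∃ R : ℤ, ∀ (D : Finset (ℤ × ℤ)) (η : Cfg),
    Bq 0 R ⊆ D → Good η → |Ex Q D η F - ∫ ω, F ω ∂P| ≤ ε

/-- Cauchy property of the finite-volume expectations. -/
def Cau (Q : ℝ) (F : Cfg → ℝ) : Prop := ∀ ε > 0, ∃ R : ℤ, ∀ (D D' : Finset (ℤ × ℤ)) (η η' : Cfg),
  Bq 0 R ⊆ D → Bq 0 R ⊆ D' → Good η → Good η' → |Ex Q D η F - Ex Q D' η' F| ≤ ε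

lemma Bq_mono {r R : ℤ} (h : r ≤ R) : Bq 0 r ⊆ Bq 0 R := by
  intro v hv
  simp only [Bq, Finset.mem_product, Finset.mem_Ico] at hv ⊢
  omega

lemma exists_Bq (B : Finset (ℤ × ℤ)) : ∃ r : ℤ, 1 ≤ r ∧ B ⊆ Bq 0 r := by
  obtain ⟨M, hM⟩ := (B.image nm).bddAbove
  refine ⟨max M 0 + 1, by have := le_max_right M 0; omega, fun v hv => ?_⟩
  have h1 : nm v ≤ M := hM (Finset.mem_coe.2 (Finset.mem_image_of_mem _ hv))
  have h2 : nm v ≤ max M 0 := h1.trans (le_max_left _ _)
  simp only [nm, max_le_iff, abs_le] at h2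
  simp only [Bq, Prod.fst_zero, Prod.snd_zero, zero_sub, zero_add, Finset.mem_product,
    Finset.mem_Ico]
  omega

lemma arm_of_jn' {V : Finset (ℤ × ℤ)} {τ : Cfg} {r R : ℤ} (hrR : r ≤ R)
    (hV : V ⊆ Bq 0 r) (h : Jn (Sx (Bq 0 R) eta1) V τ) : ArmPx 0 r R τ := by
  obtain ⟨s, ⟨hse, v, hvA, -, hvs⟩, u, ⟨w, hw, hwu⟩, hsu⟩ := h
  rw [armPx_iff hrR]
  refine ⟨u, s, ?_, ?_, ?_, ?_⟩
  · have := rtg_parity hsu
    rw [Int.even_iff] at *
    omega
  · rw [sub_zero]; exact near_of_cor (hV hw) hwu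
  · rw [sub_zero]; exact far_of_cor hvA hvs
  · exact conn_symm hsu

/-- oscillation of the expectations of increasing functions -/
lemma osc (hQ : 1 ≤ Q) {α C : ℝ} (hA : ArmDec Q α C) {r R : ℤ} (hr : 1 ≤ r) (hrR : r ≤ R)
    {B : Finset (ℤ × ℤ)} (hB : B ⊆ Bq 0 r) {F : Cfg → ℝ} (hF : IncF F) (hF0 : ∀ ω, 0 ≤ F ω)
    (hF1 : ∀ ω, F ω ≤ 1) (hL : Loc B F) :
    Ex Q (Bq 0 R) eta1 F ≤ Ex Q (Bq 0 R) eta0 F + C * ((r : ℝ) / R) ^ α := by
  have hQ0 : 0 < Q := by linarith
  have h1 := mono_comp hQ hF hF0 hL _ (Bq 0 R) eta0 eta1 rfl (hB.trans (Bq_mono hrR)) f_good.2.1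
    f_good.2.2 (fun _ _ _ => rfl)
  have h2 : Ex Q (Bq 0 R) eta1 (fun τ => F τ * (1 - {τ | Jn (Sx (Bq 0 R) eta1) B τ}.indicator 1 τ)) =
      Ex Q (Bq 0 R) eta1 F -
        Ex Q (Bq 0 R) eta1 (fun τ => F τ * {τ | Jn (Sx (Bq 0 R) eta1) B τ}.indicator 1 τ) := by
    rw [← Ex_sub]
    refine Ex_congr fun S _ => ?_
    ring
  have h3 : Ex Q (Bq 0 R) eta1 (fun τ => F τ * {τ | Jn (Sx (Bq 0 R) eta1) B τ}.indicator 1 τ) ≤
      Ex Q (Bq 0 R) eta1 (fun τ => (1 : ℝ) * {τ | ArmPx 0 r R τ}.indicator 1 τ) := by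
    refine Ex_mono hQ0 fun S _ => ?_
    exact mul_le_mul (hF1 _) (ind_le_of_imp fun h => arm_of_jn' hrR hB h) (ind_nonneg _ _)
      zero_le_one
  have h4 := hA 0 r R (Bq 0 R) eta1 (fun _ => 1) hr hrR f_good.2.2 Finset.sdiff_subset
    (fun _ => zero_le_one) (fun _ _ _ => rfl)
  rw [Ex_const hQ0, mul_one] at h4
  linarith

/-- the expectation in a large domain is between the free and the wired one -/
lemma between (hQ : 1 ≤ Q) {R : ℤ} {D : Finset (ℤ × ℤ)} {η : Cfg} (hD : Bq 0 R ⊆ D) (hη : Good η)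
    {F : Cfg → ℝ} (hF : IncF F) : Ex Q (Bq 0 R) eta0 F ≤ Ex Q D η F ∧
      Ex Q D η F ≤ Ex Q (Bq 0 R) eta1 F := by
  have hQ0 : 0 < Q := by linarith
  rw [f_markov Q (Bq 0 R) D η F hQ0 hD hη]
  constructor
  · rw [← Ex_const (Q := Q) (D := D) (η := η) hQ0 (Ex Q (Bq 0 R) eta0 F)]
    exact Ex_mono hQ0 fun S _ => f_comp Q _ _ _ F hQ f_good.2.1 (f_good.1 D η S hη)
      (fun v hv => by simp [eta0] at hv) hF
  · rw [← Ex_const (Q := Q) (D := D) (η := η) hQ0 (Ex Q (Bq 0 R) eta1 F)]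
    exact Ex_mono hQ0 fun S _ => f_comp Q _ _ _ F hQ (f_good.1 D η S hη) f_good.2.2
      (fun v _ => rfl) hF

lemma cau_inc (hQ : 1 ≤ Q) {α C : ℝ} (hα : 0 < α) (hA : ArmDec Q α C) {B : Finset (ℤ × ℤ)}
    {F : Cfg → ℝ} (hF : IncF F) (hF0 : ∀ ω, 0 ≤ F ω) (hF1 : ∀ ω, F ω ≤ 1) (hL : Loc B F) :
    Cau Q F := by
  intro ε hε
  obtain ⟨r, hr, hB⟩ := exists_Bq B
  have hr0 : (0 : ℝ) < r := by exact_mod_cast (by omega : 0 < r)
  have h3 : Tendsto (fun x : ℝ => C * (r / x) ^ α) atTop (𝓝 (C * 0)) := by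
    refine Tendsto.const_mul C ?_
    have h4 : Tendsto (fun x : ℝ => r ^ α * x ^ (-α)) atTop (𝓝 ((r : ℝ) ^ α * 0)) :=
      (tendsto_rpow_neg_atTop hα).const_mul _
    rw [mul_zero] at h4
    refine h4.congr' ?_
    filter_upwards [eventually_gt_atTop 0] with x hx
    rw [Real.rpow_neg hx.le, Real.div_rpow hr0.le hx.le]
    rfl
  rw [mul_zero] at h3
  obtain ⟨x0, hx0⟩ := eventually_atTop.1 (h3.eventually (ge_mem_nhds hε))
  obtain ⟨n, hn⟩ := exists_nat_ge x0
  refine ⟨max r n, fun D D' η η' hD hD' hη hη' => ?_⟩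
  have h5 := osc hQ hA hr (le_max_left r (n : ℤ)) hB hF hF0 hF1 hL
  have h6 := hx0 ((max r (n : ℤ) : ℤ) : ℝ) (by
    refine hn.trans ?_
    exact_mod_cast le_max_right r (n : ℤ))
  have h7 := between hQ hD hη hF
  have h8 := between hQ hD' hη' hF
  rw [abs_le]
  constructor <;> linarith [h7.1, h7.2, h8.1, h8.2]

lemma Cau.add {F G : Cfg → ℝ} (hF : Cau Q F) (hG : Cau Q G) : Cau Q (fun ω => F ω + G ω) := by
  intro ε hε
  obtain ⟨R, hR⟩ := hF (ε / 2) (by linarith)
  obtain ⟨R', hR'⟩ := hG (ε / 2) (by linarith)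
  refine ⟨max R R', fun D D' η η' hD hD' hη hη' => ?_⟩
  have h1 := hR D D' η η' ((Bq_mono (le_max_left _ _)).trans hD)
    ((Bq_mono (le_max_left _ _)).trans hD') hη hη'
  have h2 := hR' D D' η η' ((Bq_mono (le_max_right _ _)).trans hD)
    ((Bq_mono (le_max_right _ _)).trans hD') hη hη'
  rw [Ex_add, Ex_add]
  rw [abs_le] at *
  constructor <;> linarith

lemma Cau.smul (a : ℝ) {F : Cfg → ℝ} (hF : Cau Q F) : Cau Q (fun ω => a * F ω) := by
  intro ε hε
  obtain ⟨R, hR⟩ := hF (ε / (|a| + 1)) (by positivity)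
  refine ⟨R, fun D D' η η' hD hD' hη hη' => ?_⟩
  have h1 := hR D D' η η' hD hD' hη hη'
  rw [Ex_mul_left, Ex_mul_left, ← mul_sub, abs_mul]
  calc |a| * |Ex Q D η F - Ex Q D' η' F| ≤ |a| * (ε / (|a| + 1)) :=
        mul_le_mul_of_nonneg_left h1 (abs_nonneg _)
    _ ≤ (|a| + 1) * (ε / (|a| + 1)) := by
        refine mul_le_mul_of_nonneg_right (by linarith) (by positivity)
    _ = ε := by field_simp

/-- product of the states -/
noncomputable def mT (T : Finset (ℤ × ℤ)) (ω : Cfg) : ℝ := ∏ v ∈ T, if ω v = true then 1 else 0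

lemma mT_bd (T : Finset (ℤ × ℤ)) (ω : Cfg) : 0 ≤ mT T ω ∧ mT T ω ≤ 1 := by
  unfold mT
  exact ⟨Finset.prod_nonneg fun v _ => by split_ifs <;> norm_num,
    Finset.prod_le_one (fun v _ => by split_ifs <;> norm_num) fun v _ => by split_ifs <;> norm_num⟩

lemma mT_inc (T : Finset (ℤ × ℤ)) : IncF (mT T) := by
  intro ω ω' h
  unfold mT
  refine Finset.prod_le_prod (fun v _ => by split_ifs <;> norm_num) fun v _ => ?_
  by_cases h1 : ω v = true
  · rw [if_pos h1, if_pos (h v h1)]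
  · rw [if_neg h1]
    split_ifs <;> norm_num

lemma mT_loc (T : Finset (ℤ × ℤ)) : Loc T (mT T) := by
  intro ω ω' h
  unfold mT
  exact Finset.prod_congr rfl fun v hv => by rw [h v hv]

/-- every local function has the Cauchy property -/
theorem cau_loc (hQ : 1 ≤ Q) {α C : ℝ} (hα : 0 < α) (hA : ArmDec Q α C) (B : Finset (ℤ × ℤ)) :
    ∀ (F : Cfg → ℝ), Loc B F → ∀ T, Cau Q (fun ω => F ω * mT T ω) := by
  classical
  induction B using Finset.induction_on with
  | empty =>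
    intro F hF T
    have h1 : ∀ ω, F ω * mT T ω = F eta0 * mT T ω := fun ω => by
      rw [hF ω eta0 fun v hv => absurd hv (by simp)]
    simp only [h1]
    exact (cau_inc hQ hα hA (mT_inc T) (fun ω => (mT_bd T ω).1) (fun ω => (mT_bd T ω).2)
      (mT_loc T)).smul _
  | insert a B ha ih =>
    intro F hF T
    have h0 : Loc B (fun ω => F (Function.update ω a false)) := by
      intro ω ω' h
      refine hF _ _ fun v hv => ?_
      by_cases hva : v = a
      · subst hva; simp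
      · rw [Function.update_of_ne hva, Function.update_of_ne hva]
        exact h v ((Finset.mem_insert.1 hv).resolve_left hva)
    have h1 : Loc B (fun ω => F (Function.update ω a true)) := by
      intro ω ω' h
      refine hF _ _ fun v hv => ?_
      by_cases hva : v = a
      · subst hva; simp
      · rw [Function.update_of_ne hva, Function.update_of_ne hva]
        exact h v ((Finset.mem_insert.1 hv).resolve_left hva)
    have h2 : ∀ ω, F ω * mT T ω = F (Function.update ω a false) * mT T ω +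
        (F (Function.update ω a true) * mT (insert a T) ω +
          (-1) * (F (Function.update ω a false) * mT (insert a T) ω)) := by
      intro ω
      have h3 : mT (insert a T) ω = (if ω a = true then 1 else 0) * mT T ω := by
        unfold mT
        by_cases haT : a ∈ T
        · rw [Finset.insert_eq_of_mem haT]
          by_cases hω : ω a = true
          · rw [if_pos hω, one_mul]
          · rw [if_neg hω, zero_mul]
            exact Finset.prod_eq_zero haT (by rw [if_neg hω])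
        · rw [Finset.prod_insert haT]
      rw [h3]
      cases hω : ω a with
      | true =>
        have : Function.update ω a true = ω := by rw [← hω]; exact Function.update_eq_self _ _
        rw [this]
        simp
      | false =>
        have : Function.update ω a false = ω := by rw [← hω]; exact Function.update_eq_self _ _
        rw [this]
        simp
    simp only [h2]
    exact (ih _ h0 T).add ((ih _ h1 _).add ((ih _ h0 _).smul _))

/-! ### the limit measure -/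

/-- the finite-volume law -/
noncomputable def lawq (Q : ℝ) (D : Finset (ℤ × ℤ)) (η : Cfg) : Measure Cfg :=
  ∑ S ∈ D.powerset, ENNReal.ofReal (Q ^ LD D (cf D η S) / Zq Q D η) • Measure.dirac (cf D η S)

lemma lawq_int (hQ : 0 < Q) (D : Finset (ℤ × ℤ)) (η : Cfg) (F : Cfg → ℝ) :
    ∫ ω, F ω ∂(lawq Q D η) = Ex Q D η F := by
  have hZ := Zq_pos hQ D η
  unfold lawq Ex
  rw [integral_finsetSum_measure]
  · rw [Finset.sum_div]
    refine Finset.sum_congr rfl fun S _ => ?_
    rw [integral_smul_measure, integral_dirac, ENNReal.toReal_ofReal (by positivity), smul_eq_mul]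
    ring
  · intro S _
    refine Integrable.smul_measure ?_ ENNReal.ofReal_ne_top
    exact integrable_dirac (by simp)

theorem lawq_prob (hQ : 0 < Q) (D : Finset (ℤ × ℤ)) (η : Cfg) :
    IsProbabilityMeasure (lawq Q D η) := by
  have hZ := Zq_pos hQ D η
  refine ⟨?_⟩
  unfold lawq
  rw [Measure.finsetSum_apply]
  simp only [Measure.smul_apply, measure_univ, smul_eq_mul, mul_one]
  rw [← ENNReal.ofReal_sum_of_nonneg fun S _ => by positivity, ← Finset.sum_div]
  have : (∑ S ∈ D.powerset, Q ^ LD D (cf D η S)) / Zq Q D η = 1 := div_self hZ.ne'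
  rw [this, ENNReal.ofReal_one]

/-- local functions are continuous -/
lemma loc_cont {B : Finset (ℤ × ℤ)} {F : Cfg → ℝ} (hF : Loc B F) : Continuous F := by
  classical
  set ext : ({v // v ∈ B} → Bool) → Cfg := fun x v => if h : v ∈ B then x ⟨v, h⟩ else false
  have h1 : F = (F ∘ ext) ∘ (fun ω : Cfg => fun v : {v // v ∈ B} => ω v) := by
    funext ω
    refine hF _ _ fun v hv => ?_
    simp [ext, hv]
  rw [h1]
  refine (continuous_of_discreteTopology).comp ?_
  fun_prop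

theorem exists_lim (hQ : 1 ≤ Q) {α C : ℝ} (hα : 0 < α) (hA : ArmDec Q α C) :
    ∃ P : Measure Cfg, IsLim Q P := by
  have hQ0 : 0 < Q := by linarith
  set law : ℕ → ProbabilityMeasure Cfg := fun n => ⟨lawq Q (Bq 0 n) eta0, lawq_prob hQ0 _ _⟩
    with hlaw
  obtain ⟨P, -, hP⟩ := isCompact_univ.ultrafilter_le_nhds ((hyperfilter ℕ).map law) (by simp)
  have hP' : Tendsto law (hyperfilter ℕ) (𝓝 P) := hP
  rw [ProbabilityMeasure.tendsto_iff_forall_integral_tendsto] at hP'
  refine ⟨P, inferInstance, fun B F hF ε hε => ?_⟩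
  have hc := cau_loc hQ hα hA B F hF ∅
  have hm : ∀ ω, F ω * mT ∅ ω = F ω := fun ω => by simp [mT]
  simp only [hm] at hc
  obtain ⟨R, hR⟩ := hc ε hε
  refine ⟨R, fun D η hD hη => ?_⟩
  have h1 := hP' (BoundedContinuousFunction.mkOfCompact ⟨F, loc_cont hF⟩)
  simp only [BoundedContinuousFunction.mkOfCompact_apply, ContinuousMap.coe_mk] at h1
  have h2 : Tendsto (fun n : ℕ => |Ex Q D η F - Ex Q (Bq 0 n) eta0 F|) (hyperfilter ℕ)
      (𝓝 |Ex Q D η F - ∫ ω, F ω ∂(P : Measure Cfg)|) := by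
    refine (Tendsto.const_sub _ ?_).abs
    refine h1.congr fun n => ?_
    exact lawq_int hQ0 _ _ F
  refine le_of_tendsto h2 ?_
  have h3 : ∀ᶠ n : ℕ in hyperfilter ℕ, R ≤ n :=
    Nat.hyperfilter_le_atTop (by
      filter_upwards [eventually_ge_atTop R.toNat] with n hn
      omega)
  filter_upwards [h3] with n hn
  exact hR D (Bq 0 n) η eta0 hD (Bq_mono hn) hη f_good.2.1

end Vale.Agent.P167.H519
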