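import Vale.Agent.P145.FB.Tassion3
import Vale.Agent.P145.FB.Geo

/-!
P167, block G: crossings of annuli of the fine lattice; gluing at circuits.
-/

namespace Vale.Agent.P167.H519

open Vale.Agent.P145.FB Vale.Agent.P153 Vale.Agent.P153.Topo

/-- the sup norm -/
def nr (z : ℤ × ℤ) : ℤ := max |z.1| |z.2|

/-- the annulus `{2 r ≤ ‖z‖ ≤ 2 R}` of the fine lattice -/
def An (r R : ℤ) : Set (ℤ × ℤ) := {z | 2 * r ≤ nr z ∧ nr z ≤ 2 * R}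

/-- `S` crosses the annulus `An r R` -/
def Ar (r R : ℤ) (S : Set (ℤ × ℤ)) : Prop :=
  ∃ x y, NC (S ∩ An r R) x y ∧ nr x = 2 * r ∧ nr y = 2 * R

lemma nr_le {z : ℤ × ℤ} {n : ℤ} :
    nr z ≤ n ↔ -n ≤ z.1 ∧ z.1 ≤ n ∧ -n ≤ z.2 ∧ z.2 ≤ n := by
  unfold nr
  rw [max_le_iff, abs_le, abs_le]
  tauto

lemma le_nr {z : ℤ × ℤ} {n : ℤ} :
    n ≤ nr z ↔ n ≤ z.1 ∨ n ≤ -z.1 ∨ n ≤ z.2 ∨ n ≤ -z.2 := by
  unfold nr
  rw [le_max_iff, le_abs, le_abs]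
  tauto

lemma nr_step (u v : ℤ × ℤ) (h : NN u v) : nr v ≤ nr u + 1 := by
  have h1 := (nr_le (z := u) (n := nr u)).1 le_rfl
  rw [nr_le]
  unfold NN at h
  omega

lemma nr_nonneg (z : ℤ × ℤ) : 0 ≤ nr z := le_max_of_le_left (abs_nonneg _)

/-- a path from `nr ≤ 2 r` to `nr ≥ 2 R` contains a crossing -/
lemma Ar.of_path {r R : ℤ} (hrR : r ≤ R) {S : Set (ℤ × ℤ)} {x y : ℤ × ℤ} (h : NC S x y)
    (hx : nr x ≤ 2 * r) (hy : 2 * R ≤ nr y) : Ar r R S := by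
  obtain ⟨z, w, h1, h2, h3, -, -⟩ := h.exit nr_step (c := 2 * r) (d := 2 * R) (by omega) hx hy
  exact ⟨z, w, h3, h1, h2⟩

lemma Ar.sub {r R r' R' : ℤ} {S : Set (ℤ × ℤ)} (h : Ar r R S) (h1 : r ≤ r') (h2 : r' ≤ R')
    (h3 : R' ≤ R) : Ar r' R' S := by
  obtain ⟨x, y, h4, h5, h6⟩ := h
  exact Ar.of_path h2 (h4.mono Set.inter_subset_left) (by omega) (by omega)

lemma IL_Ar (r R : ℤ) : IL (Ar r R) :=
  IL_ex (2 * R) (fun _ hz => ⟨(le_max_left _ _).trans hz.2, (le_max_right _ _).trans hz.2⟩)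
    (fun x y => nr x = 2 * r ∧ nr y = 2 * R)

/-- **Gluing at a circuit.** -/
lemma Ar.glue {r t R : ℤ} {S : Set (ℤ × ℤ)} (ht : 0 < t) (hr : r ≤ t) (hR : 2 * t ≤ R)
    (h1 : Ar r (2 * t) S) (h2 : Ann 0 0 t S) (h3 : Ar t R S) : Ar r R S := by
  obtain ⟨o, ho, hA⟩ := h2.cluster ht
  obtain ⟨x, y, hxy, hx, hy⟩ := h1
  obtain ⟨x', y', hxy', hx', hy'⟩ := h3
  have out : ∀ z : ℤ × ℤ, 4 * t ≤ nr z → (z.1 ≤ 2 * (0 - 2 * t) ∨ 2 * (0 + 2 * t) ≤ z.1 ∨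
      z.2 ≤ 2 * (0 - 2 * t) ∨ 2 * (0 + 2 * t) ≤ z.2) := by
    intro z hz
    rw [le_nr] at hz
    omega
  have inn : ∀ z : ℤ × ℤ, nr z ≤ 2 * t → z ∈ rc (0 - t) (0 + t) (0 - t) (0 + t) := by
    intro z hz
    rw [nr_le] at hz
    rw [mem_rc]
    omega
  obtain ⟨w, hw, hw'⟩ := hA _ x y hxy.cluster.conn (inn x (by omega)) (out y (by omega))
  obtain ⟨w1, hw1, hw1'⟩ := hA _ x' y' hxy'.cluster.conn (inn x' (by omega)) (out y' (by omega))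
  have hann : annR 0 0 t ⊆ An r R := by
    intro z hz
    obtain ⟨h1, h2⟩ := hz
    rw [mem_rc] at h1
    refine ⟨?_, ?_⟩
    · have : 2 * t ≤ nr z := by
        rw [le_nr]
        omega
      omega
    · have : nr z ≤ 4 * t := by
        rw [nr_le]
        omega
      omega
  have s1 : An r (2 * t) ⊆ An r R := fun z hz => ⟨hz.1, by have := hz.2; omega⟩
  have s2 : An t R ⊆ An r R := fun z hz => ⟨by have := hz.1; omega, hz.2⟩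
  have e1 : NC (S ∩ An r R) x o := NC.join s1 hann hw hw'
  have e2 : NC (S ∩ An r R) y' o := NC.join s2 hann (hxy'.symm.trans hw1) hw1'
  exact ⟨x, y', e1.trans e2.symm, hx, hy'⟩

end Vale.Agent.P167.H519
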