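import Vale.Agent.P167.H519.NoLoop

/-!
P167, block G: an arm excludes loops around the origin.
-/

namespace Vale.Agent.P167

open Finset Relation
open Vale.Agent.P145.FB (PStep PConn)

namespace H519

lemma tlv_nx (ω : Cfg) (e : Ed) : tlv (nx ω e) = hdv e := by
  rcases e with ⟨x, y⟩ | ⟨x, y⟩ <;> by_cases hp : Even (x + y)
  · have e1 : Even (x + 1 + (y - 1)) := by rwa [show x + 1 + (y - 1) = x + y by ring]
    have e2 : ¬ Even (x + 1 + y) := by rw [Int.even_iff] at hp ⊢; omega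
    cases h : ω (x + 1, y) <;> simp [nx, tlv, hdv, hp, h, e2]
  · have e2 : Even (x + (y - 1)) := by rw [Int.even_iff] at hp ⊢; omega
    cases h : ω (x, y) <;> simp [nx, tlv, hdv, hp, h, e2]
  · have e2 : ¬ Even (x - 1 + y) := by rw [Int.even_iff] at hp ⊢; omega
    cases h : ω (x, y) <;> simp [nx, tlv, hdv, hp, h, e2]
  · have e1 : Even (x + (y + 1)) := by rw [Int.even_iff] at hp ⊢; omega
    cases h : ω (x, y + 1) <;> simp [nx, tlv, hdv, hp, h, e1]

lemma loop_nx {ω : Cfg} {ℓ : Finset Ed} (h : IsLoop ω ℓ) {e : Ed} (he : e ∈ ℓ) : nx ω e ∈ ℓ := by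
  obtain ⟨e0, h0⟩ := h
  obtain ⟨n, hn⟩ := (h0 e).1 he
  refine (h0 _).2 ⟨n + 1, ?_⟩
  rw [Function.iterate_succ_apply', hn]

/-- every edge of a loop has a predecessor in the loop -/
lemma loop_pred (hnx : S_nx) {ω : Cfg} {ℓ : Finset Ed} (h : IsLoop ω ℓ) {e : Ed} (he : e ∈ ℓ) :
    ∃ e' ∈ ℓ, nx ω e' = e := by
  classical
  have h1 : ℓ.image (nx ω) = ℓ := by
    refine Finset.eq_of_subset_of_card_le (fun x hx => ?_) ?_
    · obtain ⟨y, hy, rfl⟩ := mem_image.1 hx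
      exact loop_nx h hy
    · rw [card_image_of_injective _ (hnx ω).1]
  rw [← h1] at he
  obtain ⟨e', h2, h3⟩ := mem_image.1 he
  exact ⟨e', h2, h3⟩

lemma tlv_mem (hnx : S_nx) {ω : Cfg} {ℓ : Finset Ed} (h : IsLoop ω ℓ) {e : Ed} (he : e ∈ ℓ) :
    tlv e ∈ vs ℓ := by
  obtain ⟨e', h1, rfl⟩ := loop_pred hnx h he
  rw [tlv_nx]
  exact mem_image_of_mem _ h1

lemma hdv_mem {ℓ : Finset Ed} {e : Ed} (he : e ∈ ℓ) : hdv e ∈ vs ℓ := mem_image_of_mem _ he

/-- horizontal neighbours: the winding number is equal if one of the two squares at their common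
edge is not visited -/
lemma W_h (hnx : S_nx) (hj : S_jump) {ω : Cfg} {ℓ : Finset Ed} (h : IsLoop ω ℓ) {x y : ℤ}
    (hv : (x, y - 1) ∉ vs ℓ ∨ (x, y) ∉ vs ℓ) : W ℓ (x, y) = W ℓ (x + 1, y) := by
  set e : Ed := Sum.inr (x, y - 1) with he
  have hn : e ∉ ℓ := by
    intro hmem
    have h1 := hdv_mem hmem
    have h2 := tlv_mem hnx h hmem
    by_cases hp : Even (x + (y - 1))
    · simp only [he, hdv, tlv, hp, if_true, sub_add_cancel] at h1 h2
      tauto
    · simp only [he, hdv, tlv, hp, if_false, sub_add_cancel] at h1 h2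
      tauto
  have h1 := hj ω ℓ h e
  rw [if_neg hn, add_zero] at h1
  by_cases hp : Even (x + (y - 1))
  · simp only [he, ls, rs, hp, if_true, sub_add_cancel] at h1
    exact h1.symm
  · simp only [he, ls, rs, hp, if_false, sub_add_cancel] at h1
    exact h1

/-- vertical neighbours -/
lemma W_v (hnx : S_nx) (hj : S_jump) {ω : Cfg} {ℓ : Finset Ed} (h : IsLoop ω ℓ) {x y : ℤ}
    (hv : (x - 1, y) ∉ vs ℓ ∨ (x, y) ∉ vs ℓ) : W ℓ (x, y) = W ℓ (x, y + 1) := by
  set e : Ed := Sum.inl (x - 1, y) with he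
  have hn : e ∉ ℓ := by
    intro hmem
    have h1 := hdv_mem hmem
    have h2 := tlv_mem hnx h hmem
    by_cases hp : Even (x - 1 + y)
    · simp only [he, hdv, tlv, hp, if_true, sub_add_cancel] at h1 h2
      tauto
    · simp only [he, hdv, tlv, hp, if_false, sub_add_cancel] at h1 h2
      tauto
  have h1 := hj ω ℓ h e
  rw [if_neg hn, add_zero] at h1
  by_cases hp : Even (x - 1 + y)
  · simp only [he, ls, rs, hp, if_true, sub_add_cancel] at h1
    exact h1.symm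
  · simp only [he, ls, rs, hp, if_false, sub_add_cancel] at h1
    exact h1

/-- the winding number is constant on a box whose squares are not visited -/
lemma W_box (hnx : S_nx) (hj : S_jump) {ω : Cfg} {ℓ : Finset Ed} (h : IsLoop ω ℓ) {r : ℤ}
    (hr : ∀ v ∈ vs ℓ, r < nm v) {s : ℤ × ℤ} (hs : nm s ≤ r) : W ℓ s = W ℓ 0 := by
  have hout : ∀ x y : ℤ, -r ≤ x → x ≤ r → -r ≤ y → y ≤ r → (x, y) ∉ vs ℓ := by
    intro x y h1 h2 h3 h4 h5
    have h6 := hr _ h5
    have : nm (x, y) ≤ r := nm_le.2 ⟨h1, h2, h3, h4⟩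
    omega
  obtain ⟨x, y⟩ := s
  rw [nm_le] at hs
  simp only at hs
  have hx : ∀ n : ℕ, ∀ x : ℤ, x.natAbs = n → -r ≤ x → x ≤ r → W ℓ (x, y) = W ℓ (0, y) := by
    intro n
    induction n with
    | zero =>
      intro x hx _ _
      have : x = 0 := by omega
      rw [this]
    | succ n ih =>
      intro x hx h1 h2
      rcases lt_or_ge 0 x with h3 | h3
      · have h4 := W_h hnx hj h (x := x - 1) (y := y) (Or.inr (hout _ _ (by omega) (by omega)
          (by omega) (by omega)))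
        rw [sub_add_cancel] at h4
        rw [← h4]
        exact ih _ (by omega) (by omega) (by omega)
      · rw [W_h hnx hj h (Or.inr (hout _ _ (by omega) (by omega) (by omega) (by omega)))]
        exact ih _ (by omega) (by omega) (by omega)
  have hy : ∀ n : ℕ, ∀ y : ℤ, y.natAbs = n → -r ≤ y → y ≤ r → W ℓ (0, y) = W ℓ (0, 0) := by
    intro n
    induction n with
    | zero =>
      intro x hx _ _
      have : x = 0 := by omega
      rw [this]
    | succ n ih =>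
      intro y hy h1 h2
      rcases lt_or_ge 0 y with h3 | h3
      · have h4 := W_v hnx hj h (x := 0) (y := y - 1) (Or.inr (hout _ _ (by omega) (by omega)
          (by omega) (by omega)))
        rw [sub_add_cancel] at h4
        rw [← h4]
        exact ih _ (by omega) (by omega) (by omega)
      · rw [W_v hnx hj h (Or.inr (hout _ _ (by omega) (by omega) (by omega) (by omega)))]
        exact ih _ (by omega) (by omega) (by omega)
  rw [hx _ x rfl (by omega) (by omega), hy _ y rfl (by omega) (by omega)]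
  rfl

lemma W_pconn (hst : S_step) {ω : Cfg} {ℓ : Finset Ed} (h : IsLoop ω ℓ) {R : Set (ℤ × ℤ)}
    {u v : ℤ × ℤ} (hu : Even (u.1 + u.2)) (huv : PConn (op ω) R u v) : W ℓ u = W ℓ v := by
  refine conn_W (F := op ω) (huv.2.lift id fun a b hab => hab.1) fun a ha b hab =>
    hst ω ℓ h a b (Or.inl ⟨?_, hab⟩)
  rw [Int.even_iff] at hu ⊢
  omega

lemma W_pconn' (hst : S_step) {ω : Cfg} {ℓ : Finset Ed} (h : IsLoop ω ℓ) {R : Set (ℤ × ℤ)}
    {u v : ℤ × ℤ} (hu : Odd (u.1 + u.2)) (huv : PConn (op ω)ᶜ R u v) : W ℓ u = W ℓ v := by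
  refine conn_W (F := (op ω)ᶜ) (huv.2.lift id fun a b hab => hab.1) fun a ha b hab =>
    hst ω ℓ h a b (Or.inr ⟨?_, hab⟩)
  rw [Int.odd_iff] at hu ⊢
  omega

/-- the winding number vanishes outside of the box which contains all visited squares -/
lemma W_outside (hout : S_out) {ω : Cfg} {ℓ : Finset Ed} (h : IsLoop ω ℓ) {R : ℤ}
    (hR : ∀ v ∈ vs ℓ, nm v < R) {s : ℤ × ℤ} (hs : R ≤ nm s) : W ℓ s = 0 := by
  by_contra hW
  have h1 := hout ω ℓ h (-(R - 1)) (R - 1) (-(R - 1)) (R - 1) (fun v hv => by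
    have := nm_le.1 (show nm v ≤ R - 1 by have := hR v hv; omega)
    tauto) s hW
  have : nm s ≤ R - 1 := nm_le.2 (by omega)
  omega

/-- an arm, primal or dual, excludes loops around the origin in the annulus -/
lemma no_loop_of_arm (hnx : S_nx) (hj : S_jump) (hst : S_step) (hout : S_out) {ω : Cfg} {r R : ℤ}
    (h : ArmP r R ω ∨ ArmD r R ω) {ℓ : Finset Ed} (hℓ : IsLoop ω ℓ)
    (hv : ∀ v ∈ vs ℓ, r < nm v ∧ nm v < R) : W ℓ 0 = 0 := by
  rcases h with ⟨u, v, h1, h2, h3, h4⟩ | ⟨u, v, h1, h2, h3, h4⟩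
  · rw [← W_box hnx hj hℓ (fun v h => (hv v h).1) h2, W_pconn hst hℓ h1 h4]
    exact W_outside hout hℓ (fun v h => (hv v h).2) h3
  · rw [← W_box hnx hj hℓ (fun v h => (hv v h).1) h2, W_pconn' hst hℓ h1 h4]
    exact W_outside hout hℓ (fun v h => (hv v h).2) h3

/-- the loops counted by `Nn a b` are finitely many -/
lemma finite_Nn (a b : ℝ) (ω : Cfg) :
    {ℓ | IsLoop ω ℓ ∧ (∀ v ∈ vs ℓ, a < (nm v : ℝ) ∧ (nm v : ℝ) < b) ∧ W ℓ 0 ≠ 0}.Finite := by
  classical
  have h1 : {v : ℤ × ℤ | nm v ≤ ⌈b⌉}.Finite := finite_nm _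
  set B : Finset Ed := (h1.toFinset.disjSum h1.toFinset) ∪
    ((h1.toFinset.image (fun v => (v.1 - 1, v.2))).disjSum
      (h1.toFinset.image (fun v => (v.1, v.2 - 1)))) with hB
  refine (B.powerset.finite_toSet).subset ?_
  rintro ℓ ⟨-, h2, -⟩
  rw [mem_coe, mem_powerset]
  intro e he
  have h3 : nm (hdv e) ≤ ⌈b⌉ := by
    have := (h2 _ (hdv_mem he)).2
    exact_mod_cast (this.le.trans (Int.le_ceil b))
  rw [hB, mem_union, mem_disjSum, mem_disjSum]
  rcases e with ⟨x, y⟩ | ⟨x, y⟩ <;> by_cases hp : Even (x + y) <;>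
    simp only [hdv, hp, if_true, if_false] at h3
  · right; left
    exact ⟨(x, y), mem_image.2 ⟨(x + 1, y), by simpa using h3, by simp⟩, rfl⟩
  · left; left
    exact ⟨(x, y), by simpa using h3, rfl⟩
  · left; right
    exact ⟨(x, y), by simpa using h3, rfl⟩
  · right; right
    exact ⟨(x, y), mem_image.2 ⟨(x, y + 1), by simpa using h3, by simp⟩, rfl⟩

lemma Nn_eq_zero {a b : ℝ} {ω : Cfg} : Nn a b ω = 0 ↔
    ∀ ℓ, IsLoop ω ℓ → (∀ v ∈ vs ℓ, a < (nm v : ℝ) ∧ (nm v : ℝ) < b) → W ℓ 0 = 0 := by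
  unfold Nn
  rw [Set.ncard_eq_zero (finite_Nn a b ω), Set.eq_empty_iff_forall_notMem]
  refine forall_congr' fun ℓ => ?_
  simp only [Set.mem_ofPred_eq, not_and, not_not]

/-- more loops in a larger annulus -/
lemma Nn_mono {a b a' b' : ℝ} (ha : a' ≤ a) (hb : b ≤ b') (ω : Cfg) : Nn a b ω ≤ Nn a' b' ω := by
  refine Set.ncard_le_ncard ?_ (finite_Nn a' b' ω)
  rintro ℓ ⟨h1, h2, h3⟩
  exact ⟨h1, fun v hv => ⟨ha.trans_lt (h2 v hv).1, (h2 v hv).2.trans_le hb⟩, h3⟩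

/-- the annuli with integer radii -/
lemma Nn_int {r R : ℤ} {ω : Cfg} : Nn (r : ℝ) (R : ℝ) ω = 0 ↔
    ∀ ℓ, IsLoop ω ℓ → (∀ v ∈ vs ℓ, r < nm v ∧ nm v < R) → W ℓ 0 = 0 := by
  rw [Nn_eq_zero]
  simp only [Int.cast_lt]

end H519

open H519

/-- **G2** -/
theorem armloop (hnx : S_nx) (hj : S_jump) (hst : S_step) (hout : S_out) : S_armloop := by
  intro ω r R h
  rw [Nn_int]
  intro ℓ hℓ hv
  exact no_loop_of_arm hnx hj hst hout (Or.inl h) hℓ hv

/-- deterministic part of G1 -/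
theorem noloop_det (hj : S_jump) (hs : S_sign) (hst : S_step) (htwo : S_two) (hloc : S_loc)
    {ω : Cfg} {r R : ℤ} (h0 : 0 ≤ r) (hrR : r + 2 ≤ R) (h : Nn (r : ℝ) (R : ℝ) ω = 0) :
    ArmP (r + 1) (R - 1) ω ∨ ArmD (r + 1) (R - 1) ω := by
  by_contra hcon
  push Not at hcon
  obtain ⟨ℓ, h1, h2, h3⟩ := loop_of_no_arm hj hs hst htwo hloc h0 hrR hcon.1 hcon.2
  exact h3 (Nn_int.1 h ℓ h1 h2)

end Vale.Agent.P167
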