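import Vale.Agent.P167.H638.Gauss

/-!
P167: the Gaussian limit of the loop functionals for all test functions.
-/

namespace Vale.Agent.P167.H519

open MeasureTheory Real Set Filter Topology
open Vale.Agent.P167.H638
open Vale.Agent.P152 (Ori Edge IsHeight)

/-- all test functions, from the limit theorem of P152 and the Baxter-Kelland-Wu identity -/
theorem conf_of (hG : GffIn) (hI : S_id) {F : ℝ × ℝ → ℝ}
    (hFs : ContDiff ℝ ((⊤ : ℕ∞) : WithTop ℕ∞) F) (hFc : HasCompactSupport F) (hF0 : ∫ x, F x = 0) :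
    Tendsto (fun δ : ℝ => ∫ ω, X (cm F δ) ω ∂μ) (𝓝[>] 0) (𝓝 (Real.exp (-(3 / (2 * π)) * cv F))) := by
  obtain ⟨P, hP, hT, hex, H⟩ := hG
  classical
  obtain ⟨h, hh⟩ : ∃ h : Ori (ℤ × ℤ) → ℤ × ℤ → ℤ, ∀ᵐ ω ∂P, IsHeight ω (h ω) := by
    refine ⟨fun ω => if hω : ∃ h, IsHeight ω h then hω.choose else 0, ?_⟩
    filter_upwards [hex] with ω hω
    simp only [dif_pos hω]
    exact hω.choose_spec
  have hFi : Integrable F := hFs.continuous.integrable_of_hasCompactSupport hFc
  refine (H h hh F hFs hFc hF0).congr' ?_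
  filter_upwards [self_mem_nhdsWithin] with δ hδ
  have hδ0 : 0 < δ := hδ
  rw [← hI P hP hT (cm F δ) (cm_finite hFc hδ0) ((cm_sum hFi hFc hδ0).trans hF0) h hh]
  refine integral_congr_ae (Filter.Eventually.of_forall fun ω => ?_)
  simp only
  congr 1
  exact cell_sum hFi hFc hδ0 (fun s => (h ω s : ℝ))

end Vale.Agent.P167.H519
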