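import Vale.Agent.P167.H519.ArmP
import Mathlib.Analysis.SpecialFunctions.Pow.Real

/-!
P167, block D2: rings of loops.
-/

namespace Vale.Agent.P167

open Finset MeasureTheory Filter Topology H519

/-- **D2** -/
theorem ring_of_arm (hno : S_noloop) (harm : S_arm) : S_ring := by
  obtain ⟨k, hk⟩ := hno
  obtain ⟨c, C, hc, harm⟩ := harm
  set K : ℝ := |(k : ℝ)| with hK
  have hK0 : 0 ≤ K := abs_nonneg _
  -- constants
  set D : ℝ := (2 * K + 4) with hD
  have hD4 : 4 ≤ D := by rw [hD]; linarith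
  have hC0 : 0 ≤ max C 0 := le_max_right _ _
  refine ⟨c, 2 * max C 0 * (D * D) ^ c + (2 * D) ^ c, hc, fun r R hr hR => ?_⟩
  have hrpos : 0 < r := by linarith
  have hRpos : 0 < R := by linarith
  have hratio : 0 < r / R := by positivity
  by_cases hcase : R < 2 * D * r
  · -- trivial bound
    have h1 : μ.real {ω | Nn r R ω = 0} ≤ 1 := measureReal_le_one
    have h2 : 1 ≤ (2 * D) ^ c * (r / R) ^ c := by
      rw [← Real.mul_rpow (by positivity) hratio.le]
      refine Real.one_le_rpow ?_ hc.le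
      rw [← mul_div_assoc, le_div_iff₀ hRpos]
      linarith
    have h3 : 0 ≤ 2 * max C 0 * (D * D) ^ c * (r / R) ^ c := by positivity
    nlinarith
  · push Not at hcase
    set r' : ℤ := ⌈r⌉ with hr'
    set R' : ℤ := ⌊R⌋ with hR'
    have h1 : (r : ℝ) ≤ r' := Int.le_ceil r
    have h2 : (r' : ℝ) < r + 1 := Int.ceil_lt_add_one r
    have h3 : (R' : ℝ) ≤ R := Int.floor_le R
    have h4 : R < R' + 1 := Int.lt_floor_add_one R
    have hkK : (k : ℝ) ≤ K := le_abs_self _
    have hkK' : -(k : ℝ) ≤ K := neg_le_abs _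
    have hbig : 2 * D * r ≤ R := hcase
    have hDr : D * 1 ≤ D * r := mul_le_mul_of_nonneg_left hr (by linarith)
    have e1 : 1 ≤ r' := by
      have : (1 : ℝ) ≤ r' := hr.trans h1
      exact_mod_cast this
    have e2 : r' + 2 * k ≤ R' := by
      have : (r' : ℝ) + 2 * k < R' + 1 := by nlinarith
      have h5 : ((r' + 2 * k : ℤ) : ℝ) < ((R' + 1 : ℤ) : ℝ) := by push_cast; linarith
      have := Int.cast_lt.1 h5
      omega
    have h5 : μ.real {ω | Nn r R ω = 0} ≤ μ.real {ω | Nn (r' : ℝ) (R' : ℝ) ω = 0} := by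
      refine measureReal_mono fun ω hω => ?_
      have : Nn (r' : ℝ) (R' : ℝ) ω ≤ Nn r R ω := Nn_mono h1 h3 ω
      simp only [Set.mem_ofPred_eq] at hω ⊢
      omega
    have h6 := hk r' R' e1 e2
    -- enlarge the inner radius to a positive one
    have hj : (0 : ℤ) ≤ |k| := abs_nonneg _
    have hcastK : ((|k| : ℤ) : ℝ) = K := by rw [hK]; exact Int.cast_abs
    have e3 : r' + |k| ≤ R' - |k| := by
      have h7 : ((r' + |k| : ℤ) : ℝ) < ((R' - |k| + 1 : ℤ) : ℝ) := by
        push_cast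
        rw [← Int.cast_abs, hcastK]
        nlinarith
      have := Int.cast_lt.1 h7
      omega
    have h7 : μ.real {ω | ArmP (r' + k) (R' - k) ω} ≤ μ.real {ω | ArmP (r' + |k|) (R' - |k|) ω} :=
      pa_mono (by have := le_abs_self k; omega) e3 (by have := le_abs_self k; omega)
    have h8 := (harm (r' + |k|) (R' - |k|) (by omega) e3).1
    have hp1 : (0 : ℝ) < ((r' + |k| : ℤ) : ℝ) := by exact_mod_cast (by omega : 0 < r' + |k|)
    have hp2 : (0 : ℝ) < ((R' - |k| : ℤ) : ℝ) := by exact_mod_cast (by omega : 0 < R' - |k|)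
    have h9 : ((r' + |k| : ℤ) : ℝ) / ((R' - |k| : ℤ) : ℝ) ≤ D * D * (r / R) := by
      have h10 : ((r' + |k| : ℤ) : ℝ) ≤ D * r := by
        push_cast
        rw [← Int.cast_abs, hcastK]
        nlinarith
      have h11 : R ≤ D * ((R' - |k| : ℤ) : ℝ) := by
        push_cast
        rw [← Int.cast_abs, hcastK]
        nlinarith
      rw [div_le_iff₀ hp2]
      have h12 : D * D * (r / R) * ((R' - |k| : ℤ) : ℝ) =
          (D * r) * ((D * ((R' - |k| : ℤ) : ℝ)) / R) := by
        field_simp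
      rw [h12]
      have h13 : 1 ≤ (D * ((R' - |k| : ℤ) : ℝ)) / R := by
        rw [le_div_iff₀ hRpos, one_mul]
        exact h11
      have h14 : 0 ≤ D * r := by positivity
      nlinarith
    have h10 : ((((r' + |k| : ℤ) : ℝ)) / ((R' - |k| : ℤ) : ℝ)) ^ c ≤ (D * D) ^ c * (r / R) ^ c := by
      rw [← Real.mul_rpow (by positivity) hratio.le]
      exact Real.rpow_le_rpow (by positivity) h9 hc.le
    have h11 : C * ((((r' + |k| : ℤ) : ℝ)) / ((R' - |k| : ℤ) : ℝ)) ^ c ≤
        max C 0 * ((D * D) ^ c * (r / R) ^ c) :=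
      mul_le_mul (le_max_left _ _) h10 (by positivity) hC0
    have h12 : 0 ≤ (2 * D) ^ c * (r / R) ^ c := by positivity
    calc μ.real {ω | Nn r R ω = 0} ≤ 2 * μ.real {ω | ArmP (r' + k) (R' - k) ω} := h5.trans h6
      _ ≤ 2 * (max C 0 * ((D * D) ^ c * (r / R) ^ c)) := by linarith
      _ ≤ (2 * max C 0 * (D * D) ^ c + (2 * D) ^ c) * (r / R) ^ c := by
        rw [add_mul]
        linarith

end Vale.Agent.P167
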