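import Vale.Agent.P167.H519.OneArm
import Vale.Agent.P167.H519.Ring
import Vale.Agent.P167.Top.PlaneW
import Vale.Agent.P167.H871.Glue

/-!
P167, blocks A3b and G: unconditional forms.
-/

namespace Vale.Agent.P167.H519

/-- A3.9 -/
theorem s_bdP : S_bdP := bdP Vale.Agent.P167.s_jump Vale.Agent.P167.s_sign Vale.Agent.P167.s_step

/-- A3.9' -/
theorem s_bdD : S_bdD := bdD Vale.Agent.P167.s_jump Vale.Agent.P167.s_sign Vale.Agent.P167.s_step

/-- G1 -/
theorem s_noloop : S_noloop := noloop Vale.Agent.P167.s_jump Vale.Agent.P167.s_sign Vale.Agent.P167.s_step Vale.Agent.P167.s_two Vale.Agent.P167.s_loc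

/-- G2 -/
theorem s_armloop : S_armloop := armloop Vale.Agent.P167.s_nx Vale.Agent.P167.s_jump Vale.Agent.P167.s_step Vale.Agent.P167.s_out

/-- D2 -/
theorem s_ring : S_ring := ring_of_arm s_noloop H871.s_arm

/-- the one-arm exponent from F1 -/
theorem s_onearm (hF : S_F1) : S_onearm := onearm hF s_noloop s_armloop H871.s_glue

end Vale.Agent.P167.H519
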