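import Vale.Agent.P167.H519.FinDefs
import Mathlib.MeasureTheory.Function.Jacobian
import Mathlib.MeasureTheory.Measure.Lebesgue.Complex
import Mathlib.Analysis.SpecialFunctions.Integrability.Basic
import Mathlib.RingTheory.Complex
import Mathlib.RingTheory.Norm.Transitivity
import Mathlib.Analysis.Complex.Basic
import Mathlib.MeasureTheory.Integral.Prod
import Mathlib.MeasureTheory.Measure.Haar.Unique

/-!
P167: the logarithmic energy of a neutral charge distribution in the plane and its invariance under
Moebius maps.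
-/

namespace Vale.Agent.P167

open MeasureTheory Set Filter Topology

namespace H519

lemma log_norm_le {z : ℂ} (hz : z.re ≠ 0) : |Real.log ‖z‖| ≤ |Real.log z.re| + ‖z‖ := by
  have h1 : |z.re| ≤ ‖z‖ := Complex.abs_re_le_norm z
  have h0 : 0 < |z.re| := abs_pos.2 hz
  have hn : 0 < ‖z‖ := h0.trans_le h1
  rw [abs_le]
  have h2 : Real.log |z.re| ≤ Real.log ‖z‖ := Real.log_le_log h0 h1
  rw [Real.log_abs] at h2
  have h3 := Real.log_le_sub_one_of_pos hn
  have h4 := neg_abs_le (Real.log z.re)
  have h5 := abs_nonneg (Real.log z.re)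
  constructor <;> linarith

/-- the logarithm is integrable on bounded sets -/
lemma intOn_log {r : ℝ} (hr : 0 ≤ r) : IntegrableOn (fun v : ℂ => Real.log ‖v‖) (Metric.closedBall 0 r) := by
  have hms : Measurable (fun v : ℂ => Real.log ‖v‖) := Real.measurable_log.comp measurable_norm
  have h1 : IntegrableOn (fun x : ℝ => |Real.log x|) (Set.Icc (-r) r) := by
    have h2 : IntervalIntegrable Real.log volume (-r) r := intervalIntegral.intervalIntegrable_log'
    have h3 := (intervalIntegrable_iff_integrableOn_Icc_of_le (by linarith)).1 h2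
    exact h3.norm
  have h4 : IntegrableOn (fun x : ℝ × ℝ => |Real.log x.1|) (Set.Icc (-r) r ×ˢ Set.Icc (-r) r) := by
    have h5 : IntegrableOn (fun _ : ℝ => (1 : ℝ)) (Set.Icc (-r) r) :=
      integrableOn_const isCompact_Icc.measure_lt_top.ne
    have h6 := Integrable.mul_prod h1 h5
    rw [Measure.prod_restrict] at h6
    simpa [IntegrableOn, Measure.volume_eq_prod] using h6
  have h7 : IntegrableOn (fun v : ℂ => |Real.log v.re|) (Metric.closedBall 0 r) := by
    have h8 := (Complex.volume_preserving_equiv_real_prod.integrableOn_comp_preimage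
      Complex.measurableEquivRealProd.measurableEmbedding).2 h4
    refine IntegrableOn.mono_set h8 fun v hv => ?_
    rw [mem_closedBall_zero_iff] at hv
    simp only [Set.mem_preimage, Complex.measurableEquivRealProd_apply, Set.mem_prod, Set.mem_Icc]
    have h9 := abs_le.1 ((Complex.abs_re_le_norm v).trans hv)
    have h10 := abs_le.1 ((Complex.abs_im_le_norm v).trans hv)
    exact ⟨h9, h10⟩
  have h11 : IntegrableOn (fun v : ℂ => ‖v‖) (Metric.closedBall 0 r) :=
    (continuous_norm.continuousOn).integrableOn_compact (isCompact_closedBall _ _)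
  refine (h7.add h11).mono' hms.aestronglyMeasurable ?_
  have h12 : ∀ᵐ v : ℂ, v.re ≠ 0 := by
    have h13 : ∀ᵐ x : ℝ × ℝ, x.1 ≠ 0 := by
      have h14 : ∀ᵐ x : ℝ, x ≠ 0 := by
        simp [ae_iff, measure_singleton]
      exact Measure.quasiMeasurePreserving_fst.ae h14
    exact Complex.volume_preserving_equiv_real_prod.quasiMeasurePreserving.ae h13
  filter_upwards [ae_restrict_of_ae h12] with v hv
  exact log_norm_le hv

lemma meas_log : Measurable (fun v : ℂ => Real.log ‖v‖) :=
  Real.measurable_log.comp measurable_norm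

/-- uniform bound for the potential -/
lemma log_shift {r : ℝ} (hr : 0 ≤ r) {z : ℂ} (hz : ‖z‖ ≤ r) :
    IntegrableOn (fun w : ℂ => Real.log ‖z - w‖) (Metric.closedBall 0 r) ∧
    ∫ w in Metric.closedBall 0 r, |Real.log ‖z - w‖| ≤
      ∫ v in Metric.closedBall (0 : ℂ) (2 * r), |Real.log ‖v‖| := by
  have hmp : MeasurePreserving (fun w : ℂ => z - w) volume volume :=
    Measure.measurePreserving_sub_left volume z
  have hme : MeasurableEmbedding (fun w : ℂ => z - w) :=
    (MeasurableEquiv.subLeft z).measurableEmbedding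
  have h1 : Metric.closedBall (0 : ℂ) r ⊆ (fun w : ℂ => z - w) ⁻¹' Metric.closedBall 0 (2 * r) := by
    intro w hw
    rw [mem_closedBall_zero_iff] at hw
    rw [Set.mem_preimage, mem_closedBall_zero_iff]
    linarith [norm_sub_le z w]
  have h2 : IntegrableOn (fun w : ℂ => Real.log ‖z - w‖)
      ((fun w : ℂ => z - w) ⁻¹' Metric.closedBall 0 (2 * r)) :=
    (hmp.integrableOn_comp_preimage hme).2 (intOn_log (by linarith))
  refine ⟨h2.mono_set h1, ?_⟩
  have h3 : ∫ w in (fun w : ℂ => z - w) ⁻¹' Metric.closedBall 0 (2 * r), |Real.log ‖z - w‖| =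
      ∫ v in Metric.closedBall (0 : ℂ) (2 * r), |Real.log ‖v‖| :=
    hmp.setIntegral_preimage_emb hme (fun v : ℂ => |Real.log ‖v‖|) _
  rw [← h3]
  exact setIntegral_mono_set h2.abs (Filter.Eventually.of_forall fun w => abs_nonneg _)
    (Filter.Eventually.of_forall h1)

/-- bounds for a test function -/
lemma test_bd {F : ℂ → ℝ} (hc : Continuous F) (hs : HasCompactSupport F) :
    ∃ C r : ℝ, 0 ≤ C ∧ 0 ≤ r ∧ (∀ z, |F z| ≤ C) ∧ ∀ z, F z ≠ 0 → ‖z‖ ≤ r := by
  obtain ⟨C, hC⟩ := hc.bounded_above_of_compact_support hs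
  obtain ⟨R, hR⟩ := hs.isCompact.isBounded.subset_closedBall (0 : ℂ)
  refine ⟨C, max R 0, (norm_nonneg _).trans (hC 0), le_max_right _ _, hC, fun z hz => ?_⟩
  have := hR (subset_tsupport F hz)
  rw [mem_closedBall_zero_iff] at this
  exact this.trans (le_max_left _ _)

/-- the potential of a charge distribution: integrability -/
lemma pot_int {F : ℂ → ℝ} (hc : Continuous F) (hs : HasCompactSupport F) (z : ℂ) :
    Integrable (fun w => Real.log ‖z - w‖ * F w) := by
  obtain ⟨C, r, hC0, hr0, hC, hr⟩ := test_bd hc hs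
  have h1 := (log_shift (r := max r ‖z‖) (by positivity) (le_max_right _ _)).1
  have h2 : IntegrableOn (fun w => Real.log ‖z - w‖ * F w) (Metric.closedBall 0 (max r ‖z‖)) := by
    have := h1.bdd_mul (c := C) (hc.aestronglyMeasurable) (Filter.Eventually.of_forall hC)
    exact this.congr (Filter.Eventually.of_forall fun w => mul_comm _ _)
  refine (integrableOn_iff_integrable_of_support_subset ?_).1 h2
  intro w hw
  rw [mem_closedBall_zero_iff]
  exact (hr w fun h => hw (by simp [h])).trans (le_max_left _ _)

lemma prod_int {F : ℂ → ℝ} (hc : Continuous F) (hs : HasCompactSupport F) :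
    Integrable (fun p : ℂ × ℂ => -Real.log ‖p.1 - p.2‖ * F p.1 * F p.2)
      ((volume : Measure ℂ).prod volume) := by
  obtain ⟨C, r, hC0, hr0, hC, hr⟩ := test_bd hc hs
  have hF : Integrable F := hc.integrable_of_hasCompactSupport hs
  have hm : AEStronglyMeasurable (fun p : ℂ × ℂ => -Real.log ‖p.1 - p.2‖ * F p.1 * F p.2)
      ((volume : Measure ℂ).prod volume) := by
    have h1 : Measurable (fun p : ℂ × ℂ => Real.log ‖p.1 - p.2‖) :=
      meas_log.comp (measurable_fst.sub measurable_snd)
    exact ((h1.neg.mul (hc.measurable.comp measurable_fst)).mul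
      (hc.measurable.comp measurable_snd)).aestronglyMeasurable
  rw [integrable_prod_iff hm]
  refine ⟨Filter.Eventually.of_forall fun z => ?_, ?_⟩
  · refine ((pot_int hc hs z).const_mul (-F z)).congr (Filter.Eventually.of_forall fun w => ?_)
    simp only
    ring
  · set K := ∫ v in Metric.closedBall (0 : ℂ) (2 * r), |Real.log ‖v‖| with hK
    refine ((hF.norm.const_mul (C * K))).mono' hm.norm.integral_prod_right' ?_
    refine Filter.Eventually.of_forall fun z => ?_
    rw [Real.norm_of_nonneg (integral_nonneg fun w => norm_nonneg _)]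
    by_cases hz : F z = 0
    · simp [hz]
    have h1 := log_shift hr0 (hr z hz)
    have h2 : ∫ w, ‖-Real.log ‖z - w‖ * F z * F w‖ =
        ∫ w in Metric.closedBall 0 r, ‖-Real.log ‖z - w‖ * F z * F w‖ := by
      rw [setIntegral_eq_integral_of_forall_compl_eq_zero]
      intro w hw
      have : F w = 0 := by
        by_contra h
        exact hw (mem_closedBall_zero_iff.2 (hr w h))
      simp [this]
    rw [h2]
    calc _ ≤ ∫ w in Metric.closedBall 0 r, (‖F z‖ * C) * |Real.log ‖z - w‖| := by
          refine integral_mono_of_nonneg (Filter.Eventually.of_forall fun w => norm_nonneg _)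
            (h1.1.abs.const_mul _) (Filter.Eventually.of_forall fun w => ?_)
          simp only [norm_mul, norm_neg, Real.norm_eq_abs]
          have := mul_le_mul_of_nonneg_left (hC w)
            (mul_nonneg (abs_nonneg (Real.log ‖z - w‖)) (abs_nonneg (F z)))
          linarith
      _ = (‖F z‖ * C) * ∫ w in Metric.closedBall 0 r, |Real.log ‖z - w‖| := integral_const_mul _ _
      _ ≤ (‖F z‖ * C) * K := mul_le_mul_of_nonneg_left h1.2 (by positivity)
      _ = C * K * ‖F z‖ := by ring

end H519

end Vale.Agent.P167
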