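import Vale.Agent.P167.H519.Global

/-!
P167: nesting statistics of all loops around the origin in a box, from the annuli.
-/

namespace Vale.Agent.P167

open Finset Filter Topology MeasureTheory ProbabilityTheory
open scoped ENNReal

namespace H519

open Vale.Agent.P167.H562 (Em Em_mono Em_eq holder_up holder_lo)
open Vale.Agent.P167.H45 (S_crossL S_mom NS NS_fin LV LV_fin LV_ncard box_fin)

/-- the angle with `2 cos u = e ^ l` -/
noncomputable def ang (l : ℝ) : ℝ := Real.arccos (Real.exp l / 2)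

/-- the exponent as a function of `l` -/
noncomputable def th (l : ℝ) : ℝ := cA * (Real.pi ^ 2 / 9 - ang l ^ 2)

lemma th_cont : Continuous th := by
  unfold th ang
  fun_prop

lemma ang_mem {l : ℝ} (hl : l < Real.log 2) : 0 < ang l ∧ ang l < Real.pi / 2 ∧
    2 * Real.cos (ang l) = Real.exp l := by
  have h1 : 0 < Real.exp l := Real.exp_pos l
  have h2 : Real.exp l < 2 := by
    rw [← Real.exp_log (show (0 : ℝ) < 2 by norm_num)]
    exact Real.exp_lt_exp.2 hl
  refine ⟨?_, ?_, ?_⟩
  · exact Real.arccos_pos.2 (by linarith)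
  · exact Real.arccos_lt_pi_div_two.2 (by linarith)
  · unfold ang
    rw [Real.cos_arccos (by linarith) (by linarith)]
    ring

/-- F2 in terms of `Em`, for all large ratios and all large inner radii -/
lemma F2_Em (hF2 : S_F2) (hmom : S_mom) {l : ℝ} (hl : l < Real.log 2) {η : ℝ} (hη : 0 < η) :
    ∃ m0 : ℕ, 2 ≤ m0 ∧ ∀ m ≥ m0, ∃ n0 : ℕ, ∀ n ≥ n0,
      ENNReal.ofReal (Real.exp ((th l - η) * Real.log m)) ≤
        Em μ (fun ω => l * (Nn (n : ℝ) ((m * n : ℕ) : ℝ) ω : ℝ)) ∧
      Em μ (fun ω => l * (Nn (n : ℝ) ((m * n : ℕ) : ℝ) ω : ℝ)) ≤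
        ENNReal.ofReal (Real.exp ((th l + η) * Real.log m)) := by
  obtain ⟨hu0, hu1, hu2⟩ := ang_mem hl
  obtain ⟨ε0, hε0, hF⟩ := hF2 (ang l) hu0 hu1 η hη
  obtain ⟨C, a0, hC⟩ := hmom l
  obtain ⟨m0, hm0⟩ := exists_nat_ge (1 / ε0)
  refine ⟨max m0 2, le_max_right _ _, fun m hm => ?_⟩
  have hm2 : 2 ≤ m := (le_max_right _ _).trans hm
  have hm0' : m0 ≤ m := (le_max_left _ _).trans hm
  have hmpos : (0 : ℝ) < m := by exact_mod_cast (by omega : 0 < m)
  have hlm : 0 < Real.log m := Real.log_pos (by exact_mod_cast (by omega : 1 < m))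
  have hε : 1 / (m : ℝ) ≤ ε0 := by
    rw [div_le_iff₀ hmpos]
    rw [div_le_iff₀ hε0] at hm0
    have : (m0 : ℝ) * ε0 ≤ m * ε0 :=
      mul_le_mul_of_nonneg_right (by exact_mod_cast hm0') hε0.le
    nlinarith
  obtain ⟨N, hN⟩ := eventually_atTop.1 (hF (1 / m) (by positivity) hε)
  obtain ⟨a1, ha1⟩ := exists_nat_ge a0
  refine ⟨max N a1, fun n hn => ?_⟩
  have hn1 : N ≤ m * n := ((le_max_left _ _).trans hn).trans (Nat.le_mul_of_pos_left _ (by omega))
  have h2 := hN (m * n) hn1
  have e1 : 1 / (m : ℝ) * ((m * n : ℕ) : ℝ) = n := by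
    push_cast
    field_simp
  rw [e1, one_div_one_div] at h2
  have e2 : ∀ ω, (2 * Real.cos (ang l)) ^ Nn (n : ℝ) ((m * n : ℕ) : ℝ) ω =
      Real.exp (l * (Nn (n : ℝ) ((m * n : ℕ) : ℝ) ω : ℝ)) := fun ω => by
    rw [hu2, ← Real.exp_nat_mul, mul_comm]
  simp only [e2] at h2
  have h3 := (hC n ((m * n : ℕ) : ℝ) (ha1.trans (by exact_mod_cast (le_max_right _ _).trans hn))
    (by exact_mod_cast Nat.mul_le_mul_right n hm2)).1
  rw [Em_eq h3]
  have hpos : 0 < ∫ ω, Real.exp (l * (Nn (n : ℝ) ((m * n : ℕ) : ℝ) ω : ℝ)) ∂μ :=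
    integral_exp_pos h3
  set q := ∫ ω, Real.exp (l * (Nn (n : ℝ) ((m * n : ℕ) : ℝ) ω : ℝ)) ∂μ with hq
  rw [abs_le] at h2
  have h4 : (th l - η) * Real.log m ≤ Real.log q := by
    rw [← le_div_iff₀ hlm]
    have := h2.1
    unfold th
    linarith
  have h5 : Real.log q ≤ (th l + η) * Real.log m := by
    rw [← div_le_iff₀ hlm]
    have := h2.2
    unfold th
    linarith
  constructor
  · exact ENNReal.ofReal_le_ofReal ((Real.le_log_iff_exp_le hpos).1 h4)
  · exact ENNReal.ofReal_le_ofReal ((Real.log_le_iff_le_exp hpos).1 h5)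

lemma prod_ofReal_exp (K : ℕ) (a : ℝ) :
    ∏ _j ∈ range K, ENNReal.ofReal (Real.exp a) = ENNReal.ofReal (Real.exp (K * a)) := by
  rw [prod_const, card_range, ← ENNReal.ofReal_pow (Real.exp_pos _).le, ← Real.exp_nat_mul]

/-- choice of `p` -/
lemma exists_p {l : ℝ} (hl : l < Real.log 2) {η : ℝ} (hη : 0 < η) : ∃ p : ℝ, 1 < p ∧
    p * l < Real.log 2 ∧ l / p < Real.log 2 ∧ (1 / p) * th (p * l) ≤ th l + η ∧
    th l - η ≤ p * th (l / p) ∧ p ≤ 2 := by
  have c1 : ContinuousAt (fun p : ℝ => p * l) 1 := by fun_prop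
  have c2 : ContinuousAt (fun p : ℝ => l / p) 1 :=
    continuousAt_const.div continuousAt_id one_ne_zero
  have c3 : ContinuousAt (fun p : ℝ => (1 / p) * th (p * l)) 1 :=
    (continuousAt_const.div continuousAt_id one_ne_zero).mul (th_cont.continuousAt.comp c1)
  have c4 : ContinuousAt (fun p : ℝ => p * th (l / p)) 1 :=
    continuousAt_id.mul (ContinuousAt.comp (f := fun p : ℝ => l / p) (g := th) th_cont.continuousAt c2)
  have e1 : ∀ᶠ p : ℝ in 𝓝 1, p * l < Real.log 2 := by
    have := c1.tendsto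
    simp only [one_mul] at this
    exact this.eventually_lt_const hl
  have e2 : ∀ᶠ p : ℝ in 𝓝 1, l / p < Real.log 2 := by
    have := c2.tendsto
    simp only [div_one] at this
    exact this.eventually_lt_const hl
  have e3 : ∀ᶠ p : ℝ in 𝓝 1, (1 / p) * th (p * l) < th l + η := by
    have := c3.tendsto
    simp only [one_mul, div_one] at this
    exact this.eventually_lt_const (by linarith)
  have e4 : ∀ᶠ p : ℝ in 𝓝 1, th l - η < p * th (l / p) := by
    have := c4.tendsto
    simp only [one_mul, div_one] at this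
    exact this.eventually_const_lt (by linarith)
  have e5 : ∀ᶠ p : ℝ in 𝓝 1, p < 2 := gt_mem_nhds (by norm_num)
  have e6 : ∀ᶠ p : ℝ in 𝓝[>] 1, 1 < p := self_mem_nhdsWithin
  obtain ⟨p, h6, h1, h2, h3, h4, h5⟩ := (e6.and ((((e1.and (e2.and (e3.and (e4.and e5))))).filter_mono
    nhdsWithin_le_nhds))).exists
  exact ⟨p, h6, h1, h2, h3.le, h4.le, h5.le⟩

/-- **The generating function of the number of all loops around the origin in a box.** -/
theorem nest_gen (hF2 : S_F2) (hmom : S_mom) (hX : S_crossL) (hcon : S_con) (h2 : S_two)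
    (ho : S_out) (hl : S_loc) (hi : S_indep) {l : ℝ} (hlt : l < Real.log 2) :
    Tendsto (fun n : ℕ => Real.log (∫ ω, Real.exp (l * (nLoops n ω : ℝ)) ∂μ) / Real.log n) atTop
      (𝓝 (th l)) := by
  -- integrability
  have hint : ∀ n, Integrable (fun ω => Real.exp (l * (nLoops n ω : ℝ))) μ := by
    intro n
    obtain ⟨C, hC⟩ := nLoops_bdd h2 n
    refine Integrable.of_bound (C := Real.exp (|l| * C)) ?_ (Eventually.of_forall fun ω => ?_)
    · have := nLoops_meas h2 hl n
      exact ((measurable_of_countable (fun y : ℕ => Real.exp (l * (y : ℝ)))).comp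
        this).aestronglyMeasurable
    · rw [Real.norm_eq_abs, abs_of_pos (Real.exp_pos _)]
      refine Real.exp_le_exp.2 ?_
      have h1 : (nLoops n ω : ℝ) ≤ C := by exact_mod_cast hC ω
      calc l * (nLoops n ω : ℝ) ≤ |l| * (nLoops n ω : ℝ) :=
            mul_le_mul_of_nonneg_right (le_abs_self l) (by positivity)
        _ ≤ |l| * C := mul_le_mul_of_nonneg_left h1 (abs_nonneg l)
  have hpos : ∀ n, 0 < ∫ ω, Real.exp (l * (nLoops n ω : ℝ)) ∂μ := fun n => integral_exp_pos (hint n)
  have hmon : Monotone (fun n : ℕ => Real.log (∫ ω, Real.exp (l * (nLoops n ω : ℝ)) ∂μ)) ∨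
      Antitone (fun n : ℕ => Real.log (∫ ω, Real.exp (l * (nLoops n ω : ℝ)) ∂μ)) := by
    rcases le_total 0 l with h0 | h0
    · left
      intro n n' hnn
      refine Real.log_le_log (hpos n) (integral_mono (hint n) (hint n') fun ω => ?_)
      refine Real.exp_le_exp.2 (mul_le_mul_of_nonneg_left ?_ h0)
      exact_mod_cast nLoops_mono h2 ω hnn
    · right
      intro n n' hnn
      refine Real.log_le_log (hpos n') (integral_mono (hint n') (hint n) fun ω => ?_)
      refine Real.exp_le_exp.2 (mul_le_mul_of_nonpos_left ?_ h0)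
      exact_mod_cast nLoops_mono h2 ω hnn
  refine geo_two hmon fun η hη => ?_
  -- choice of the parameters
  obtain ⟨p, hp1, hp2, hp3, hp4, hp5, hp6⟩ := exists_p hlt (show 0 < η / 4 by linarith)
  have hp0 : 0 < p := by linarith
  have hpm : 0 < p - 1 := by linarith
  set q : ℝ := p / (p - 1) with hq
  have hq0 : 0 < q := div_pos hp0 hpm
  obtain ⟨C1, b1, hC1, hb1, hS1⟩ := str_Em hX hcon h2 ho (q * |l|)
  obtain ⟨C2, b2, hC2, hb2, hS2⟩ := str_Em hX hcon h2 ho (1 / (p - 1) * |l|)
  obtain ⟨m1, hm12, hm1⟩ := F2_Em hF2 hmom hp2 (show 0 < η / 8 by linarith)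
  obtain ⟨m2, hm22, hm2⟩ := F2_Em hF2 hmom hp3 (show 0 < η / 8 by linarith)
  have hlog : Tendsto (fun n : ℕ => Real.log n) atTop atTop :=
    Real.tendsto_log_atTop.comp tendsto_natCast_atTop_atTop
  obtain ⟨m, ⟨hmA, hmB⟩, hmC, hmD, hmE⟩ := (((hlog.eventually_ge_atTop (4 * (C1 / q) / η)).and
    (hlog.eventually_ge_atTop (4 * ((p - 1) * C2) / η))).and
    ((eventually_ge_atTop m1).and ((eventually_ge_atTop m2).and (eventually_ge_atTop 4)))).exists
  obtain ⟨n1, hn1⟩ := hm1 m hmC
  obtain ⟨n2, hn2⟩ := hm2 m hmD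
  set s : ℕ := max (max n1 n2) (max b1.toNat b2.toNat) with hs
  have hs1 : n1 ≤ s := (le_max_left _ _).trans (le_max_left _ _)
  have hs2 : n2 ≤ s := (le_max_right _ _).trans (le_max_left _ _)
  have hs3 : b1 ≤ s := by
    have : b1.toNat ≤ s := (le_max_left _ _).trans (le_max_right _ _)
    omega
  have hs4 : b2 ≤ s := by
    have : b2.toNat ≤ s := (le_max_right _ _).trans (le_max_right _ _)
    omega
  have hs5 : 1 ≤ s := by omega
  have hlm : 0 < Real.log m := Real.log_pos (by exact_mod_cast (by omega : 1 < m))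
  obtain ⟨C0, hC0⟩ := nLoops_bdd h2 s
  refine ⟨m, s, by omega, hs5, |l| * C0, fun K => ?_⟩
  -- the scales
  set b : ℕ → ℕ := fun j => s * m ^ j with hb
  have hb0 : b 0 = s := by simp [hb]
  have hbs : ∀ j, s ≤ b j := fun j => Nat.le_mul_of_pos_right _ (Nat.pow_pos (by omega))
  have hbm : ∀ j, b (j + 1) = m * b j := fun j => by simp only [hb]; ring
  have hbmono : Monotone b := monotone_nat_of_le_succ fun j => by
    rw [hbm]; exact Nat.le_mul_of_pos_left _ (by omega)
  have hb4 : ∀ j, 4 * (b j : ℤ) ≤ (b (j + 1) : ℤ) := fun j => by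
    rw [hbm]
    exact_mod_cast Nat.mul_le_mul_right _ hmE
  set SN : Cfg → ℝ := fun ω => ∑ j ∈ range K, (Nn (b j) (b (j + 1)) ω : ℝ) with hSN
  set SS : Cfg → ℝ := fun ω => ∑ j ∈ range K, (St (b j) ω : ℝ) with hSS
  have hSSm : Measurable SS := Finset.measurable_fun_sum _ fun j _ =>
    (measurable_of_countable (fun y : ℕ => (y : ℝ))).comp (St_meas h2 hl (b j))
  have hSNm : Measurable SN := Finset.measurable_fun_sum _ fun j _ =>
    (measurable_of_countable (fun y : ℕ => (y : ℝ))).comp (hi.1 (b j) (b (j + 1)))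
  have hSN0 : ∀ ω, 0 ≤ SS ω := fun ω => Finset.sum_nonneg fun j _ => by positivity
  -- decomposition
  have hdec : ∀ ω, l * (nLoops (b K) ω : ℝ) ≤ |l| * C0 + (|l| * SS ω + l * SN ω) ∧
      -(|l| * C0) + (-(|l| * SS ω) + l * SN ω) ≤ l * (nLoops (b K) ω : ℝ) := by
    intro ω
    have h3 : (nLoops (b K) ω : ℝ) ≤ C0 + (SS ω + SN ω) := by
      have h4 := LN_up h2 b K ω
      have h5 := hC0 ω
      rw [hb0] at h4
      have h6 : nLoops (b K) ω ≤ C0 + ∑ j ∈ range K, (St (b j) ω + Nn (b j) (b (j + 1)) ω) := by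
        omega
      have h7 : ((nLoops (b K) ω : ℕ) : ℝ) ≤
          ((C0 + ∑ j ∈ range K, (St (b j) ω + Nn (b j) (b (j + 1)) ω) : ℕ) : ℝ) := by
        exact_mod_cast h6
      push_cast at h7
      rw [sum_add_distrib] at h7
      exact h7
    have h4 : SN ω ≤ (nLoops (b K) ω : ℝ) := by
      have h5 := LN_lo h2 b hbmono K ω
      have h6 : ((∑ j ∈ range K, Nn (b j) (b (j + 1)) ω : ℕ) : ℝ) ≤ (nLoops (b K) ω : ℝ) := by
        exact_mod_cast h5
      push_cast at h6
      exact h6
    have h5 := hSN0 ω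
    rcases le_total 0 l with h0 | h0
    · rw [abs_of_nonneg h0]
      have a1 := mul_le_mul_of_nonneg_left h3 h0
      have a2 := mul_le_mul_of_nonneg_left h4 h0
      have a3 : 0 ≤ l * SS ω := mul_nonneg h0 h5
      have a4 : 0 ≤ l * (C0 : ℝ) := by positivity
      constructor <;> linarith
    · rw [abs_of_nonpos h0]
      have a1 := mul_le_mul_of_nonpos_left h3 h0
      have a2 := mul_le_mul_of_nonpos_left h4 h0
      have a3 : 0 ≤ -l * SS ω := mul_nonneg (by linarith) h5
      have a4 : 0 ≤ -l * (C0 : ℝ) := mul_nonneg (by linarith) (by positivity)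
      constructor <;> linarith
  have hEm := Em_eq (hint (b K))
  set V := ∫ ω, Real.exp (l * (nLoops (b K) ω : ℝ)) ∂μ with hV
  have hVpos : 0 < V := hpos (b K)
  have hM : AEMeasurable (fun ω => ENNReal.ofReal (Real.exp (l * SN ω))) μ := by fun_prop
  -- upper bound
  have hup : Real.log V ≤ |l| * C0 + (K * C1 / q + 1 / p * (K * ((th (p * l) + η / 8) *
      Real.log m))) := by
    have a1 : Em μ (fun ω => l * (nLoops (b K) ω : ℝ)) ≤
        ENNReal.ofReal (Real.exp (|l| * C0)) *
          ∫⁻ ω, ENNReal.ofReal (Real.exp (|l| * SS ω)) *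
            ENNReal.ofReal (Real.exp (l * SN ω)) ∂μ := by
      rw [← lintegral_const_mul' _ _ ENNReal.ofReal_ne_top]
      refine lintegral_mono fun ω => ?_
      rw [← ENNReal.ofReal_mul (Real.exp_pos _).le, ← ENNReal.ofReal_mul (Real.exp_pos _).le,
        ← Real.exp_add, ← Real.exp_add]
      exact ENNReal.ofReal_le_ofReal (Real.exp_le_exp.2 (hdec ω).1)
    have a2 := holder_up (μ := μ) (v := fun ω => |l| * SS ω) (by fun_prop) hM hp1
      (B := K * C1 / q) (by
        have := hS1 (fun j => (b j : ℤ)) (fun j => hs3.trans (by exact_mod_cast hbs j)) hb4 K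
        have e1 : p / (p - 1) * (K * C1 / q) = K * C1 := by
          rw [← hq]; field_simp
        rw [e1]
        refine le_trans (le_of_eq ?_) this
        congr 1
        ext ω
        rw [← hq]
        ring)
    have a3 : ∫⁻ ω, ENNReal.ofReal (Real.exp (l * SN ω)) ^ p ∂μ ≤
        ENNReal.ofReal (Real.exp (K * ((th (p * l) + η / 8) * Real.log m))) := by
      have e1 : ∀ ω, ENNReal.ofReal (Real.exp (l * SN ω)) ^ p =
          ENNReal.ofReal (Real.exp (p * l * SN ω)) := fun ω => by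
        rw [ENNReal.ofReal_rpow_of_pos (Real.exp_pos _), ← Real.exp_mul]
        congr 2
        ring
      simp only [e1]
      have e2 := Em_scales hi b hbmono K (p * l)
      unfold Em at e2
      rw [hSN, e2, ← prod_ofReal_exp]
      refine Finset.prod_le_prod' fun j _ => ?_
      have e3 := (hn1 (b j) (hs1.trans (hbs j))).2
      rw [← hbm] at e3
      exact e3
    have a4 : (∫⁻ ω, ENNReal.ofReal (Real.exp (l * SN ω)) ^ p ∂μ) ^ (1 / p) ≤
        ENNReal.ofReal (Real.exp (1 / p * (K * ((th (p * l) + η / 8) * Real.log m)))) := by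
      refine (ENNReal.rpow_le_rpow a3 (by positivity)).trans (le_of_eq ?_)
      rw [ENNReal.ofReal_rpow_of_pos (Real.exp_pos _), ← Real.exp_mul]
      congr 2
      ring
    have a5 := a1.trans (mul_le_mul_right (a2.trans (mul_le_mul_right a4 _)) _)
    rw [hEm, ← ENNReal.ofReal_mul (Real.exp_pos _).le, ← ENNReal.ofReal_mul (Real.exp_pos _).le,
      ← Real.exp_add, ← Real.exp_add, ENNReal.ofReal_le_ofReal_iff (Real.exp_pos _).le] at a5
    exact (Real.log_le_iff_le_exp hVpos).2 a5
  -- lower bound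
  have hlo : -(|l| * C0) + (-(p - 1) * (K * C2) + p * (K * ((th (l / p) - η / 8) *
      Real.log m))) ≤ Real.log V := by
    have a1 : ENNReal.ofReal (Real.exp (-(|l| * C0))) *
          ∫⁻ ω, ENNReal.ofReal (Real.exp (-(|l| * SS ω))) *
            ENNReal.ofReal (Real.exp (l * SN ω)) ∂μ ≤ Em μ (fun ω => l * (nLoops (b K) ω : ℝ)) := by
      rw [← lintegral_const_mul' _ _ ENNReal.ofReal_ne_top]
      refine lintegral_mono fun ω => ?_
      rw [← ENNReal.ofReal_mul (Real.exp_pos _).le, ← ENNReal.ofReal_mul (Real.exp_pos _).le,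
        ← Real.exp_add, ← Real.exp_add]
      exact ENNReal.ofReal_le_ofReal (Real.exp_le_exp.2 (hdec ω).2)
    have a2 := holder_lo (μ := μ) (v := fun ω => -(|l| * SS ω)) (by fun_prop) hM hp1
      (B := -(p - 1) * (K * C2)) (by
        have := hS2 (fun j => (b j : ℤ)) (fun j => hs4.trans (by exact_mod_cast hbs j)) hb4 K
        have e1 : -(1 / (p - 1)) * (-(p - 1) * (K * C2)) = K * C2 := by
          field_simp
        rw [e1]
        refine le_trans (le_of_eq ?_) this
        congr 1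
        ext ω
        ring)
    have a3 : ENNReal.ofReal (Real.exp (K * ((th (l / p) - η / 8) * Real.log m))) ≤
        ∫⁻ ω, ENNReal.ofReal (Real.exp (l * SN ω)) ^ (1 / p) ∂μ := by
      have e1 : ∀ ω, ENNReal.ofReal (Real.exp (l * SN ω)) ^ (1 / p) =
          ENNReal.ofReal (Real.exp (l / p * SN ω)) := fun ω => by
        rw [ENNReal.ofReal_rpow_of_pos (Real.exp_pos _), ← Real.exp_mul]
        congr 2
        ring
      simp only [e1]
      have e2 := Em_scales hi b hbmono K (l / p)
      unfold Em at e2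
      rw [hSN, e2, ← prod_ofReal_exp]
      refine Finset.prod_le_prod' fun j _ => ?_
      have e3 := (hn2 (b j) (hs2.trans (hbs j))).1
      rw [← hbm] at e3
      exact e3
    have a4 : ENNReal.ofReal (Real.exp (p * (K * ((th (l / p) - η / 8) * Real.log m)))) ≤
        (∫⁻ ω, ENNReal.ofReal (Real.exp (l * SN ω)) ^ (1 / p) ∂μ) ^ p := by
      refine le_trans (le_of_eq ?_) (ENNReal.rpow_le_rpow a3 hp0.le)
      rw [ENNReal.ofReal_rpow_of_pos (Real.exp_pos _), ← Real.exp_mul]
      congr 2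
      ring
    have a5 := (mul_le_mul_right ((mul_le_mul_right a4 _).trans a2) _).trans a1
    rw [hEm, ← ENNReal.ofReal_mul (Real.exp_pos _).le, ← ENNReal.ofReal_mul (Real.exp_pos _).le,
      ← Real.exp_add, ← Real.exp_add, ENNReal.ofReal_le_ofReal_iff hVpos.le] at a5
    exact (Real.le_log_iff_exp_le hVpos).2 a5
  -- conclusion
  have hK0 : (0 : ℝ) ≤ K := by positivity
  have g1 : K * C1 / q ≤ K * (η / 4 * Real.log m) := by
    have : C1 / q ≤ η / 4 * Real.log m := by
      rw [div_le_iff₀ hη] at hmA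
      linarith
    calc K * C1 / q = K * (C1 / q) := by ring
      _ ≤ _ := mul_le_mul_of_nonneg_left this hK0
  have g2 : (p - 1) * (K * C2) ≤ K * (η / 4 * Real.log m) := by
    have : (p - 1) * C2 ≤ η / 4 * Real.log m := by
      rw [div_le_iff₀ hη] at hmB
      linarith
    calc (p - 1) * (K * C2) = K * ((p - 1) * C2) := by ring
      _ ≤ _ := mul_le_mul_of_nonneg_left this hK0
  have g3 : 1 / p * (K * ((th (p * l) + η / 8) * Real.log m)) ≤
      K * ((th l + η / 4 + η / 8) * Real.log m) := by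
    have h3 : 1 / p * (η / 8) ≤ η / 8 := by
      have : 1 / p ≤ 1 := by rw [div_le_one hp0]; linarith
      nlinarith
    have h4 : 1 / p * (th (p * l) + η / 8) ≤ th l + η / 4 + η / 8 := by
      rw [mul_add]; linarith
    have h5 := mul_le_mul_of_nonneg_right h4 hlm.le
    have h6 := mul_le_mul_of_nonneg_left h5 hK0
    calc _ = K * (1 / p * (th (p * l) + η / 8) * Real.log m) := by ring
      _ ≤ _ := h6
  have g4 : K * ((th l - η / 4 - η / 4) * Real.log m) ≤
      p * (K * ((th (l / p) - η / 8) * Real.log m)) := by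
    have h3 : p * (η / 8) ≤ η / 4 := by nlinarith
    have h4 : th l - η / 4 - η / 4 ≤ p * (th (l / p) - η / 8) := by
      rw [mul_sub]; linarith
    have h5 := mul_le_mul_of_nonneg_right h4 hlm.le
    have h6 := mul_le_mul_of_nonneg_left h5 hK0
    calc _ ≤ K * (p * (th (l / p) - η / 8) * Real.log m) := h6
      _ = _ := by ring
  have g5 : 0 ≤ K * (η * Real.log m) := by positivity
  show |Real.log V - K * (th l * Real.log m)| ≤ K * (η * Real.log m) + |l| * C0
  rw [abs_le]
  constructor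
  · have : K * ((th l - η / 4 - η / 4) * Real.log m) =
        K * (th l * Real.log m) - K * (η * Real.log m) / 2 := by ring
    have : K * (η / 4 * Real.log m) = K * (η * Real.log m) / 4 := by ring
    linarith
  · have : K * ((th l + η / 4 + η / 8) * Real.log m) =
        K * (th l * Real.log m) + K * (η * Real.log m) * 3 / 8 := by ring
    have : K * (η / 4 * Real.log m) = K * (η * Real.log m) / 4 := by ring
    linarith

end H519

end Vale.Agent.P167
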