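import Vale.Agent.P167.H519.Moeb
import Vale.Agent.P167.H519.Nest
import Vale.Agent.P167.H519.Mean
import Vale.Agent.P167.H519.Conf
import Vale.Agent.P167.H519.Done

/-!
P167: transfer of the final statements to bond percolation on the square lattice `ℤ²`.
-/

namespace Vale.Agent.P167

open MeasureTheory Set Filter Topology
open Vale.Agent.P145.FB (PStep)

namespace H519

lemma edgeOf_eq (v : ℤ × ℤ) : edgeOf v = eqv v := rfl

lemma med_toBond (ω : Cfg) : med (toBond ω) = ω := by
  funext v
  show toBond ω (edgeOf v) = ω v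
  rw [edgeOf_eq, toBond_apply]

lemma toBond_med (ω : BondCfg) : toBond (med ω) = ω := by
  obtain ⟨ω', rfl⟩ := toBond.surjective ω
  rw [med_toBond]

/-- integrals of functions of the squares -/
lemma int_med (g : Cfg → ℝ) : ∫ ω, g (med ω) ∂bondPerc = ∫ ω, g ω ∂μ := by
  rw [← map_toBond, toBond.measurableEmbedding.integral_map]
  refine integral_congr_ae (Filter.Eventually.of_forall fun ω => ?_)
  simp only [med_toBond]

lemma numLoops_eq (n : ℕ) (ω : BondCfg) : numLoops n ω = nLoops n (med ω) := by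
  unfold numLoops nLoops Nn
  congr 1
  ext ℓ
  constructor
  · rintro ⟨h1, h2, h3⟩
    refine ⟨h1, fun v hv => ⟨?_, by exact_mod_cast h3 v hv⟩, h2⟩
    have : 0 ≤ nm v := le_max_of_le_left (abs_nonneg _)
    have h4 : (0 : ℝ) ≤ nm v := by exact_mod_cast this
    linarith
  · rintro ⟨h1, h2, h3⟩
    exact ⟨h1, h3, fun v hv => by exact_mod_cast (h2 v hv).2⟩

/-- along a loop the sites on the left belong to one open cluster -/
lemma left_conn {ω : BondCfg} {ℓ : Finset Ed} (h : IsLoop (med ω) ℓ) {e e' : Ed} (he : e ∈ ℓ)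
    (he' : e' ∈ ℓ) : ∃ u u' : ℤ × ℤ, rot u = ls e ∧ rot u' = ls e' ∧
      (openGraph ω).Reachable u u' := by
  obtain ⟨e0, h0⟩ := h
  have key : ∀ n : ℕ, ∃ u u' : ℤ × ℤ, rot u = ls e0 ∧ rot u' = ls ((nx (med ω))^[n] e0) ∧
      (openGraph ω).Reachable u u' := by
    intro n
    induction n with
    | zero =>
      obtain ⟨u, hu⟩ := exists_rot (ls_even e0)
      exact ⟨u, u, hu, by simpa using hu, SimpleGraph.Reachable.refl _⟩
    | succ n ih =>
      obtain ⟨u, u', hu, hu', hr⟩ := ih
      rw [Function.iterate_succ_apply']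
      set f := (nx (med ω))^[n] e0 with hf
      cases hh : med ω (hdv f) with
      | false => exact ⟨u, u', hu, by rw [(nx_closed hh).1]; exact hu', hr⟩
      | true =>
        have h1 := (nx_open hh).2
        obtain ⟨u'', hu''⟩ := exists_rot (ls_even (nx (med ω) f))
        refine ⟨u, u'', hu, hu'', hr.trans ?_⟩
        rw [← hu', ← hu''] at h1
        rw [← toBond_med ω]
        exact (open_adj.2 h1).reachable
  obtain ⟨n, hn⟩ := (h0 e).1 he
  obtain ⟨m, hm⟩ := (h0 e').1 he'
  obtain ⟨u, u', hu, hu', hr⟩ := key n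
  obtain ⟨t, t', ht, ht', hr'⟩ := key m
  rw [hn] at hu'
  rw [hm] at ht'
  have : u = t := rot_inj (hu.trans ht.symm)
  subst this
  exact ⟨u', t', hu', ht', hr.symm.trans hr'⟩

/-- only finitely many loops have a weight different from one -/
lemma finite_weight (h2 : S_two) (hnx : S_nx) (hj : S_jump) {f : ℤ × ℤ → ℝ}
    (hf : f.support.Finite) (h0 : ∑ᶠ s, f s = 0) (ω : Cfg) :
    {ℓ | IsLoop ω ℓ ∧ wf (G f ℓ) ≠ 1}.Finite := by
  obtain ⟨R, hR⟩ : ∃ R : ℤ, ∀ s ∈ f.support, nm s ≤ R := by
    obtain ⟨R, hR⟩ := (hf.image nm).bddAbove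
    exact ⟨R, fun s hs => hR (Set.mem_image_of_mem _ hs)⟩
  refine (H45.LV_fin h2 (finite_nm R).toFinset ω).subset ?_
  rintro ℓ ⟨hℓ, hw⟩
  refine ⟨hℓ, ?_⟩
  by_contra hcon
  push Not at hcon
  apply hw
  have h3 : ∀ v ∈ vs ℓ, R < nm v := by
    intro v hv
    by_contra h
    exact hcon v hv (by simpa using h)
  have h4 : G f ℓ = 0 := by
    unfold G
    by_cases hW : W ℓ 0 = 0
    · rw [finsum_mem_congr (g := fun _ => 0) rfl, finsum_mem_zero]
      intro s hs
      by_contra hfs
      exact hs ((W_box hnx hj hℓ h3 (hR s hfs)).trans hW)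
    · have h5 : Function.support f ⊆ ins ℓ := by
        intro s hs h6
        exact hW ((W_box hnx hj hℓ h3 (hR s hs)).symm.trans h6)
      rw [← h0, finsum_mem_def, Set.indicator_eq_self.2 h5]
  rw [h4]
  unfold wf
  rw [add_zero, Real.cos_pi_div_three]
  norm_num

lemma test_comp {F : ℂ → ℝ} (hF : IsTest F) :
    ContDiff ℝ ((⊤ : ℕ∞) : WithTop ℕ∞) (fun x : ℝ × ℝ => F (Complex.measurableEquivRealProd.symm x)) ∧
    HasCompactSupport (fun x : ℝ × ℝ => F (Complex.measurableEquivRealProd.symm x)) ∧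
    ∫ x : ℝ × ℝ, F (Complex.measurableEquivRealProd.symm x) = 0 := by
  refine ⟨?_, ?_, ?_⟩
  · exact hF.smooth.comp Complex.equivRealProdCLM.symm.contDiff
  · exact hF.supp.comp_homeomorph Complex.equivRealProdCLM.symm.toHomeomorph
  · rw [← hF.neutral]
    exact Complex.volume_preserving_equiv_real_prod.symm.integral_comp
      Complex.measurableEquivRealProd.symm.measurableEmbedding F

lemma charge_eq (F : ℂ → ℝ) (δ : ℝ) :
    charge F δ = H638.cm (fun x : ℝ × ℝ => F (Complex.measurableEquivRealProd.symm x)) δ := by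
  funext s
  unfold charge H638.cm
  exact (Complex.volume_preserving_equiv_real_prod.symm.setIntegral_preimage_emb
    Complex.measurableEquivRealProd.symm.measurableEmbedding F
    {z : ℂ | ⌊z.re / δ⌋ = s.1 - 1 ∧ ⌊z.im / δ⌋ = s.2 - 1}).symm

lemma energy_eq' (F : ℂ → ℝ) : energy F =
    2 * Real.pi * H638.cv (fun x : ℝ × ℝ => F (Complex.measurableEquivRealProd.symm x)) := by
  have hpi := Real.pi_pos
  unfold energy H638.cv
  rw [← integral_const_mul]
  rw [← Complex.volume_preserving_equiv_real_prod.symm.integral_comp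
      Complex.measurableEquivRealProd.symm.measurableEmbedding]
  refine integral_congr_ae (Filter.Eventually.of_forall fun x => ?_)
  simp only
  rw [← integral_const_mul]
  rw [← Complex.volume_preserving_equiv_real_prod.symm.integral_comp
      Complex.measurableEquivRealProd.symm.measurableEmbedding]
  refine integral_congr_ae (Filter.Eventually.of_forall fun y => ?_)
  simp only
  have h1 : ‖Complex.measurableEquivRealProd.symm x - Complex.measurableEquivRealProd.symm y‖ =
      Real.sqrt ((x.1 - y.1) ^ 2 + (x.2 - y.2) ^ 2) := by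
    rw [Complex.norm_eq_sqrt_sq_add_sq]
    rfl
  rw [h1]
  field_simp

/-- the scaling limit of the loop functionals -/
theorem conf_z2 (hG : H638.GffIn) (hI : S_id) {F : ℂ → ℝ} (hF : IsTest F) :
    Tendsto (fun δ : ℝ => ∫ ω, X (charge F δ) (med ω) ∂bondPerc) (𝓝[>] 0)
      (𝓝 (Real.exp (-(3 / (4 * Real.pi ^ 2)) * energy F))) := by
  obtain ⟨h1, h2, h3⟩ := test_comp hF
  have h4 := conf_of hG hI h1 h2 h3
  have e1 : -(3 / (4 * Real.pi ^ 2)) * energy F = -(3 / (2 * Real.pi)) *
      H638.cv (fun x : ℝ × ℝ => F (Complex.measurableEquivRealProd.symm x)) := by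
    rw [energy_eq']
    have := Real.pi_pos
    field_simp
    ring
  rw [e1]
  refine h4.congr fun δ => ?_
  rw [int_med, charge_eq]

end H519

end Vale.Agent.P167
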