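import Vale.Agent.P167.H519.Z2

/-!
P167: definitions for the final statements about bond percolation on the square lattice `ℤ²`.
-/

namespace Vale.Agent.P167

open MeasureTheory

/-- The edge of `ℤ²` which crosses the square `v` of the rotated lattice, in which the site `u` of
`ℤ²` is drawn at the point `H519.rot u`. -/
def edgeOf (v : ℤ × ℤ) : sqLat.edgeSet := ⟨s(H519.ea v, H519.eb v), H519.adj_ea_eb v⟩

/-- The states of the squares of the rotated lattice. The interface loops of the bond configuration
`ω` are the loops `ℓ` with `IsLoop (med ω) ℓ`. -/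
def med (ω : BondCfg) : Cfg := fun v => ω (edgeOf v)

/-- The number of the interface loops of `ω` which surround the origin and stay in the box of
radius `n`. -/
noncomputable def numLoops (n : ℕ) (ω : BondCfg) : ℕ :=
  Set.ncard {ℓ | IsLoop (med ω) ℓ ∧ W ℓ 0 ≠ 0 ∧ ∀ v ∈ vs ℓ, nm v < n}

/-- A smooth charge distribution with compact support and total charge zero in the plane. -/
structure IsTest (F : ℂ → ℝ) : Prop where
  smooth : ContDiff ℝ ((⊤ : ℕ∞) : WithTop ℕ∞) F
  supp : HasCompactSupport F
  neutral : ∫ z, F z = 0

/-- The charge of the site `s` at mesh `δ`: the integral of `F` over the square with side `δ` and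
upper right corner `δ s`. -/
noncomputable def charge (F : ℂ → ℝ) (δ : ℝ) (s : ℤ × ℤ) : ℝ :=
  ∫ z in {z : ℂ | ⌊z.re / δ⌋ = s.1 - 1 ∧ ⌊z.im / δ⌋ = s.2 - 1}, F z

/-- The logarithmic energy of a charge distribution. -/
noncomputable def energy (F : ℂ → ℝ) : ℝ := ∫ z, ∫ w, -Real.log ‖z - w‖ * F z * F w

end Vale.Agent.P167
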