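import Vale.Agent.P167.H519.GFinal
import Vale.Agent.P167.K8.RswFin
import Vale.Agent.P167.H685.GSm
import Vale.Agent.P167.H562.GLin2

/-!
P167, general `q`: unconditional form of the assembly.
-/

namespace Vale.Agent.P167.H519

open MeasureTheory Set Filter Topology
open Vale.Agent.P167.H562 (G_small)
open Vale.Agent.P167.FK (RSW)

theorem rsw_q {q : ℝ} (h1 : 1 ≤ q) (h4 : q < 4) : RSW (√q) := by
  rw [← angq_cos h4]
  exact K8.k_rsw (angq q) (angq_pos h4).le (angq_le h1)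

theorem small_q {q : ℝ} (h1 : 1 ≤ q) (h4 : q < 4) {P : Measure Cfg} (hP : IsLim (√q) P) :
    G_small (angq q) P := by
  have := hP.1
  have hQ : 1 ≤ √q := Real.one_le_sqrt.2 h1
  have hR := rsw_q h1 h4
  obtain ⟨α, C, hα, hC, k1, k2⟩ := FKA.arm_fk hQ hR
  have hX := H562.GL.crossP hP (FKA.crossFK hQ hR)
  have ha1 := angq_le h1
  exact H685.small_mainP (angq_pos h4) (by have := Real.pi_pos; linarith) hX
    (H562.GL.lin_P hQ hα hC k1 hP hX)

/-- The critical random-cluster model on `ℤ²`, `1 ≤ q < 4`. -/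
theorem rc_q {q : ℝ} (h1 : 1 ≤ q) (h4 : q < 4) :
    ∃ P : Measure Cfg, IsProbabilityMeasure P ∧ IsRC q (P.map toBond) ∧
      Tendsto (fun n : ℕ => Real.log ((P.map toBond).real (oneArm n)) / Real.log n) atTop
        (𝓝 (-armExp (kappa q))) ∧
      Tendsto (fun n : ℕ => (∫ ω, (numLoops n ω : ℝ) ∂(P.map toBond)) / Real.log n) atTop
        (𝓝 ((kappa q - 4) / (4 * Real.pi * Real.tan (Real.pi * (1 - 4 / kappa q))))) ∧
      (∀ F : ℂ → ℝ, IsTest F →
        Tendsto (fun δ : ℝ => ∫ ω, loopProd q (charge F δ) ω ∂(P.map toBond)) (𝓝[>] 0)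
          (𝓝 (Real.exp (-(kappa q / (8 * Real.pi ^ 2)) * energy F)))) :=
  rc_of h1 h4 (rsw_q h1 h4)
    (H638.gffG (angq_pos h4).le (by have := Real.pi_pos; have := angq_le h1; linarith))
    fun _ hP => small_q h1 h4 hP

end Vale.Agent.P167.H519
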