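import Vale.Agent.P167.H519.GlueAbs

/-!
P167: from geometric sequences of scales to all scales; real analysis.
-/

namespace Vale.Agent.P167.H519

open Filter Topology

lemma geo_two {v : ℕ → ℝ} {θ : ℝ} (hmon : Monotone v ∨ Antitone v)
    (h : ∀ η : ℝ, 0 < η → ∃ m s : ℕ, 2 ≤ m ∧ 1 ≤ s ∧ ∃ C : ℝ, ∀ K : ℕ,
      |v (s * m ^ K) - K * (θ * Real.log m)| ≤ K * (η * Real.log m) + C) :
    Tendsto (fun n : ℕ => v n / Real.log n) atTop (𝓝 θ) := by
  -- the main estimate
  have key : ∀ η : ℝ, 0 < η → ∃ C : ℝ, ∃ N : ℕ, ∀ n ≥ N,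
      |v n - θ * Real.log n| ≤ η * Real.log n + C := by
    intro η hη
    obtain ⟨m, s, hm, hs, C, hC⟩ := h η hη
    have hlm : 0 < Real.log m := Real.log_pos (by exact_mod_cast (by omega : 1 < m))
    have hls : 0 ≤ Real.log s := Real.log_nonneg (by exact_mod_cast hs)
    refine ⟨C + (η + |θ|) * Real.log m + |θ| * (Real.log s + Real.log m), s, fun n hn => ?_⟩
    set j := Nat.log m (n / s) with hj
    have hns : n / s ≠ 0 := by
      have := Nat.div_pos hn (by omega)
      omega
    have h2 : m ^ j ≤ n / s := Nat.pow_log_le_self m hns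
    have h3 : n / s < m ^ (j + 1) := Nat.lt_pow_succ_log_self (by omega) _
    have h4 : s * m ^ j ≤ n := by
      calc s * m ^ j ≤ s * (n / s) := Nat.mul_le_mul_left _ h2
        _ ≤ n := Nat.mul_div_le _ _
    have h5 : n ≤ s * m ^ (j + 1) := by
      rw [Nat.div_lt_iff_lt_mul (by omega)] at h3
      rw [mul_comm]; exact h3.le
    have hs0 : (0 : ℝ) < s := by exact_mod_cast hs
    have hm0 : (0 : ℝ) < m := by exact_mod_cast (by omega : 0 < m)
    have hn0 : (0 : ℝ) < n := by exact_mod_cast (by omega : 0 < n)
    have h6 : Real.log n ≤ Real.log s + (j + 1) * Real.log m := by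
      have : Real.log ((s * m ^ (j + 1) : ℕ) : ℝ) = Real.log s + (j + 1) * Real.log m := by
        push_cast
        rw [Real.log_mul hs0.ne' (by positivity), Real.log_pow]
        push_cast
        ring
      rw [← this]
      exact Real.log_le_log hn0 (by exact_mod_cast h5)
    have h7 : (j : ℝ) * Real.log m ≤ Real.log n := by
      rw [← Real.log_pow]
      refine Real.log_le_log (by positivity) ?_
      exact_mod_cast h2.trans (Nat.div_le_self _ _)
    have h8 := hC j
    have h9 := hC (j + 1)
    rw [abs_le] at h8 h9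
    push_cast at h9
    have hθ1 := le_abs_self θ
    have hθ2 := neg_abs_le θ
    have hθ0 := abs_nonneg θ
    -- the values at the two ends
    have up : v n ≤ j * (θ * Real.log m) + |θ| * Real.log m + (j + 1) * (η * Real.log m) + C := by
      have a1 : v (s * m ^ j) ≤
          j * (θ * Real.log m) + |θ| * Real.log m + (j + 1) * (η * Real.log m) + C := by
        have : 0 ≤ |θ| * Real.log m := by positivity
        have : 0 ≤ η * Real.log m := by positivity
        linarith [h8.2]
      have a2 : v (s * m ^ (j + 1)) ≤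
          j * (θ * Real.log m) + |θ| * Real.log m + (j + 1) * (η * Real.log m) + C := by
        have : θ * Real.log m ≤ |θ| * Real.log m := mul_le_mul_of_nonneg_right hθ1 hlm.le
        linarith [h9.2]
      rcases hmon with hv | hv
      · exact (hv h5).trans a2
      · exact (hv h4).trans a1
    have lo : j * (θ * Real.log m) - |θ| * Real.log m - (j + 1) * (η * Real.log m) - C ≤ v n := by
      have a1 : j * (θ * Real.log m) - |θ| * Real.log m - (j + 1) * (η * Real.log m) - C ≤
          v (s * m ^ j) := by
        have : 0 ≤ |θ| * Real.log m := by positivity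
        have : 0 ≤ η * Real.log m := by positivity
        linarith [h8.1]
      have a2 : j * (θ * Real.log m) - |θ| * Real.log m - (j + 1) * (η * Real.log m) - C ≤
          v (s * m ^ (j + 1)) := by
        have : -|θ| * Real.log m ≤ θ * Real.log m := mul_le_mul_of_nonneg_right hθ2 hlm.le
        linarith [h9.1]
      rcases hmon with hv | hv
      · exact a1.trans (hv h4)
      · exact a2.trans (hv h5)
    -- compare `j log m` and `log n`
    have b1 : |(j : ℝ) * Real.log m - Real.log n| ≤ Real.log s + Real.log m := by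
      rw [abs_le]; constructor <;> linarith
    have b2 : |θ * ((j : ℝ) * Real.log m - Real.log n)| ≤ |θ| * (Real.log s + Real.log m) := by
      rw [abs_mul]; exact mul_le_mul_of_nonneg_left b1 hθ0
    have b3 : η * ((j : ℝ) * Real.log m) ≤ η * Real.log n := mul_le_mul_of_nonneg_left h7 hη.le
    rw [abs_le] at b2 ⊢
    constructor <;> nlinarith [b2.1, b2.2]
  have hl : Tendsto (fun n : ℕ => Real.log n) atTop atTop :=
    Real.tendsto_log_atTop.comp tendsto_natCast_atTop_atTop
  rw [Metric.tendsto_atTop']
  intro ε hε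
  obtain ⟨C, N, hN⟩ := key (ε / 2) (by linarith)
  have h1 : Tendsto (fun n : ℕ => C / Real.log n) atTop (𝓝 0) := hl.const_div_atTop C
  obtain ⟨N1, hN1⟩ := eventually_atTop.1 ((h1.eventually (gt_mem_nhds (show 0 < ε / 2 by linarith))).and
    (hl.eventually_gt_atTop 0))
  refine ⟨max N N1, fun n hn => ?_⟩
  have h2 := hN n ((le_max_left _ _).trans hn.le)
  obtain ⟨h3, h4⟩ := hN1 n ((le_max_right _ _).trans hn.le)
  rw [Real.dist_eq]
  have e1 : v n / Real.log n - θ = (v n - θ * Real.log n) / Real.log n := by
    field_simp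
  rw [e1, abs_div, abs_of_pos h4, div_lt_iff₀ h4]
  rw [div_lt_iff₀ h4] at h3
  linarith

end Vale.Agent.P167.H519
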