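import Vale.Agent.P167.H519.Strad
import Vale.Agent.P167.H519.GeoTwo
import Vale.Agent.P167.H562.FHold

/-!
P167: the number of all loops around the origin in a box; decomposition along the scales.
-/

namespace Vale.Agent.P167

open Finset Filter Topology MeasureTheory ProbabilityTheory

/-- The number of the loops of `ω` which surround the origin and visit only squares at sup-norm
distance less than `n` of the origin. -/
noncomputable def nLoops (n : ℕ) (ω : Cfg) : ℕ := Nn (-1) n ω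

namespace H519

open Vale.Agent.P167.H562 (Em Em_mono Em_eq holder_up holder_lo)
open Vale.Agent.P167.H45 (S_crossL S_mom NS NS_fin LV LV_fin LV_ncard box_fin)

lemma Nn_le_split (h2 : S_two) (a c : ℝ) (b : ℤ) (ω : Cfg) :
    Nn a c ω ≤ Nn a b ω + St b ω + Nn b c ω := by
  have h : NS a c ω ⊆ NS a b ω ∪ StS b ω ∪ NS b c ω := by
    rintro ℓ ⟨h1, h3, h4⟩
    by_cases h5 : ∀ v ∈ vs ℓ, (nm v : ℝ) < b
    · exact Or.inl (Or.inl ⟨h1, fun v hv => ⟨(h3 v hv).1, h5 v hv⟩, h4⟩)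
    · by_cases h6 : ∀ v ∈ vs ℓ, (b : ℝ) < nm v
      · exact Or.inr ⟨h1, fun v hv => ⟨h6 v hv, (h3 v hv).2⟩, h4⟩
      · push Not at h5 h6
        obtain ⟨v, hv, hvb⟩ := h5
        obtain ⟨w, hw, hwb⟩ := h6
        exact Or.inl (Or.inr ⟨h1, h4, ⟨w, hw, by exact_mod_cast hwb⟩, ⟨v, hv, by exact_mod_cast hvb⟩⟩)
  have hfin : (NS a b ω ∪ StS b ω ∪ NS b c ω).Finite :=
    ((NS_fin h2 _ _ _).union (StS_fin h2 _ _)).union (NS_fin h2 _ _ _)
  calc Nn a c ω ≤ (NS a b ω ∪ StS b ω ∪ NS b c ω).ncard := Set.ncard_le_ncard h hfin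
    _ ≤ (NS a b ω ∪ StS b ω).ncard + (NS b c ω).ncard := Set.ncard_union_le _ _
    _ ≤ (NS a b ω).ncard + (StS b ω).ncard + (NS b c ω).ncard :=
        Nat.add_le_add_right (Set.ncard_union_le _ _) _

lemma Nn_add_le (h2 : S_two) {a b c : ℝ} (hab : a ≤ b) (hbc : b ≤ c) (ω : Cfg) :
    Nn a b ω + Nn b c ω ≤ Nn a c ω := by
  have hd : Disjoint (NS a b ω) (NS b c ω) := by
    rw [Set.disjoint_left]
    rintro ℓ ⟨h1, h3, -⟩ ⟨-, h4, -⟩
    obtain ⟨e, he⟩ := H45.IsLoop.nonempty h1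
    have h5 := (h3 _ (hdv_mem he)).2
    have h6 := (h4 _ (hdv_mem he)).1
    linarith
  have h : NS a b ω ∪ NS b c ω ⊆ NS a c ω := by
    rintro ℓ (⟨h1, h3, h4⟩ | ⟨h1, h3, h4⟩)
    · exact ⟨h1, fun v hv => ⟨(h3 v hv).1, (h3 v hv).2.trans_le hbc⟩, h4⟩
    · exact ⟨h1, fun v hv => ⟨hab.trans_lt (h3 v hv).1, (h3 v hv).2⟩, h4⟩
  have h3 := Set.ncard_le_ncard h (NS_fin h2 a c ω)
  rw [Set.ncard_union_eq hd (NS_fin h2 _ _ _) (NS_fin h2 _ _ _)] at h3
  exact h3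

lemma LN_up (h2 : S_two) (b : ℕ → ℕ) (K : ℕ) (ω : Cfg) :
    nLoops (b K) ω ≤ nLoops (b 0) ω + ∑ j ∈ range K, (St (b j) ω + Nn (b j) (b (j + 1)) ω) := by
  induction K with
  | zero => simp
  | succ K ih =>
    rw [sum_range_succ]
    have := Nn_le_split h2 (-1) (b (K + 1)) (b K) ω
    unfold nLoops at ih ⊢
    push_cast at this
    omega

lemma LN_lo (h2 : S_two) (b : ℕ → ℕ) (hb : Monotone b) (K : ℕ) (ω : Cfg) :
    ∑ j ∈ range K, Nn (b j) (b (j + 1)) ω ≤ nLoops (b K) ω := by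
  induction K with
  | zero => simp
  | succ K ih =>
    rw [sum_range_succ]
    have := Nn_add_le h2 (a := -1) (b := b K) (c := b (K + 1))
      (by have : (0 : ℝ) ≤ b K := by positivity
          linarith) (by exact_mod_cast hb (Nat.le_succ K)) ω
    unfold nLoops at ih ⊢
    omega

/-- in a box there is a bounded number of loops -/
lemma nLoops_bdd (h2 : S_two) (n : ℕ) : ∃ C : ℕ, ∀ ω, nLoops n ω ≤ C := by
  obtain ⟨B, hB⟩ := box_fin 0 (n : ℤ)
  refine ⟨4 * B.card, fun ω => ?_⟩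
  refine le_trans (Set.ncard_le_ncard ?_ (LV_fin h2 B ω)) (LV_ncard h2 B ω)
  rintro ℓ ⟨h1, h3, -⟩
  obtain ⟨e, he⟩ := H45.IsLoop.nonempty h1
  refine ⟨h1, hdv e, hdv_mem he, (hB _).2 ?_⟩
  rw [sub_zero]
  exact_mod_cast (h3 _ (hdv_mem he)).2.le

lemma nLoops_meas (h2 : S_two) (hl : S_loc) (n : ℕ) : Measurable (nLoops n) :=
  H45.NS_meas h2 hl (-1) n

lemma nLoops_mono (h2 : S_two) (ω : Cfg) : Monotone (fun n => nLoops n ω) := fun n n' h => by
  have := Nn_mono (a := -1) (b := n) (a' := -1) (b' := n') le_rfl (by exact_mod_cast h) ω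
  exact this

/-- independence of the scales -/
lemma Em_scales (hi : S_indep) (b : ℕ → ℕ) (hb : Monotone b) (K : ℕ) (l : ℝ) :
    Em μ (fun ω => l * ∑ j ∈ range K, (Nn (b j) (b (j + 1)) ω : ℝ)) =
      ∏ j ∈ range K, Em μ (fun ω => l * (Nn (b j) (b (j + 1)) ω : ℝ)) := by
  have h1 := hi.2 K (fun j => (b j : ℝ)) (fun j => (b (j + 1) : ℝ)) (fun i j hij => by
    exact_mod_cast hb (by have : (i : ℕ) < j := hij; omega))
  have h2 : iIndepFun (fun (j : Fin K) ω =>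
      ENNReal.ofReal (Real.exp (l * (Nn (b j) (b (j + 1)) ω : ℝ)))) μ :=
    h1.comp (fun j y => ENNReal.ofReal (Real.exp (l * (y : ℝ)))) (fun j => measurable_of_countable _)
  have h3 := lintegral_prod_eq_prod_lintegral_of_indepFun (Finset.univ : Finset (Fin K)) _ h2
    (fun j => by
      have hm := hi.1 (b j) (b (j + 1))
      exact (measurable_of_countable (fun y : ℕ => ENNReal.ofReal (Real.exp (l * (y : ℝ))))).comp hm)
  have e1 : ∏ j ∈ range K, Em μ (fun ω => l * (Nn (b j) (b (j + 1)) ω : ℝ)) =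
      ∏ j : Fin K, ∫⁻ ω, ENNReal.ofReal (Real.exp (l * (Nn (b j) (b (j + 1)) ω : ℝ))) ∂μ := by
    rw [Finset.prod_range]
    rfl
  rw [e1, ← h3]
  unfold Em
  congr 1
  ext ω
  rw [← ENNReal.ofReal_prod_of_nonneg (fun i _ => (Real.exp_pos _).le), ← Real.exp_sum,
    ← Finset.mul_sum]
  dsimp only
  rw [Finset.sum_range]

end H519

end Vale.Agent.P167
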