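import Vale.Agent.P167.H519.Strad
import Vale.Agent.P167.H519.Global
import Vale.Agent.P167.H562.GDefs

/-!
P167, general angle: the mean number of all loops around the origin in a box.
-/

namespace Vale.Agent.P167

open Finset Filter Topology MeasureTheory ProbabilityTheory
open scoped ENNReal

namespace H519

open Vale.Agent.P167.H562 (G_F3 G_large cAa)
open Vale.Agent.P167.H45 (far_point NS NS_fin LV LV_fin LV_ncard box_fin)

/-- a straddling loop is a large loop -/
lemma St_le_Kn (hcon : S_con) (h2 : S_two) (ho : S_out) {b : ℤ} (hb : 0 ≤ b) (ω : Cfg) :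
    St b ω ≤ Kn ((b : ℝ) - 2) (2 * b + 2) (1 * b) ω := by
  have hb' : (0 : ℝ) ≤ b := by exact_mod_cast hb
  refine Set.ncard_le_ncard ?_ ?_
  · intro ℓ hℓ
    obtain ⟨p, hp, hpb⟩ := exists_on hcon hℓ
    obtain ⟨q, hq, hpq⟩ := far_point ho hℓ.1 hℓ.2.1 hp
    refine ⟨hℓ.1, ⟨p, hp, ?_, ?_⟩, fun hs => ?_⟩
    · rw [hpb]; linarith
    · rw [hpb]; linarith
    · have h3 := hs q hq p hp
      rw [hpb] at hpq
      have : (b : ℝ) ≤ nm (q - p) := by exact_mod_cast hpq
      linarith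
  · obtain ⟨B, hB⟩ := box_fin 0 (2 * b + 2)
    refine (LV_fin h2 B ω).subset ?_
    rintro ℓ ⟨h1, ⟨v, hv, -, hvb⟩, -⟩
    refine ⟨h1, v, hv, (hB v).2 ?_⟩
    rw [sub_zero]
    exact_mod_cast hvb

variable {P : Measure Cfg} [IsProbabilityMeasure P]

lemma gnLoops_int (h2 : S_two) (hl : S_loc) (n : ℕ) : Integrable (fun ω => (nLoops n ω : ℝ)) P := by
  obtain ⟨C, hC⟩ := nLoops_bdd h2 n
  refine Integrable.of_bound (C := (C : ℝ)) ?_ (Eventually.of_forall fun ω => ?_)
  · exact ((measurable_of_countable (fun y : ℕ => (y : ℝ))).comp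
      (nLoops_meas h2 hl n)).aestronglyMeasurable
  · rw [Real.norm_eq_abs, abs_of_nonneg (by positivity)]
    exact_mod_cast hC ω

/-- the mean number of straddling loops is bounded -/
lemma gSt_mean (hL : G_large P) (hcon : S_con) (h2 : S_two) (ho : S_out) (hl : S_loc) :
    ∃ C : ℝ, ∃ b0 : ℤ, 0 ≤ C ∧ ∀ b : ℤ, b0 ≤ b → Integrable (fun ω => (St b ω : ℝ)) P ∧
      ∫ ω, (St b ω : ℝ) ∂P ≤ C := by
  obtain ⟨C, ρ0, h⟩ := hL 1 1 one_pos
  obtain ⟨b1, hb1⟩ := exists_nat_ge ρ0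
  refine ⟨max C 0, b1, le_max_right _ _, fun b hb => ?_⟩
  have hb0 : 0 ≤ b := (Int.natCast_nonneg b1).trans hb
  have hbr : ρ0 ≤ (b : ℝ) := hb1.trans (by exact_mod_cast hb)
  obtain ⟨h3, h4⟩ := h b hbr
  have hle : ∀ ω, (St b ω : ℝ) ≤ Real.exp (1 * (Kn ((b : ℝ) - 2) (2 * b + 2) (1 * b) ω : ℝ)) := by
    intro ω
    have h5 : (St b ω : ℝ) ≤ (Kn ((b : ℝ) - 2) (2 * b + 2) (1 * b) ω : ℝ) := by
      exact_mod_cast St_le_Kn hcon h2 ho hb0 ω
    have h6 := Real.add_one_le_exp (1 * (Kn ((b : ℝ) - 2) (2 * b + 2) (1 * b) ω : ℝ))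
    linarith
  have hm : Measurable (fun ω => (St b ω : ℝ)) :=
    (measurable_of_countable (fun y : ℕ => (y : ℝ))).comp (St_meas h2 hl b)
  have h7 : Integrable (fun ω => (St b ω : ℝ)) P := by
    refine h3.mono' hm.aestronglyMeasurable (Eventually.of_forall fun ω => ?_)
    rw [Real.norm_eq_abs, abs_of_nonneg (by positivity)]
    exact hle ω
  exact ⟨h7, (integral_mono h7 h3 hle).trans (h4.trans (le_max_left _ _))⟩

/-- **The mean number of all loops around the origin in a box, general angle.** -/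
theorem g_nest_mean {a : ℝ} (hF3 : G_F3 a P) (hL : G_large P) (hcon : S_con) (h2 : S_two)
    (ho : S_out) (hl : S_loc) :
    Tendsto (fun n : ℕ => (∫ ω, (nLoops n ω : ℝ) ∂P) / Real.log n) atTop
      (𝓝 (2 * a * cAa a / Real.tan a)) := by
  have hint := gnLoops_int (P := P) h2 hl
  have hmeas : ∀ x y : ℝ, Measurable (Nn x y) := fun x y => H45.NS_meas h2 hl x y
  have hmon : Monotone (fun n : ℕ => ∫ ω, (nLoops n ω : ℝ) ∂P) := fun n n' hnn =>
    integral_mono (hint n) (hint n') fun ω => by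
      show (nLoops n ω : ℝ) ≤ nLoops n' ω
      exact_mod_cast nLoops_mono h2 ω hnn
  set D : ℝ := 2 * a * cAa a / Real.tan a with hD
  refine geo_two (Or.inl hmon) fun η hη => ?_
  obtain ⟨C1, b1, hC1, hS⟩ := gSt_mean hL hcon h2 ho hl
  obtain ⟨ε0, hε0, hF⟩ := hF3 (η / 2) (by linarith)
  have hlog : Tendsto (fun n : ℕ => Real.log n) atTop atTop :=
    Real.tendsto_log_atTop.comp tendsto_natCast_atTop_atTop
  obtain ⟨m0, hm0⟩ := exists_nat_ge (1 / ε0)
  obtain ⟨m, hmA, hmB, hmC⟩ := ((hlog.eventually_ge_atTop (2 * C1 / η)).and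
    ((eventually_ge_atTop m0).and (eventually_ge_atTop 2))).exists
  have hmpos : (0 : ℝ) < m := by exact_mod_cast (by omega : 0 < m)
  have hlm : 0 < Real.log m := Real.log_pos (by exact_mod_cast (by omega : 1 < m))
  have hε : 1 / (m : ℝ) ≤ ε0 := by
    rw [div_le_iff₀ hmpos]
    rw [div_le_iff₀ hε0] at hm0
    have : (m0 : ℝ) * ε0 ≤ m * ε0 :=
      mul_le_mul_of_nonneg_right (by exact_mod_cast hmB) hε0.le
    nlinarith
  obtain ⟨N, hN⟩ := eventually_atTop.1 (hF (1 / m) (by positivity) hε)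
  set s : ℕ := max (max N b1.toNat) 1 with hs
  have hsN : N ≤ s := (le_max_left _ _).trans (le_max_left _ _)
  have hsb : b1 ≤ s := by
    have : b1.toNat ≤ s := (le_max_right _ _).trans (le_max_left _ _)
    omega
  have hs1 : 1 ≤ s := le_max_right _ _
  obtain ⟨C0, hC0⟩ := nLoops_bdd h2 s
  refine ⟨m, s, hmC, hs1, C0, fun K => ?_⟩
  set b : ℕ → ℕ := fun j => s * m ^ j with hb
  have hb0 : b 0 = s := by simp [hb]
  have hbs : ∀ j, s ≤ b j := fun j => Nat.le_mul_of_pos_right _ (Nat.pow_pos (by omega))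
  have hbm : ∀ j, b (j + 1) = m * b j := fun j => by simp only [hb]; ring
  have hbmono : Monotone b := monotone_nat_of_le_succ fun j => by
    rw [hbm]; exact Nat.le_mul_of_pos_left _ (by omega)
  -- integrability of the counts in the annuli
  have hNint : ∀ j, Integrable (fun ω => (Nn (b j) (b (j + 1)) ω : ℝ)) P := by
    intro j
    refine (hint (b (j + 1))).mono' ((measurable_of_countable (fun y : ℕ => (y : ℝ))).comp
      (hmeas (b j) (b (j + 1)))).aestronglyMeasurable (Eventually.of_forall fun ω => ?_)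
    rw [Real.norm_eq_abs, abs_of_nonneg (by positivity)]
    have : Nn (b j) (b (j + 1)) ω ≤ nLoops (b (j + 1)) ω :=
      Nn_mono (by have : (0 : ℝ) ≤ b j := by positivity
                  linarith) le_rfl ω
    exact_mod_cast this
  have hNval : ∀ j, |(∫ ω, (Nn (b j) (b (j + 1)) ω : ℝ) ∂P) - D * Real.log m| ≤
      η / 2 * Real.log m := by
    intro j
    have hn1 : N ≤ m * b j := (hsN.trans (hbs j)).trans (Nat.le_mul_of_pos_left _ (by omega))
    have h3 := hN (m * b j) hn1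
    have e1 : 1 / (m : ℝ) * ((m * b j : ℕ) : ℝ) = b j := by
      push_cast
      field_simp
    rw [e1, one_div_one_div, ← hbm, ← hD] at h3
    have e2 : (∫ ω, (Nn (b j) (b (j + 1)) ω : ℝ) ∂P) / Real.log m - D =
        ((∫ ω, (Nn (b j) (b (j + 1)) ω : ℝ) ∂P) - D * Real.log m) / Real.log m := by
      field_simp
    rw [e2, abs_div, abs_of_pos hlm, div_le_iff₀ hlm] at h3
    exact h3
  have hup : ∫ ω, (nLoops (b K) ω : ℝ) ∂P ≤ C0 + ∑ j ∈ range K, (C1 +
      ∫ ω, (Nn (b j) (b (j + 1)) ω : ℝ) ∂P) := by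
    have h3 : ∀ ω, (nLoops (b K) ω : ℝ) ≤
        C0 + ∑ j ∈ range K, ((St (b j) ω : ℝ) + (Nn (b j) (b (j + 1)) ω : ℝ)) := by
      intro ω
      have h4 := LN_up h2 b K ω
      have h5 := hC0 ω
      rw [hb0] at h4
      have h6 : nLoops (b K) ω ≤ C0 + ∑ j ∈ range K, (St (b j) ω + Nn (b j) (b (j + 1)) ω) := by
        omega
      exact_mod_cast h6
    have h7 : ∀ j, Integrable (fun ω => (St (b j) ω : ℝ) + (Nn (b j) (b (j + 1)) ω : ℝ)) P :=
      fun j => ((hS (b j) (hsb.trans (by exact_mod_cast hbs j))).1).add (hNint j)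
    have h4 : Integrable (fun ω => ∑ j ∈ range K, ((St (b j) ω : ℝ) +
        (Nn (b j) (b (j + 1)) ω : ℝ))) P :=
      integrable_finset_sum _ fun j _ => h7 j
    refine (integral_mono (hint _) ((integrable_const _).add h4) h3).trans ?_
    show ∫ ω, ((C0 : ℝ) + ∑ j ∈ range K, ((St (b j) ω : ℝ) + (Nn (b j) (b (j + 1)) ω : ℝ))) ∂P ≤ _
    rw [integral_add (integrable_const _) h4, integral_const, probReal_univ, one_smul,
      integral_finset_sum _ fun j _ => h7 j]
    refine add_le_add_right (Finset.sum_le_sum fun j _ => ?_) _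
    rw [integral_add (hS (b j) (hsb.trans (by exact_mod_cast hbs j))).1 (hNint j)]
    exact add_le_add_left (hS (b j) (hsb.trans (by exact_mod_cast hbs j))).2 _
  have hlo : ∑ j ∈ range K, ∫ ω, (Nn (b j) (b (j + 1)) ω : ℝ) ∂P ≤
      ∫ ω, (nLoops (b K) ω : ℝ) ∂P := by
    rw [← integral_finset_sum _ fun j _ => hNint j]
    refine integral_mono (integrable_finset_sum _ fun j _ => hNint j) (hint _) fun ω => ?_
    have h5 := LN_lo h2 b hbmono K ω
    show ∑ j ∈ range K, (Nn (b j) (b (j + 1)) ω : ℝ) ≤ (nLoops (b K) ω : ℝ)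
    exact_mod_cast h5
  have hsum : |∑ j ∈ range K, (∫ ω, (Nn (b j) (b (j + 1)) ω : ℝ) ∂P) - K * (D * Real.log m)| ≤
      K * (η / 2 * Real.log m) := by
    have e3 : ∑ j ∈ range K, (∫ ω, (Nn (b j) (b (j + 1)) ω : ℝ) ∂P) - K * (D * Real.log m) =
        ∑ j ∈ range K, ((∫ ω, (Nn (b j) (b (j + 1)) ω : ℝ) ∂P) - D * Real.log m) := by
      rw [sum_sub_distrib, sum_const, card_range, nsmul_eq_mul]
    rw [e3]
    refine (Finset.abs_sum_le_sum_abs _ _).trans ?_
    calc _ ≤ ∑ _j ∈ range K, (η / 2 * Real.log m) := Finset.sum_le_sum fun j _ => hNval j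
      _ = _ := by rw [sum_const, card_range, nsmul_eq_mul]
  rw [sum_add_distrib, sum_const, card_range, nsmul_eq_mul] at hup
  have hK0 : (0 : ℝ) ≤ K := by positivity
  have g1 : (K : ℝ) * C1 ≤ K * (η / 2 * Real.log m) := by
    refine mul_le_mul_of_nonneg_left ?_ hK0
    rw [div_le_iff₀ hη] at hmA
    linarith
  have g2 : K * (η / 2 * Real.log m) + K * (η / 2 * Real.log m) = K * (η * Real.log m) := by ring
  have g3 : (0 : ℝ) ≤ C0 := by positivity
  have g4 : 0 ≤ K * (η / 2 * Real.log m) := by positivity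
  rw [abs_le] at hsum
  show |∫ ω, (nLoops (b K) ω : ℝ) ∂P - K * (D * Real.log m)| ≤ K * (η * Real.log m) + C0
  rw [abs_le]
  constructor <;> linarith [hsum.1, hsum.2]

end H519

end Vale.Agent.P167
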