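import Mathlib.Analysis.SpecialFunctions.Pow.Real
import Mathlib.Analysis.SpecialFunctions.Log.Basic
import Mathlib.Data.Nat.Log
import Mathlib.Tactic

/-!
P167, block G: from the annulus exponent to the one-arm exponent; real analysis.
-/

namespace Vale.Agent.P167.H519

open Filter Topology

/-- bounded perturbations of a multiple of `log n` -/
lemma ev_of_le_aff {u : ℕ → ℝ} {B C : ℝ} {N : ℕ} (h : ∀ n ≥ N, u n ≤ C - B * Real.log n) {e : ℝ}
    (he : 0 < e) : ∀ᶠ n : ℕ in atTop, u n / Real.log n ≤ -B + e := by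
  have hl : Tendsto (fun n : ℕ => Real.log n) atTop atTop :=
    Real.tendsto_log_atTop.comp tendsto_natCast_atTop_atTop
  have h1 : Tendsto (fun n : ℕ => C / Real.log n) atTop (𝓝 0) := hl.const_div_atTop C
  filter_upwards [h1.eventually (gt_mem_nhds he), hl.eventually_gt_atTop 0, eventually_ge_atTop N]
    with n h2 h3 h4
  have h5 := h n h4
  rw [div_le_iff₀ h3]
  have h6 : C < e * Real.log n := by rwa [div_lt_iff₀ h3] at h2
  nlinarith

lemma ev_of_ge_aff {u : ℕ → ℝ} {B C : ℝ} {N : ℕ} (h : ∀ n ≥ N, C - B * Real.log n ≤ u n) {e : ℝ}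
    (he : 0 < e) : ∀ᶠ n : ℕ in atTop, -B - e ≤ u n / Real.log n := by
  have := ev_of_le_aff (u := fun n => -u n) (B := -B) (C := -C) (N := N)
    (fun n hn => by have := h n hn; linarith) he
  filter_upwards [this] with n hn
  rw [neg_div] at hn
  linarith

/-- upper bound along a geometric sequence -/
lemma geo_upper {u : ℕ → ℝ} (hu : Antitone u) {m s : ℕ} (hm : 2 ≤ m) (hs : 1 ≤ s) {B : ℝ}
    (hB : 0 ≤ B) (h : ∀ j : ℕ, u (s * m ^ (j + 1)) ≤ u (s * m ^ j) - B) {e : ℝ} (he : 0 < e) :
    ∀ᶠ n : ℕ in atTop, u n / Real.log n ≤ -(B / Real.log m) + e := by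
  have hlm : 0 < Real.log m := Real.log_pos (by exact_mod_cast hm)
  have h1 : ∀ j : ℕ, u (s * m ^ j) ≤ u s - j * B := by
    intro j
    induction j with
    | zero => simp
    | succ j ih =>
      have := h j
      push_cast
      linarith
  refine ev_of_le_aff (C := u s + B * (Real.log s / Real.log m + 1)) (N := s) (fun n hn => ?_) he
  set j := Nat.log m (n / s) with hj
  have hns : n / s ≠ 0 := by
    have := Nat.div_pos hn (by omega)
    omega
  have h2 : m ^ j ≤ n / s := Nat.pow_log_le_self m hns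
  have h3 : n / s < m ^ (j + 1) := Nat.lt_pow_succ_log_self (by omega) _
  have h4 : s * m ^ j ≤ n := by
    calc s * m ^ j ≤ s * (n / s) := Nat.mul_le_mul_left _ h2
      _ ≤ n := Nat.mul_div_le _ _
  have h5 : n < s * m ^ (j + 1) := by
    rw [Nat.div_lt_iff_lt_mul (by omega)] at h3
    rw [mul_comm]; exact h3
  have h6 : Real.log n ≤ Real.log s + (j + 1) * Real.log m := by
    have hs0 : (0 : ℝ) < s := by exact_mod_cast hs
    have hm0 : (0 : ℝ) < m := by exact_mod_cast (by omega : 0 < m)
    have hn0 : (0 : ℝ) < n := by exact_mod_cast (by omega : 0 < n)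
    have : Real.log ((s * m ^ (j + 1) : ℕ) : ℝ) = Real.log s + (j + 1) * Real.log m := by
      push_cast
      rw [Real.log_mul hs0.ne' (by positivity), Real.log_pow]
      push_cast
      ring
    rw [← this]
    exact Real.log_le_log hn0 (by exact_mod_cast h5.le)
  have h7 : u n ≤ u s - j * B := (hu h4).trans (h1 j)
  have h8 : (Real.log n - Real.log s) / Real.log m - 1 ≤ j := by
    rw [sub_le_iff_le_add, div_le_iff₀ hlm]
    linarith
  have h9 := mul_le_mul_of_nonneg_right h8 hB
  have e1 : u s + B * (Real.log s / Real.log m + 1) - B / Real.log m * Real.log n =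
      u s - ((Real.log n - Real.log s) / Real.log m - 1) * B := by
    field_simp
    ring
  rw [e1]
  linarith

/-- lower bound along a geometric sequence -/
lemma geo_lower {u : ℕ → ℝ} (hu : Antitone u) {m s : ℕ} (hm : 2 ≤ m) (hs : 1 ≤ s) {B : ℝ}
    (hB : 0 ≤ B) (h : ∀ j : ℕ, u (s * m ^ j) - B ≤ u (s * m ^ (j + 1))) {e : ℝ} (he : 0 < e) :
    ∀ᶠ n : ℕ in atTop, -(B / Real.log m) - e ≤ u n / Real.log n := by
  have hlm : 0 < Real.log m := Real.log_pos (by exact_mod_cast hm)
  have h1 : ∀ j : ℕ, u s - j * B ≤ u (s * m ^ j) := by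
    intro j
    induction j with
    | zero => simp
    | succ j ih =>
      have := h j
      push_cast
      linarith
  refine ev_of_ge_aff (C := u s - B) (N := s) (fun n hn => ?_) he
  set j := Nat.log m (n / s) with hj
  have hns : n / s ≠ 0 := by
    have := Nat.div_pos hn (by omega)
    omega
  have h2 : m ^ j ≤ n / s := Nat.pow_log_le_self m hns
  have h3 : n / s < m ^ (j + 1) := Nat.lt_pow_succ_log_self (by omega) _
  have h5 : n ≤ s * m ^ (j + 1) := by
    rw [Nat.div_lt_iff_lt_mul (by omega)] at h3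
    rw [mul_comm]; exact h3.le
  have h6 : j * Real.log m ≤ Real.log n := by
    have hm0 : (0 : ℝ) < m := by exact_mod_cast (by omega : 0 < m)
    rw [← Real.log_pow]
    refine Real.log_le_log (by positivity) ?_
    exact_mod_cast h2.trans (Nat.div_le_self _ _)
  have h7 : u s - ((j + 1 : ℕ) : ℝ) * B ≤ u n := (h1 (j + 1)).trans (hu h5)
  have h8 : (j : ℝ) ≤ Real.log n / Real.log m := by
    rw [le_div_iff₀ hlm]
    exact h6
  have h9 := mul_le_mul_of_nonneg_right h8 hB
  have e1 : B / Real.log m * Real.log n = Real.log n / Real.log m * B := by ring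
  rw [e1]
  push_cast at h7
  linarith

/-- `log (m + d) / log m → 1` in the form used below -/
lemma log_ratio (A D : ℝ) {e : ℝ} (he : 0 < e) :
    ∀ᶠ m : ℕ in atTop, (A * Real.log m + D) / Real.log m ≤ A + e ∧
      A - e ≤ (A * Real.log m + D) / Real.log m := by
  have hl : Tendsto (fun n : ℕ => Real.log n) atTop atTop :=
    Real.tendsto_log_atTop.comp tendsto_natCast_atTop_atTop
  have h1 : Tendsto (fun n : ℕ => D / Real.log n) atTop (𝓝 0) := hl.const_div_atTop D
  filter_upwards [h1.eventually (gt_mem_nhds he), h1.eventually (lt_mem_nhds (neg_lt_zero.2 he)),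
    hl.eventually_gt_atTop 0] with n h2 h3 h4
  have : (A * Real.log n + D) / Real.log n = A + D / Real.log n := by
    field_simp
  rw [this]
  constructor <;> linarith

/-- **One-arm exponent from the annulus exponent.** -/
theorem glue_abs (a : ℕ → ℕ → ℝ) {x c : ℝ} (hx : 0 < x) (hc : 0 < c) (hc1 : c ≤ 1) (r0 : ℕ)
    (hpos : ∀ n, 0 < a 0 n)
    (hmonoR : ∀ r R R', r ≤ R → R ≤ R' → a r R' ≤ a r R)
    (hmonor : ∀ r r' R, r ≤ r' → r' ≤ R → a r R ≤ a r' R)
    (hup : ∀ t R, t < R → a 0 R ≤ a 0 t * a (t + 1) R)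
    (hlow : ∀ t R, r0 ≤ t → 8 * t ≤ R → c * a 0 (2 * t) * a t R ≤ a 0 R)
    (H : ∀ η : ℝ, 0 < η → ∃ m0 : ℕ, ∀ m ≥ m0, ∃ n0 : ℕ, ∀ n ≥ n0,
      (m : ℝ) ^ (-x - η) ≤ a n (m * n) ∧ a n (m * n) ≤ (m : ℝ) ^ (-x + η)) :
    Tendsto (fun n : ℕ => Real.log (a 0 n) / Real.log n) atTop (𝓝 (-x)) := by
  have hanti : Antitone (fun n => Real.log (a 0 n)) := fun n n' h =>
    Real.log_le_log (hpos n') (hmonoR 0 n n' (Nat.zero_le _) h)
  rw [tendsto_order]
  constructor
  · intro y hy
    -- lower bound
    set e := (-x - y) / 4 with he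
    have he0 : 0 < e := by rw [he]; linarith
    obtain ⟨m0, hm0⟩ := H e he0
    obtain ⟨m, hm1, hm2, hm3⟩ := ((log_ratio (x + e) ((x + e) * Real.log 2 - Real.log c) he0).and
      ((eventually_ge_atTop m0).and (eventually_ge_atTop 4))).exists
    obtain ⟨n0, hn0⟩ := hm0 (2 * m) (by omega)
    set s := max (max n0 r0) 1 with hs
    have hs1 : 1 ≤ s := le_max_right _ _
    have hlm : 0 < Real.log m := Real.log_pos (by exact_mod_cast (by omega : 1 < m))
    have hmpos : (0 : ℝ) < m := by exact_mod_cast (by omega : 0 < m)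
    have key := geo_lower hanti (m := m) (s := 2 * s) (by omega) (by omega)
      (B := (x + e) * Real.log m + ((x + e) * Real.log 2 - Real.log c)) (by
        have : Real.log c ≤ 0 := Real.log_nonpos hc.le hc1
        have : 0 < Real.log 2 := Real.log_pos (by norm_num)
        have : 0 ≤ (x + e) * Real.log 2 := by positivity
        have : 0 ≤ (x + e) * Real.log m := by positivity
        linarith) (fun j => by
        have hj1 : 1 ≤ m ^ j := Nat.one_le_pow _ _ (by omega)
        have hs2 : s ≤ s * m ^ j := Nat.le_mul_of_pos_right _ hj1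
        have h1 := hlow (s * m ^ j) (2 * s * m ^ (j + 1))
          (((le_max_right _ _).trans (le_max_left _ _)).trans hs2) (by
            calc 8 * (s * m ^ j) = (2 * s * m ^ j) * 4 := by ring
              _ ≤ (2 * s * m ^ j) * m := Nat.mul_le_mul_left _ (by omega)
              _ = 2 * s * m ^ (j + 1) := by ring)
        have h2 := (hn0 (s * m ^ j)
          (((le_max_left _ _).trans (le_max_left _ _)).trans hs2)).1
        have e1 : 2 * m * (s * m ^ j) = 2 * s * m ^ (j + 1) := by ring
        have e2 : 2 * (s * m ^ j) = 2 * s * m ^ j := by ring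
        rw [e1] at h2
        rw [e2] at h1
        have h3 : c * a 0 (2 * s * m ^ j) * ((2 * m : ℕ) : ℝ) ^ (-x - e) ≤
            a 0 (2 * s * m ^ (j + 1)) :=
          (mul_le_mul_of_nonneg_left h2 (mul_nonneg hc.le (hpos _).le)).trans h1
        have h4 := Real.log_le_log (by
          have := hpos (2 * s * m ^ j)
          have : (0 : ℝ) < ((2 * m : ℕ) : ℝ) := by exact_mod_cast (by omega : 0 < 2 * m)
          positivity) h3
        have h2m : (0 : ℝ) < ((2 * m : ℕ) : ℝ) := by exact_mod_cast (by omega : 0 < 2 * m)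
        rw [Real.log_mul (mul_ne_zero hc.ne' (hpos _).ne') (Real.rpow_pos_of_pos h2m _).ne',
          Real.log_mul hc.ne' (hpos _).ne', Real.log_rpow h2m] at h4
        push_cast at h4
        rw [Real.log_mul (by norm_num) hmpos.ne'] at h4
        show Real.log (a 0 (2 * s * m ^ j)) - _ ≤ Real.log (a 0 (2 * s * m ^ (j + 1)))
        linarith) he0
    filter_upwards [key] with n hn
    have h5 := hm1.1
    have : y < -(x + e + e) - e := by
      rw [he]; linarith
    linarith
  · intro y hy
    set e := min ((y + x) / 4) (x / 2) with he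
    have he0 : 0 < e := by rw [he]; exact lt_min (by linarith) (by linarith)
    have he1 : e ≤ (y + x) / 4 := min_le_left _ _
    have he2 : e ≤ x / 2 := min_le_right _ _
    obtain ⟨m0, hm0⟩ := H e he0
    obtain ⟨M, hm1, hm2, hm3⟩ := (((log_ratio (x - e) (-((x - e) * Real.log 2)) he0).and
      ((eventually_ge_atTop m0).and (eventually_ge_atTop 2))).exists)
    -- we use the ratio `2 * M`
    obtain ⟨m, hm1', hm2', hm3'⟩ := (((tendsto_id.const_mul_atTop' (show 0 < 2 by norm_num) :
      Tendsto (fun n : ℕ => 2 * n) atTop atTop).eventually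
        (log_ratio (x - e) (-((x - e) * Real.log 2)) he0)).and
      ((eventually_ge_atTop m0).and (eventually_ge_atTop 2))).exists
    obtain ⟨n0, hn0⟩ := hm0 m hm2'
    set s := max n0 1 with hs
    have hs1 : 1 ≤ s := le_max_right _ _
    have hmpos : (0 : ℝ) < m := by exact_mod_cast (by omega : 0 < m)
    have hlm : 0 ≤ Real.log m := Real.log_nonneg (by exact_mod_cast (by omega : 1 ≤ m))
    have key := geo_upper hanti (m := 2 * m) (s := s) (by omega) hs1
      (B := (x - e) * Real.log m) (mul_nonneg (by linarith) hlm) (fun j => by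
        have hj1 : 1 ≤ (2 * m) ^ j := Nat.one_le_pow _ _ (by omega)
        have hs2 : s ≤ s * (2 * m) ^ j := Nat.le_mul_of_pos_right _ hj1
        have hlt : s * (2 * m) ^ j < s * (2 * m) ^ (j + 1) := by
          have : (2 * m) ^ j < (2 * m) ^ (j + 1) := Nat.pow_lt_pow_right (by omega) (by omega)
          exact Nat.mul_lt_mul_of_pos_left this (by omega)
        have h1 := hup (s * (2 * m) ^ j) (s * (2 * m) ^ (j + 1)) hlt
        have e1 : m * (2 * (s * (2 * m) ^ j)) = s * (2 * m) ^ (j + 1) := by ring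
        have h2 := hmonor (s * (2 * m) ^ j + 1) (2 * (s * (2 * m) ^ j)) (s * (2 * m) ^ (j + 1))
          (by omega) (by rw [← e1]; exact Nat.le_mul_of_pos_left _ (by omega))
        have h3 := (hn0 (2 * (s * (2 * m) ^ j)) (by
          have : n0 ≤ s := le_max_left _ _
          omega)).2
        rw [e1] at h3
        have h4 : a 0 (s * (2 * m) ^ (j + 1)) ≤ a 0 (s * (2 * m) ^ j) * (m : ℝ) ^ (-x + e) :=
          h1.trans (mul_le_mul_of_nonneg_left (h2.trans h3) (hpos _).le)
        have h5 := Real.log_le_log (hpos _) h4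
        rw [Real.log_mul (hpos _).ne' (Real.rpow_pos_of_pos hmpos _).ne',
          Real.log_rpow hmpos] at h5
        show Real.log (a 0 (s * (2 * m) ^ (j + 1))) ≤ Real.log (a 0 (s * (2 * m) ^ j)) - _
        linarith) he0
    filter_upwards [key] with n hn
    have h6 : (x - e) - e ≤ (x - e) * Real.log m / Real.log ((2 * m : ℕ) : ℝ) := by
      have h7 := hm1'.2
      have e3 : (x - e) * Real.log ((2 * m : ℕ) : ℝ) + -((x - e) * Real.log 2) =
          (x - e) * Real.log m := by
        push_cast
        rw [Real.log_mul (by norm_num) hmpos.ne']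
        ring
      rw [e3] at h7
      exact h7
    have : -(x - e - e) + e < y := by linarith
    linarith

end Vale.Agent.P167.H519
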