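import Vale.Agent.P167.H519.GP
import Vale.Agent.P167.H519.GlueAbs
import Vale.Agent.P167.H562.GDefs

/-!
# P167, general `q`, block GQ7: the one-arm exponent of the infinite-volume measure
-/

namespace Vale.Agent.P167.H519

open Finset Filter Topology MeasureTheory Vale.Agent.P167.FK Vale.Agent.P167.FKA Relation
open Vale.Agent.P167.H562 (G_F1 cAa)

/-- **One-arm exponent from the annulus exponent**, with constants. -/
theorem glue_abs2 (a : ℕ → ℕ → ℝ) {x c C : ℝ} {K : ℕ} (hK : 2 ≤ K) (hx : 0 < x) (hc : 0 < c)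
    (hc1 : c ≤ 1) (hC : 1 ≤ C) (hpos : ∀ n, 0 < a 0 n)
    (hmonoR : ∀ r R R', r ≤ R → R ≤ R' → a r R' ≤ a r R)
    (hup : ∀ t R, 1 ≤ t → K * t ≤ R → a 0 R ≤ C * a 0 t * a (K * t) R)
    (hlow : ∀ t R, 1 ≤ t → K * t ≤ R → c * a 0 (K * t) * a t R ≤ a 0 R)
    (H : ∀ η : ℝ, 0 < η → ∃ m0 : ℕ, ∀ m ≥ m0, ∃ n0 : ℕ, ∀ n ≥ n0,
      (m : ℝ) ^ (-x - η) ≤ a n (m * n) ∧ a n (m * n) ≤ (m : ℝ) ^ (-x + η)) :
    Tendsto (fun n : ℕ => Real.log (a 0 n) / Real.log n) atTop (𝓝 (-x)) := by
  have hanti : Antitone (fun n => Real.log (a 0 n)) := fun n n' h =>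
    Real.log_le_log (hpos n') (hmonoR 0 n n' (Nat.zero_le _) h)
  have hK0 : (0 : ℝ) < K := by exact_mod_cast (by omega : 0 < K)
  have hlK : 0 ≤ Real.log K := Real.log_nonneg (by exact_mod_cast (by omega : 1 ≤ K))
  have hlC : 0 ≤ Real.log C := Real.log_nonneg hC
  have hC0 : 0 < C := by linarith
  have hlc : Real.log c ≤ 0 := Real.log_nonpos hc.le hc1
  have hl : Tendsto (fun n : ℕ => Real.log n) atTop atTop :=
    Real.tendsto_log_atTop.comp tendsto_natCast_atTop_atTop
  rw [tendsto_order]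
  constructor
  · intro y hy
    set e := (-x - y) / 4 with he
    have he0 : 0 < e := by rw [he]; linarith
    obtain ⟨m0, hm0⟩ := H e he0
    obtain ⟨m, hm1, hm2, hm3⟩ := ((log_ratio (x + e) ((x + e) * Real.log K - Real.log c) he0).and
      ((eventually_ge_atTop m0).and (eventually_ge_atTop 2))).exists
    obtain ⟨n0, hn0⟩ := hm0 (K * m) (hm2.trans (Nat.le_mul_of_pos_left _ (by omega)))
    set s := max n0 1 with hs
    have hs1 : 1 ≤ s := le_max_right _ _
    have hlm : 0 < Real.log m := Real.log_pos (by exact_mod_cast (by omega : 1 < m))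
    have hmpos : (0 : ℝ) < m := by exact_mod_cast (by omega : 0 < m)
    have key := geo_lower hanti (m := m) (s := K * s) (by omega)
      (Nat.mul_pos (by omega) (by omega))
      (B := (x + e) * Real.log m + ((x + e) * Real.log K - Real.log c)) (by
        have : 0 ≤ (x + e) * Real.log K := by positivity
        have : 0 ≤ (x + e) * Real.log m := by positivity
        linarith) (fun j => by
        have hj1 : 1 ≤ m ^ j := Nat.one_le_pow _ _ (by omega)
        have hs2 : s ≤ s * m ^ j := Nat.le_mul_of_pos_right _ hj1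
        have h1 := hlow (s * m ^ j) (K * s * m ^ (j + 1)) (by omega) (by
            calc K * (s * m ^ j) = (K * s * m ^ j) * 1 := by ring
              _ ≤ (K * s * m ^ j) * m := Nat.mul_le_mul_left _ (by omega)
              _ = K * s * m ^ (j + 1) := by ring)
        have h2 := (hn0 (s * m ^ j) ((le_max_left _ _).trans hs2)).1
        have e1 : K * m * (s * m ^ j) = K * s * m ^ (j + 1) := by ring
        have e2 : K * (s * m ^ j) = K * s * m ^ j := by ring
        rw [e1] at h2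
        rw [e2] at h1
        have h3 : c * a 0 (K * s * m ^ j) * ((K * m : ℕ) : ℝ) ^ (-x - e) ≤
            a 0 (K * s * m ^ (j + 1)) :=
          (mul_le_mul_of_nonneg_left h2 (mul_nonneg hc.le (hpos _).le)).trans h1
        have h2m : (0 : ℝ) < ((K * m : ℕ) : ℝ) := by
          exact_mod_cast Nat.mul_pos (by omega) (by omega)
        have h4 := Real.log_le_log (by
          have := hpos (K * s * m ^ j)
          positivity) h3
        rw [Real.log_mul (mul_ne_zero hc.ne' (hpos _).ne') (Real.rpow_pos_of_pos h2m _).ne',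
          Real.log_mul hc.ne' (hpos _).ne', Real.log_rpow h2m] at h4
        push_cast at h4
        rw [Real.log_mul hK0.ne' hmpos.ne'] at h4
        show Real.log (a 0 (K * s * m ^ j)) - _ ≤ Real.log (a 0 (K * s * m ^ (j + 1)))
        linarith) he0
    filter_upwards [key] with n hn
    have h5 := hm1.1
    have : y < -(x + e + e) - e := by
      rw [he]; linarith
    linarith
  · intro y hy
    set e := min ((y + x) / 4) (x / 2) with he
    have he0 : 0 < e := by rw [he]; exact lt_min (by linarith) (by linarith)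
    have he1 : e ≤ (y + x) / 4 := min_le_left _ _
    have he2 : e ≤ x / 2 := min_le_right _ _
    obtain ⟨m0, hm0⟩ := H e he0
    have hxe : 0 < x - e := by linarith
    obtain ⟨m, hm1', hm2', hm3', hm4'⟩ := (((tendsto_id.const_mul_atTop' (show 0 < K by omega) :
      Tendsto (fun n : ℕ => K * n) atTop atTop).eventually
        (log_ratio (x - e) (-((x - e) * Real.log K + Real.log C)) he0)).and
      ((eventually_ge_atTop m0).and ((eventually_ge_atTop 2).and
        ((hl.const_mul_atTop hxe).eventually_ge_atTop (Real.log C))))).exists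
    obtain ⟨n0, hn0⟩ := hm0 m hm2'
    set s := max n0 1 with hs
    have hs1 : 1 ≤ s := le_max_right _ _
    have hmpos : (0 : ℝ) < m := by exact_mod_cast (by omega : 0 < m)
    have hlm : 0 ≤ Real.log m := Real.log_nonneg (by exact_mod_cast (by omega : 1 ≤ m))
    have hKm : 2 ≤ K * m := by nlinarith
    have key := geo_upper hanti (m := K * m) (s := s) hKm hs1
      (B := (x - e) * Real.log m - Real.log C) (by linarith) (fun j => by
        have hj1 : 1 ≤ (K * m) ^ j := Nat.one_le_pow _ _ (by omega)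
        have hs2 : s ≤ s * (K * m) ^ j := Nat.le_mul_of_pos_right _ hj1
        have e1 : m * (K * (s * (K * m) ^ j)) = s * (K * m) ^ (j + 1) := by ring
        have h1 := hup (s * (K * m) ^ j) (s * (K * m) ^ (j + 1)) (by omega)
          (by rw [← e1]; exact Nat.le_mul_of_pos_left _ (by omega))
        have h3 := (hn0 (K * (s * (K * m) ^ j)) (by
          have : n0 ≤ s := le_max_left _ _
          exact this.trans (hs2.trans (Nat.le_mul_of_pos_left _ (by omega))))).2
        rw [e1] at h3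
        have h4 : a 0 (s * (K * m) ^ (j + 1)) ≤ C * a 0 (s * (K * m) ^ j) * (m : ℝ) ^ (-x + e) :=
          h1.trans (mul_le_mul_of_nonneg_left h3 (mul_nonneg hC0.le (hpos _).le))
        have h5 := Real.log_le_log (hpos _) h4
        rw [Real.log_mul (mul_ne_zero hC0.ne' (hpos _).ne') (Real.rpow_pos_of_pos hmpos _).ne',
          Real.log_mul hC0.ne' (hpos _).ne', Real.log_rpow hmpos] at h5
        show Real.log (a 0 (s * (K * m) ^ (j + 1))) ≤ Real.log (a 0 (s * (K * m) ^ j)) - _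
        linarith) he0
    filter_upwards [key] with n hn
    have h6 : (x - e) - e ≤ ((x - e) * Real.log m - Real.log C) /
        Real.log ((K * m : ℕ) : ℝ) := by
      have h7 := hm1'.2
      have e3 : (x - e) * Real.log ((K * m : ℕ) : ℝ) + -((x - e) * Real.log K + Real.log C) =
          (x - e) * Real.log m - Real.log C := by
        push_cast
        rw [Real.log_mul hK0.ne' hmpos.ne']
        ring
      rw [e3] at h7
      exact h7
    have : -(x - e - e) + e < y := by linarith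
    linarith

variable {Q : ℝ} {P : Measure Cfg}

/-- F1 in the form of two power bounds, with natural numbers -/
lemma F1_powP {x : ℝ} (hx : 0 < x) (hF : ∀ η > 0, ∃ ε0 > 0, ∀ ε : ℝ, 0 < ε → ε ≤ ε0 →
      ∀ᶠ n : ℕ in atTop, |Real.log (P.real {ω | Nn (ε * n) n ω = 0}) / Real.log (1 / ε) + x| ≤ η)
    {η : ℝ} (h0 : 0 < η) (h1 : η < x) : ∃ m0 : ℕ, 2 ≤ m0 ∧ ∀ m ≥ m0,
    ∃ n0 : ℕ, ∀ n ≥ n0,
      (m : ℝ) ^ (-x - η) ≤ P.real {ω | Nn (n : ℝ) ((m * n : ℕ) : ℝ) ω = 0} ∧
      P.real {ω | Nn (n : ℝ) ((m * n : ℕ) : ℝ) ω = 0} ≤ (m : ℝ) ^ (-x + η) := by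
  obtain ⟨ε0, hε0, hF⟩ := hF η h0
  obtain ⟨m0, hm0⟩ := exists_nat_ge (1 / ε0)
  refine ⟨max m0 2, le_max_right _ _, fun m hm => ?_⟩
  have hm2 : 2 ≤ m := (le_max_right _ _).trans hm
  have hm0' : m0 ≤ m := (le_max_left _ _).trans hm
  have hmpos : (0 : ℝ) < m := by exact_mod_cast (by omega : 0 < m)
  have hlm : 0 < Real.log m := Real.log_pos (by exact_mod_cast (by omega : 1 < m))
  have hε : 1 / (m : ℝ) ≤ ε0 := by
    rw [div_le_iff₀ hmpos]
    rw [div_le_iff₀ hε0] at hm0
    have : (m0 : ℝ) * ε0 ≤ m * ε0 :=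
      mul_le_mul_of_nonneg_right (by exact_mod_cast hm0') hε0.le
    nlinarith
  obtain ⟨N, hN⟩ := eventually_atTop.1 (hF (1 / m) (by positivity) hε)
  refine ⟨max N 1, fun n hn => ?_⟩
  have hn1 : N ≤ m * n := ((le_max_left _ _).trans hn).trans (Nat.le_mul_of_pos_left _ (by omega))
  have h2 := hN (m * n) hn1
  have e1 : 1 / (m : ℝ) * ((m * n : ℕ) : ℝ) = n := by
    push_cast
    field_simp
  rw [e1, one_div_one_div] at h2
  set p := P.real {ω | Nn (n : ℝ) ((m * n : ℕ) : ℝ) ω = 0} with hp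
  have hp0 : 0 ≤ p := measureReal_nonneg
  have hppos : 0 < p := by
    rcases hp0.eq_or_lt with h | h
    · rw [← h, Real.log_zero, zero_div, zero_add, abs_of_pos hx] at h2
      linarith
    · exact h
  rw [abs_le] at h2
  have h3 : (-x - η) * Real.log m ≤ Real.log p := by
    rw [← le_div_iff₀ hlm]; linarith [h2.1]
  have h4 : Real.log p ≤ (-x + η) * Real.log m := by
    rw [← div_le_iff₀ hlm]; linarith [h2.2]
  constructor
  · rw [Real.rpow_def_of_pos hmpos, ← Real.le_log_iff_exp_le hppos]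
    linarith
  · rw [Real.rpow_def_of_pos hmpos, ← Real.log_le_iff_le_exp hppos]
    linarith

lemma H_of_F1P [IsProbabilityMeasure P] {x : ℝ} (hx : 0 < x)
    (hF : ∀ η > 0, ∃ ε0 > 0, ∀ ε : ℝ, 0 < ε → ε ≤ ε0 →
      ∀ᶠ n : ℕ in atTop, |Real.log (P.real {ω | Nn (ε * n) n ω = 0}) / Real.log (1 / ε) + x| ≤ η)
    (hno : ∃ k : ℤ, ∀ r R : ℤ, 1 ≤ r → r + 2 * k ≤ R →
    P.real {ω | Nn r R ω = 0} ≤ 2 * pP P (r + k) (R - k)) (har : S_armloop) (η : ℝ) (h0 : 0 < η) :
    ∃ m0 : ℕ, ∀ m ≥ m0, ∃ n0 : ℕ, ∀ n ≥ n0,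
      (m : ℝ) ^ (-x - η) ≤ pP P n (m * n : ℕ) ∧ pP P n (m * n : ℕ) ≤ (m : ℝ) ^ (-x + η) := by
  obtain ⟨k, hk⟩ := hno
  set η' := min (η / 2) (x / 2) with hη'
  have h1 : 0 < η' := lt_min (by linarith) (by linarith)
  have h2 : η' ≤ η / 2 := min_le_left _ _
  have h3 : η' ≤ x / 2 := min_le_right _ _
  obtain ⟨m0, hm02, hm0⟩ := F1_powP hx hF h1 (by linarith)
  have hlarge : ∀ᶠ m : ℕ in atTop,
      (m : ℝ) ^ (-x - η) ≤ 1 / 2 * ((m + 1 : ℕ) : ℝ) ^ (-x - η') := by
    have hl : Tendsto (fun n : ℕ => Real.log n) atTop atTop :=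
      Real.tendsto_log_atTop.comp tendsto_natCast_atTop_atTop
    have hl2 := (hl.const_mul_atTop (show 0 < η / 2 by linarith)).eventually_ge_atTop
      ((1 + (x + η')) * Real.log 2)
    filter_upwards [hl2, eventually_ge_atTop 1] with m h4 h5
    have hmpos : (0 : ℝ) < m := by exact_mod_cast (by omega : 0 < m)
    have hm1 : (0 : ℝ) < ((m + 1 : ℕ) : ℝ) := by exact_mod_cast (by omega : 0 < m + 1)
    have hlm : 0 ≤ Real.log m := Real.log_nonneg (by exact_mod_cast h5)
    have h6 : Real.log ((m + 1 : ℕ) : ℝ) ≤ Real.log 2 + Real.log m := by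
      rw [← Real.log_mul (by norm_num) hmpos.ne']
      refine Real.log_le_log hm1 ?_
      push_cast
      have : (1 : ℝ) ≤ m := by exact_mod_cast h5
      linarith
    have e1 : (1 / 2 : ℝ) = Real.exp (-Real.log 2) := by
      rw [Real.exp_neg, Real.exp_log (by norm_num)]
      norm_num
    rw [Real.rpow_def_of_pos hmpos, Real.rpow_def_of_pos hm1, e1, ← Real.exp_add]
    refine Real.exp_le_exp.2 ?_
    have h7 : (x + η') * Real.log ((m + 1 : ℕ) : ℝ) ≤
        (x + η') * (Real.log 2 + Real.log m) :=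
      mul_le_mul_of_nonneg_left h6 (by linarith)
    have h9 : η' * Real.log m ≤ η / 2 * Real.log m := mul_le_mul_of_nonneg_right h2 hlm
    nlinarith
  obtain ⟨m1, hm1⟩ := eventually_atTop.1 hlarge
  refine ⟨max m0 m1, fun m hm => ?_⟩
  have hmm0 : m0 ≤ m := (le_max_left _ _).trans hm
  have hmm1 : m1 ≤ m := (le_max_right _ _).trans hm
  obtain ⟨na, hna⟩ := hm0 m hmm0
  obtain ⟨nb, hnb⟩ := hm0 (m + 1) (by omega)
  set K : ℕ := k.natAbs with hK
  refine ⟨max na (max (nb + K + 1) ((m + 2) * K + 2)), fun n hn => ⟨?_, ?_⟩⟩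
  · have hn1 : nb + K + 1 ≤ n := ((le_max_left _ _).trans (le_max_right _ _)).trans hn
    have hn2 : (m + 2) * K + 2 ≤ n := ((le_max_right _ _).trans (le_max_right _ _)).trans hn
    have h4 := (hnb (n - K) (by omega)).1
    have h5 : (K : ℤ) = |k| := by rw [hK]; exact Int.natCast_natAbs k
    have hk1 : k ≤ K := by rw [h5]; exact le_abs_self k
    have hk2 : -k ≤ K := by rw [h5]; exact neg_le_abs k
    have e1 : ((m + 1) * (n - K) : ℕ) = m * n + n - (m + 1) * K := by
      rw [Nat.mul_sub]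
      congr 1
      ring
    have h6 : m * n + K ≤ (m + 1) * (n - K) := by
      rw [e1]
      have : (m + 2) * K = (m + 1) * K + K := by ring
      omega
    have hcast : (((n - K : ℕ) : ℤ) : ℝ) = ((n - K : ℕ) : ℝ) := by norm_cast
    have hcast' : ((((m + 1) * (n - K) : ℕ) : ℤ) : ℝ) = (((m + 1) * (n - K) : ℕ) : ℝ) := by
      norm_cast
    have hmn : n ≤ m * n := Nat.le_mul_of_pos_left _ (by omega)
    have h7 := hk ((n - K : ℕ) : ℤ) (((m + 1) * (n - K) : ℕ) : ℤ) (by omega) (by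
      have : ((m * n + K : ℕ) : ℤ) ≤ (((m + 1) * (n - K) : ℕ) : ℤ) := by exact_mod_cast h6
      have h8 : ((m * n : ℕ) : ℤ) + K ≤ (((m + 1) * (n - K) : ℕ) : ℤ) := by
        rw [← Nat.cast_add]; exact this
      have h9 : (n : ℤ) ≤ ((m * n : ℕ) : ℤ) := by exact_mod_cast hmn
      omega)
    rw [hcast, hcast'] at h7
    have h8 : pP P (((n - K : ℕ) : ℤ) + k) ((((m + 1) * (n - K) : ℕ) : ℤ) - k) ≤
        pP P n (m * n : ℕ) := by
      refine pP_mono (by omega) (by exact_mod_cast hmn) ?_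
      have : ((m * n + K : ℕ) : ℤ) ≤ (((m + 1) * (n - K) : ℕ) : ℤ) := by exact_mod_cast h6
      rw [Nat.cast_add] at this
      omega
    have h9 := hm1 m hmm1
    linarith
  · have h4 : pP P n (m * n : ℕ) ≤ P.real {ω | Nn (n : ℝ) ((m * n : ℕ) : ℝ) ω = 0} := by
      refine measureReal_mono (fun ω hω => ?_)
      have := har ω n (m * n : ℕ) hω
      simpa using this
    refine (h4.trans (hna n ((le_max_left _ _).trans hn)).2).trans ?_
    exact Real.rpow_le_rpow_of_exponent_le (by exact_mod_cast (by omega : 1 ≤ m)) (by linarith)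

/-- **G1 for the limit** -/
theorem noloopP (hj : S_jump) (hs : S_sign) (hst : S_step) (htwo : S_two) (hloc : S_loc)
    (hQ0 : 0 < Q) (hP : IsLim Q P) : ∃ k : ℤ, ∀ r R : ℤ, 1 ≤ r → r + 2 * k ≤ R →
    P.real {ω | Nn r R ω = 0} ≤ 2 * pP P (r + k) (R - k) := by
  have := hP.1
  refine ⟨3, fun r R hr hR => ?_⟩
  have h1 : {ω : Cfg | Nn (r : ℝ) (R : ℝ) ω = 0} ⊆
      {ω | ArmP (r + 1) (R - 1) ω} ∪ {ω | ArmD (r + 1) (R - 1) ω} := fun ω h =>
    noloop_det hj hs hst htwo hloc (by omega) (by omega) h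
  have h2 := (measureReal_mono (μ := P) h1).trans (measureReal_union_le _ _)
  have h3 : P.real {ω | ArmP (r + 1) (R - 1) ω} ≤ pP P (r + 3) (R - 3) :=
    pP_mono (by omega) (by omega) (by omega)
  have h4 : P.real {ω | ArmD (r + 1) (R - 1) ω} ≤ pP P (r + 3) (R - 3) := by
    refine (pD_le_pP hQ0 hP (r := r + 1) (R := R - 1) (by omega)).trans ?_
    exact pP_mono (by omega) (by omega) (by omega)
  linarith

/-- **The one-arm exponent of the infinite-volume measure.** -/
theorem onearmP (hbd : S_bdP) (hnx : S_nx) (hj : S_jump) (hs : S_sign) (ho : S_out) (hst : S_step)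
    (htwo : S_two) (hloc : S_loc) (har : S_armloop) (hQ : 1 ≤ Q) {L : ℤ} (hL : Rat Q L)
    (hP : IsLim Q P) {x : ℝ} (hx : 0 < x)
    (hF : ∀ η > 0, ∃ ε0 > 0, ∀ ε : ℝ, 0 < ε → ε ≤ ε0 →
      ∀ᶠ n : ℕ in atTop, |Real.log (P.real {ω | Nn (ε * n) n ω = 0}) / Real.log (1 / ε) + x| ≤ η) :
    Tendsto (fun n : ℕ => Real.log (pP P 0 n) / Real.log n) atTop (𝓝 (-x)) := by
  have := hP.1
  have hQ0 : 0 < Q := by linarith
  have hL2 := hL.1
  set K : ℕ := 3 * L.toNat with hK
  have hKL : (K : ℤ) = 3 * L := by omega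
  have key := glue_abs2 (fun r R => pP P r R) (x := x) (c := 1 / 2) (C := 2) (K := K) (by omega) hx
    (by norm_num) (by norm_num) (by norm_num) (fun n => pP_pos hQ hP (by positivity))
    (fun r R R' h1 h2 => pP_mono le_rfl (by exact_mod_cast h1) (by exact_mod_cast h2))
    (fun t R h1 h2 => by
      have h2' : 3 * L * t ≤ R := by rw [← hKL]; exact_mod_cast h2
      have h1' : (1 : ℤ) ≤ t := by exact_mod_cast h1
      have e2 : 2 * (t : ℤ) ≤ L * t := by nlinarith
      have e3 : 3 * L * t = 3 * (L * t) := by ring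
      have h3 := pP_up hQ hL hP (t := t) (R := R) h1' (by omega)
      refine h3.trans ?_
      push_cast
      refine mul_le_mul_of_nonneg_left ?_ (mul_nonneg (by norm_num) (pP_nonneg _ _))
      rw [hKL]
      exact pP_mono (by omega) h2' le_rfl)
    (fun t R h1 h2 => by
      have h2' : 3 * L * t ≤ R := by rw [← hKL]; exact_mod_cast h2
      have h1' : (1 : ℤ) ≤ t := by exact_mod_cast h1
      have h3 := pP_low hbd hnx hj ho hst hQ hL hP (t := t) (R := R) h1' h2'
      push_cast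
      rw [hKL]
      exact h3)
    (H_of_F1P hx hF (noloopP hj hs hst htwo hloc hQ0 hP) har)
  simpa using key

end Vale.Agent.P167.H519
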