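import Vale.Agent.P167.H519.GKappa
import Vale.Agent.P167.H519.GMean
import Vale.Agent.P167.H519.GOne
import Vale.Agent.P167.H519.FinB
import Vale.Agent.P167.H685.GGauss

/-!
P167: transfer of the statements for general `q` to the random-cluster model on `ℤ²`.
-/

namespace Vale.Agent.P167.H519

open MeasureTheory Set Filter Topology
open Vale.Agent.P167.H562 (wt Xa cAa G_F1 G_F2 G_F3 G_large)
open Vale.Agent.P167.H685 (G_id g_smooth)
open Vale.Agent.P167.H638 (GffG)

/-! ### uniqueness -/

/-- the infinite-volume measure is determined by its definition -/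
theorem rc_unique {q : ℝ} {P P' : Measure BondCfg} (h : IsRC q P) (h' : IsRC q P') : P' = P := by
  have := h.1
  have := h'.1
  refine ext_of_generate_finite (measurableCylinders fun _ : sqLat.edgeSet => Bool)
    generateFrom_measurableCylinders.symm isPiSystem_measurableCylinders ?_ (by simp)
  intro E hE
  obtain ⟨B, S, hS, rfl⟩ := (mem_measurableCylinders _).1 hE
  have hdep : ∀ ω ω' : BondCfg, (∀ e ∈ B, ω e = ω' e) →
      (ω ∈ cylinder B S ↔ ω' ∈ cylinder B S) := by
    intro ω ω' hω
    have : Finset.restrict B ω = Finset.restrict B ω' := by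
      funext e
      exact hω e.1 e.2
    simp only [cylinder, Set.mem_preimage, this]
  have h1 := tendsto_nhds_unique (h.2 true B _ hdep) (h'.2 true B _ hdep)
  rw [Measure.real, Measure.real, ENNReal.toReal_eq_toReal_iff' (measure_ne_top _ _)
    (measure_ne_top _ _)] at h1
  exact h1.symm

/-! ### transfer -/

variable {P : Measure Cfg}

lemma int_medP (g : Cfg → ℝ) : ∫ ω, g (med ω) ∂(P.map toBond) = ∫ ω, g ω ∂P := by
  rw [toBond.measurableEmbedding.integral_map]
  refine integral_congr_ae (Filter.Eventually.of_forall fun ω => ?_)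
  simp only [med_toBond]

lemma real_mapP (E : Set BondCfg) : (P.map toBond).real E = P.real (toBond ⁻¹' E) := by
  rw [Measure.real, Measure.real, toBond.map_apply]

lemma oneArm_boundsP [IsProbabilityMeasure P] (n : ℕ) :
    pP P 0 (2 * n : ℕ) ≤ (P.map toBond).real (oneArm n) ∧
    (P.map toBond).real (oneArm n) ≤ pP P 0 n := by
  rw [real_mapP]
  exact ⟨measureReal_mono sub_oneArm, measureReal_mono oneArm_sub⟩

/-- **The one-arm exponent on the standard square lattice** from the rotated one. -/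
theorem z2_onearmP [IsProbabilityMeasure P] {x : ℝ} (hpos : ∀ R : ℤ, 0 ≤ R → 0 < pP P 0 R)
    (h : Tendsto (fun n : ℕ => Real.log (pP P 0 n) / Real.log n) atTop (𝓝 (-x))) :
    Tendsto (fun n : ℕ => Real.log ((P.map toBond).real (oneArm n)) / Real.log n) atTop
      (𝓝 (-x)) := by
  have hl : Tendsto (fun n : ℕ => Real.log n) atTop atTop :=
    Real.tendsto_log_atTop.comp tendsto_natCast_atTop_atTop
  have h2 : Tendsto (fun n : ℕ => Real.log (pP P 0 (2 * n : ℕ)) / Real.log ((2 * n : ℕ) : ℝ)) atTop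
      (𝓝 (-x)) :=
    h.comp ((tendsto_id.const_mul_atTop' (show 0 < 2 by norm_num) :
      Tendsto (fun n : ℕ => 2 * n) atTop atTop))
  have h3 : Tendsto (fun n : ℕ => Real.log ((2 * n : ℕ) : ℝ) / Real.log n) atTop (𝓝 1) := by
    have h4 : Tendsto (fun n : ℕ => Real.log 2 / Real.log n + 1) atTop (𝓝 (0 + 1)) :=
      (hl.const_div_atTop _).add tendsto_const_nhds
    rw [zero_add] at h4
    refine h4.congr' ?_
    filter_upwards [eventually_ge_atTop 2] with n hn
    have hn0 : (0 : ℝ) < n := by exact_mod_cast (by omega : 0 < n)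
    have hln : 0 < Real.log n := Real.log_pos (by exact_mod_cast (by omega : 1 < n))
    push_cast
    rw [Real.log_mul (by norm_num) hn0.ne', add_div, div_self hln.ne']
  have h5 := h2.mul h3
  rw [mul_one] at h5
  refine tendsto_of_tendsto_of_tendsto_of_le_of_le' h5 h ?_ ?_
  · filter_upwards [eventually_ge_atTop 2] with n hn
    have hln : 0 < Real.log n := Real.log_pos (by exact_mod_cast (by omega : 1 < n))
    have hln2 : 0 < Real.log ((2 * n : ℕ) : ℝ) :=
      Real.log_pos (by exact_mod_cast (by omega : 1 < 2 * n))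
    rw [div_mul_div_cancel₀ hln2.ne']
    exact div_le_div_of_nonneg_right
      (Real.log_le_log (hpos _ (by positivity)) (oneArm_boundsP n).1) hln.le
  · filter_upwards [eventually_ge_atTop 2] with n hn
    have hln : 0 < Real.log n := Real.log_pos (by exact_mod_cast (by omega : 1 < n))
    exact div_le_div_of_nonneg_right
      (Real.log_le_log ((hpos _ (by positivity)).trans_le (oneArm_boundsP n).1)
        (oneArm_boundsP n).2) hln.le

/-- the mean number of loops -/
theorem z2_meanP {x : ℝ}
    (h : Tendsto (fun n : ℕ => (∫ ω, (nLoops n ω : ℝ) ∂P) / Real.log n) atTop (𝓝 x)) :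
    Tendsto (fun n : ℕ => (∫ ω, (numLoops n ω : ℝ) ∂(P.map toBond)) / Real.log n) atTop (𝓝 x) := by
  refine h.congr fun n => ?_
  simp only [numLoops_eq]
  rw [← int_medP (fun ω => (nLoops n ω : ℝ))]

/-- only finitely many loops have a weight different from one -/
lemma finite_weightP (h2 : S_two) (hnx : S_nx) (hj : S_jump) {f : ℤ × ℤ → ℝ}
    (hf : f.support.Finite) (h0 : ∑ᶠ s, f s = 0) {w : ℝ → ℝ} (hw0 : w 0 = 1) (ω : Cfg) :
    {ℓ | IsLoop ω ℓ ∧ w (G f ℓ) ≠ 1}.Finite := by
  obtain ⟨R, hR⟩ : ∃ R : ℤ, ∀ s ∈ f.support, nm s ≤ R := by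
    obtain ⟨R, hR⟩ := (hf.image nm).bddAbove
    exact ⟨R, fun s hs => hR (Set.mem_image_of_mem _ hs)⟩
  refine (H45.LV_fin h2 (finite_nm R).toFinset ω).subset ?_
  rintro ℓ ⟨hℓ, hw⟩
  refine ⟨hℓ, ?_⟩
  by_contra hcon
  push Not at hcon
  apply hw
  have h3 : ∀ v ∈ vs ℓ, R < nm v := by
    intro v hv
    by_contra h
    exact hcon v hv (by simpa using h)
  have h4 : G f ℓ = 0 := by
    unfold G
    by_cases hW : W ℓ 0 = 0
    · rw [finsum_mem_congr (g := fun _ => 0) rfl, finsum_mem_zero]
      intro s hs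
      by_contra hfs
      exact hs ((W_box hnx hj hℓ h3 (hR s hfs)).trans hW)
    · have h5 : Function.support f ⊆ ins ℓ := by
        intro s hs h6
        exact hW ((W_box hnx hj hℓ h3 (hR s hs)).symm.trans h6)
      rw [← h0, finsum_mem_def, Set.indicator_eq_self.2 h5]
  rw [h4]
  exact hw0

lemma loopWt_zero {q : ℝ} (h1 : 1 ≤ q) (h4 : q < 4) : loopWt q 0 = 1 := by
  unfold loopWt
  rw [angq_kappa h1, add_zero, angq_cos h4]
  exact div_self (Real.sqrt_pos.2 (by linarith)).ne'

/-- the scaling limit of the loop functionals -/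
theorem conf_rc {q : ℝ} (h1 : 1 ≤ q) (h4 : q < 4) (hG : GffG (angq q)) (hI : G_id (angq q) P)
    {F : ℂ → ℝ} (hF : IsTest F) :
    Tendsto (fun δ : ℝ => ∫ ω, loopProd q (charge F δ) ω ∂(P.map toBond)) (𝓝[>] 0)
      (𝓝 (Real.exp (-(kappa q / (8 * Real.pi ^ 2)) * energy F))) := by
  obtain ⟨g1, g2, g3⟩ := test_comp hF
  have h5 := g_smooth (θ := angq q) (by have := angq_le h1; have := Real.pi_pos; linarith) hG hI
    g1 g2 g3
  have e1 : cAa (angq q) * (∫ x : ℝ × ℝ, ∫ y : ℝ × ℝ, H638.lg x y *
      F (Complex.measurableEquivRealProd.symm x) * F (Complex.measurableEquivRealProd.symm y)) =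
      -(kappa q / (8 * Real.pi ^ 2)) * energy F := by
    rw [← H685.cv_eqA (θ := angq q) (by have := angq_le h1; have := Real.pi_pos; linarith)
      (fun x : ℝ × ℝ => F (Complex.measurableEquivRealProd.symm x)), energy_eq', kappa_eq]
    have h6 := angq_le h1
    have h7 := Real.pi_pos
    have h8 : Real.pi - angq q ≠ 0 := by linarith
    field_simp
    ring
  rw [e1] at h5
  refine h5.congr fun δ => ?_
  simp only [loopProd_eq h1 h4]
  rw [int_medP (fun ω => Xa (angq q) (charge F δ) ω), charge_eq]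

end Vale.Agent.P167.H519
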