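import Vale.Agent.P167.H519.Z2

/-!
# P167: the random-cluster model on the boxes of the square lattice `ℤ²`
-/

namespace Vale.Agent.P167

open MeasureTheory

/-- The vertices of the box `[-N, N]²`. -/
noncomputable def boxV (N : ℕ) : Finset (ℤ × ℤ) := Finset.Icc (-N : ℤ) N ×ˢ Finset.Icc (-N : ℤ) N

open Classical in
/-- The edges of `ℤ²` with both ends in the box. -/
noncomputable def boxE (N : ℕ) : Finset (Sym2 (ℤ × ℤ)) :=
  (boxV N).sym2.filter (fun e => e ∈ sqLat.edgeSet)

/-- The graph on the box with the edges of `A`; if `w` is true (wired boundary conditions), any two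
vertices of the boundary of the box are also joined. -/
def rcGraph (N : ℕ) (w : Bool) (A : Finset (Sym2 (ℤ × ℤ))) : SimpleGraph {u // u ∈ boxV N} where
  Adj u v := u ≠ v ∧ (s(u.1, v.1) ∈ A ∨
    w = true ∧ max |u.1.1| |u.1.2| = N ∧ max |v.1.1| |v.1.2| = N)
  symm := ⟨fun _ _ h => ⟨h.1.symm, h.2.imp (fun h => Sym2.eq_swap ▸ h)
    fun h => ⟨h.1, h.2.2, h.2.1⟩⟩⟩
  loopless := ⟨fun _ h => h.1 rfl⟩

/-- The weight `p ^ |A| (1 - p) ^ (|E| - |A|) q ^ k(A)` with `p = √q / (1 + √q)`, where `k(A)` is
the number of connected components. -/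
noncomputable def rcWeight (q : ℝ) (N : ℕ) (w : Bool) (A : Finset (Sym2 (ℤ × ℤ))) : ℝ :=
  (√q / (1 + √q)) ^ A.card * (1 - √q / (1 + √q)) ^ ((boxE N).card - A.card) *
    q ^ Nat.card (rcGraph N w A).ConnectedComponent

open Classical in
/-- The configuration with the open edges `A`. -/
noncomputable def openCfg (A : Finset (Sym2 (ℤ × ℤ))) : BondCfg := fun e => decide (e.1 ∈ A)

/-- The probability of an event under the random-cluster measure of the box. -/
noncomputable def rcProb (q : ℝ) (N : ℕ) (w : Bool) (E : Set BondCfg) : ℝ :=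
  (∑ A ∈ (boxE N).powerset, rcWeight q N w A * E.indicator 1 (openCfg A)) /
    ∑ A ∈ (boxE N).powerset, rcWeight q N w A

/-- `P` is the infinite-volume critical random-cluster measure: it is the limit of the measures of
the boxes, with free and with wired boundary conditions, on all events which depend on finitely many
edges. -/
def IsRC (q : ℝ) (P : Measure BondCfg) : Prop := IsProbabilityMeasure P ∧
  ∀ (w : Bool) (B : Finset sqLat.edgeSet) (E : Set BondCfg),
    (∀ ω ω' : BondCfg, (∀ e ∈ B, ω e = ω' e) → (ω ∈ E ↔ ω' ∈ E)) →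
    Filter.Tendsto (fun N => rcProb q N w E) Filter.atTop (nhds (P.real E))

end Vale.Agent.P167
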