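import Vale.Agent.P167.H519.FinDefs
import Vale.Agent.P167.H519.RcDefs

/-!
P167: definitions for the final statement about the critical random-cluster model on `ℤ²`.
-/

namespace Vale.Agent.P167

open MeasureTheory

/-- The parameter `κ(q) = 4π / arccos (-√q / 2)` of the conjectured limit. -/
noncomputable def kappa (q : ℝ) : ℝ := 4 * Real.pi / Real.arccos (-√q / 2)

/-- The one-arm exponent `(8 - κ) (3κ - 8) / (32 κ)`. -/
noncomputable def armExp (κ : ℝ) : ℝ := (8 - κ) * (3 * κ - 8) / (32 * κ)

/-- The weight of a loop which surrounds the charge `t`; it is `1` if `t = 0`, because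
`2 cos (π (1 - 4/κ(q))) = √q`. -/
noncomputable def loopWt (q t : ℝ) : ℝ := 2 * Real.cos (Real.pi * (1 - 4 / kappa q) + t) / √q

/-- The product of the weights over all interface loops of `ω`. -/
noncomputable def loopProd (q : ℝ) (f : ℤ × ℤ → ℝ) (ω : BondCfg) : ℝ :=
  ∏ᶠ ℓ ∈ {ℓ | IsLoop (med ω) ℓ}, loopWt q (G f ℓ)

end Vale.Agent.P167
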