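import Vale.Agent.P167.H519.RcId
import Vale.Agent.P167.H519.GP

/-!
# P167: the infinite-volume random-cluster measure of `ℤ²`
-/

namespace Vale.Agent.P167.H519

open Finset Filter Topology MeasureTheory Relation Vale.Agent.P167.FK
open Vale.Agent.P145.FB (PStep PConn)

lemma ends (v : ℤ × ℤ) : (rot (ea v) = FK.pa v ∧ rot (eb v) = FK.pb v) ∨
    (rot (ea v) = FK.pb v ∧ rot (eb v) = FK.pa v) := by
  by_cases h : Even (v.1 + v.2)
  · left
    have h' := h
    rw [Int.even_iff] at h'
    simp only [rot, ea, eb, FK.pa, FK.pb, h, if_true]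
    constructor <;> ext <;> dsimp only <;> omega
  · right
    have h' := h
    rw [Int.even_iff] at h'
    simp only [rot, ea, eb, FK.pa, FK.pb, h, if_false]
    constructor <;> ext <;> dsimp only <;> omega

/-- number of components -/
noncomputable def kN (N : ℕ) (w : Bool) (S : Finset (ℤ × ℤ)) : ℕ :=
  Nat.card (rcGraph N w (eg S)).ConnectedComponent

lemma eg_insert (a : ℤ × ℤ) (S : Finset (ℤ × ℤ)) : eg (insert a S) = insert (eg1 a) (eg S) := by
  classical
  unfold eg
  rw [Finset.map_insert]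
  rfl

/-- the number of loops and the number of components -/
lemma LD_k {N : ℕ} (w : Bool) (S : Finset (ℤ × ℤ)) (hS : S ⊆ sqD N) :
    LD (sqD N) (cf (sqD N) (etaw w) S) + 2 * kN N w ∅ =
      LD (sqD N) (cf (sqD N) (etaw w) ∅) + 2 * kN N w S + S.card := by
  classical
  induction S using Finset.induction_on with
  | empty => simp
  | insert a S haS ih =>
    have hS' : S ⊆ sqD N := fun v hv => hS (Finset.mem_insert_of_mem hv)
    have ha : a ∈ sqD N := hS (Finset.mem_insert_self _ _)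
    specialize ih hS'
    have hab := mem_sqD.1 ha
    have hab' : s(ea a, eb a) ∈ boxE N := hab
    rw [mem_boxE] at hab'
    set x : {u // u ∈ boxV N} := ⟨ea a, hab'.1⟩ with hx
    set y : {u // u ∈ boxV N} := ⟨eb a, hab'.2.1⟩ with hy
    have hadj : ∀ u v, (rcGraph N w (eg (insert a S))).Adj u v ↔
        (rcGraph N w (eg S)).Adj u v ∨ (u = x ∧ v = y) ∨ (u = y ∧ v = x) := by
      intro u v
      have hxy : x ≠ y := fun h => hab'.2.2.ne (congrArg Subtype.val h)
      constructor
      · rintro ⟨h1, h2 | h2⟩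
        · rw [eg_insert, Finset.mem_insert] at h2
          rcases h2 with h2 | h2
          · have h3 : s(u.1, v.1) = s(ea a, eb a) := h2
            rw [Sym2.eq_iff] at h3
            rcases h3 with ⟨h3, h4⟩ | ⟨h3, h4⟩
            · exact Or.inr (Or.inl ⟨Subtype.ext h3, Subtype.ext h4⟩)
            · exact Or.inr (Or.inr ⟨Subtype.ext h3, Subtype.ext h4⟩)
          · exact Or.inl ⟨h1, Or.inl h2⟩
        · exact Or.inl ⟨h1, Or.inr h2⟩
      · rintro (⟨h1, h2 | h2⟩ | ⟨rfl, rfl⟩ | ⟨rfl, rfl⟩)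
        · exact ⟨h1, Or.inl (by rw [eg_insert]; exact Finset.mem_insert_of_mem h2)⟩
        · exact ⟨h1, Or.inr h2⟩
        · exact ⟨hxy, Or.inl (by rw [eg_insert]; exact Finset.mem_insert_self _ _)⟩
        · refine ⟨hxy.symm, Or.inl ?_⟩
          rw [eg_insert, Sym2.eq_swap]
          exact Finset.mem_insert_self _ _
    have hgood : Good (cf (sqD N) (etaw w) S) := f_good.1 _ _ _ (etaw_good w)
    have hfalse : cf (sqD N) (etaw w) S a = false := by
      rw [cf_in ha]; simpa using haS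
    obtain ⟨f1, f2⟩ := f_flip (sqD N) (cf (sqD N) (etaw w) S) a hgood ha hfalse
    rw [← H259.cf_insert ha] at f1 f2
    have hpc : (rcGraph N w (eg S)).Reachable x y ↔
        PC (cf (sqD N) (etaw w) S) (FK.pa a) (FK.pb a) := by
      rw [reach_pc hS' w x y]
      rcases ends a with ⟨h1, h2⟩ | ⟨h1, h2⟩
      · rw [hx, hy, h1, h2]
      · rw [hx, hy, h1, h2]
        exact ⟨conn_symm, conn_symm⟩
    have hk : Finite {u // u ∈ boxV N} := inferInstance
    rw [Finset.card_insert_of_notMem haS]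
    by_cases hr : (rcGraph N w (eg S)).Reachable x y
    · have h1 := f1 (hpc.1 hr)
      have h2 : kN N w (insert a S) = kN N w S := card_same hadj hr
      omega
    · have h1 := f2 fun h => hr (hpc.2 h)
      have h2 : kN N w (insert a S) + 1 = kN N w S := card_merge hadj hr
      omega

section

variable {q : ℝ}

/-- the weights agree up to a constant -/
lemma weight_eq (hq : 0 < q) (N : ℕ) (w : Bool) : ∃ c : ℝ, 0 < c ∧ ∀ S, S ⊆ sqD N →
    rcWeight q N w (eg S) = c * (√q) ^ LD (sqD N) (cf (sqD N) (etaw w) S) := by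
  have hQ : 0 < √q := Real.sqrt_pos.2 hq
  have hQ1 : 0 < 1 + √q := by positivity
  refine ⟨(√q) ^ (2 * kN N w ∅) /
    ((√q) ^ LD (sqD N) (cf (sqD N) (etaw w) ∅) * (1 + √q) ^ (boxE N).card), by positivity,
    fun S hS => ?_⟩
  have h1 := LD_k w S hS
  have h2 : (eg S).card = S.card := Finset.card_map _
  have h3 : S.card ≤ (boxE N).card := by
    rw [← h2]
    refine Finset.card_le_card fun e he => ?_
    obtain ⟨m, hm, rfl⟩ := Finset.mem_map.1 he
    exact mem_sqD.1 (hS hm)
  have h4 : 1 - √q / (1 + √q) = 1 / (1 + √q) := by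
    field_simp
    ring
  have h5 : q ^ kN N w S = (√q) ^ (2 * kN N w S) := by
    rw [pow_mul, Real.sq_sqrt hq.le]
  unfold rcWeight
  rw [h2, h4]
  show (√q / (1 + √q)) ^ S.card * (1 / (1 + √q)) ^ ((boxE N).card - S.card) * q ^ kN N w S = _
  rw [h5, div_pow, div_pow, one_pow]
  have h6 : (1 + √q) ^ (boxE N).card =
      (1 + √q) ^ S.card * (1 + √q) ^ ((boxE N).card - S.card) := by
    rw [← pow_add, Nat.add_sub_cancel' h3]
  have h7 : (√q) ^ LD (sqD N) (cf (sqD N) (etaw w) S) * (√q) ^ (2 * kN N w ∅) =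
      (√q) ^ LD (sqD N) (cf (sqD N) (etaw w) ∅) * (√q) ^ (2 * kN N w S) * (√q) ^ S.card := by
    rw [← pow_add, h1, pow_add, pow_add]
  rw [h6]
  field_simp
  linear_combination -h7

/-- sums over the edges and sums over the squares -/
lemma sum_eg (N : ℕ) (f : Finset (Sym2 (ℤ × ℤ)) → ℝ) :
    ∑ A ∈ (boxE N).powerset, f A = ∑ S ∈ (sqD N).powerset, f (eg S) := by
  symm
  refine Finset.sum_bij (fun S _ => eg S) ?_ ?_ ?_ (fun _ _ => rfl)
  · intro S hS
    rw [Finset.mem_powerset] at hS ⊢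
    intro e he
    obtain ⟨m, hm, rfl⟩ := Finset.mem_map.1 he
    exact mem_sqD.1 (hS hm)
  · intro S _ T _ h
    exact Finset.map_injective _ h
  · intro A hA
    rw [Finset.mem_powerset] at hA
    refine ⟨(sqD N).filter (fun v => eg1 v ∈ A), ?_, ?_⟩
    · rw [Finset.mem_powerset]
      exact Finset.filter_subset _ _
    · ext e
      constructor
      · intro he
        obtain ⟨m, hm, rfl⟩ := Finset.mem_map.1 he
        exact (Finset.mem_filter.1 hm).2
      · intro he
        have h1 := hA he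
        induction e using Sym2.ind with
        | _ u v =>
        have h2 := (mem_boxE.1 h1).2.2
        rw [← eg1_sqr h2] at he h1 ⊢
        exact mem_eg.2 (Finset.mem_filter.2 ⟨mem_sqD.2 h1, he⟩)

/-- The probabilities of the model on the box and the probabilities of the loop model. -/
lemma rcProb_eq (hq : 0 < q) (N : ℕ) (w : Bool) {B : Finset sqLat.edgeSet} {E : Set BondCfg}
    (hE : ∀ ω ω' : BondCfg, (∀ e ∈ B, ω e = ω' e) → (ω ∈ E ↔ ω' ∈ E))
    (hB : ∀ e ∈ B, e.1 ∈ boxE N) :
    rcProb q N w E = Pr (√q) (sqD N) (etaw w) (toBond ⁻¹' E) := by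
  obtain ⟨c, hc, hw⟩ := weight_eq hq N w
  have hQ : 0 < √q := Real.sqrt_pos.2 hq
  unfold rcProb Pr Ex Zq
  rw [sum_eg, sum_eg]
  have h1 : ∀ S ∈ (sqD N).powerset, rcWeight q N w (eg S) * E.indicator 1 (openCfg (eg S)) =
      c * ((√q) ^ LD (sqD N) (cf (sqD N) (etaw w) S) *
        (toBond ⁻¹' E).indicator 1 (cf (sqD N) (etaw w) S)) := by
    intro S hS
    rw [Finset.mem_powerset] at hS
    rw [hw S hS]
    have h2 : (openCfg (eg S) ∈ E) ↔ (cf (sqD N) (etaw w) S ∈ toBond ⁻¹' E) := by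
      refine hE _ _ fun e he => ?_
      have h3 := hB e he
      obtain ⟨v, rfl⟩ := eqv.surjective e
      rw [toBond_apply]
      have h4 : (eqv v).1 = eg1 v := rfl
      rw [h4] at h3
      rw [cf_in (mem_sqD.2 h3)]
      unfold openCfg
      rw [h4]
      by_cases h5 : v ∈ S
      · have h6 : eg1 v ∈ eg S := mem_eg.2 h5
        simp only [h5, h6, decide_true]
      · have h6 : eg1 v ∉ eg S := fun h => h5 (mem_eg.1 h)
        simp only [h5, h6, decide_false]
    by_cases h3 : openCfg (eg S) ∈ E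
    · rw [Set.indicator_of_mem h3, Set.indicator_of_mem (h2.1 h3)]
      simp only [Pi.one_apply]
      ring
    · rw [Set.indicator_of_notMem h3, Set.indicator_of_notMem fun h => h3 (h2.2 h)]
      ring
  rw [Finset.sum_congr rfl h1, ← Finset.mul_sum,
    Finset.sum_congr rfl fun S hS => hw S (Finset.mem_powerset.1 hS), ← Finset.mul_sum,
    mul_div_mul_left _ _ hc.ne']

lemma Bq_sub_sqD (R : ℤ) : ∃ N0 : ℕ, ∀ N ≥ N0, Bq 0 R ⊆ sqD N := by
  refine ⟨(R.toNat + 1) * 2, fun N hN v hv => ?_⟩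
  simp only [Bq, Prod.fst_zero, Prod.snd_zero, zero_sub, zero_add, Finset.mem_product,
    Finset.mem_Ico] at hv
  rw [mem_sqD]
  show s(ea v, eb v) ∈ boxE N
  rw [mem_boxE, mem_boxV, mem_boxV, max_le_iff, max_le_iff, abs_le, abs_le, abs_le, abs_le]
  refine ⟨?_, ?_, adj_ea_eb v⟩
  · simp only [ea]
    omega
  · by_cases h : Even (v.1 + v.2) <;> simp only [eb, h, if_true, if_false] <;> omega

/-- the image of the infinite-volume measure is the standard infinite-volume measure -/
theorem isRC_of_isLim (hq : 0 < q) {P : Measure Cfg} (hP : IsLim (√q) P) :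
    IsRC q (P.map toBond) := by
  have := hP.1
  refine ⟨Measure.isProbabilityMeasure_map toBond.measurable.aemeasurable, fun w B E hE => ?_⟩
  -- the squares of `B`
  set B' : Finset (ℤ × ℤ) := B.map eqv.symm.toEmbedding with hB'
  have hloc : FKA.Loc B' ((toBond ⁻¹' E).indicator 1) := by
    refine loc_of_dep fun ω ω' h h1 => ?_
    refine (hE _ _ fun e he => ?_).1 h1
    obtain ⟨v, rfl⟩ := eqv.surjective e
    rw [toBond_apply, toBond_apply]
    exact h v (Finset.mem_map.2 ⟨eqv v, he, by simp⟩)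
  have hmeas : MeasurableSet (toBond ⁻¹' E) := loc_meas hloc
  have hreal : (P.map toBond).real E = P.real (toBond ⁻¹' E) := by
    rw [Measure.real, Measure.real, toBond.map_apply]
  rw [hreal, ← pr_int hloc]
  obtain ⟨rB, -, hrB⟩ := exists_Bq B'
  obtain ⟨N1, hN1⟩ := Bq_sub_sqD rB
  rw [Metric.tendsto_atTop]
  intro ε hε
  obtain ⟨R, hR⟩ := hP.2 B' _ hloc (ε / 2) (by linarith)
  obtain ⟨N0, hN0⟩ := Bq_sub_sqD R
  refine ⟨max N0 N1, fun N hN => ?_⟩
  have h1 := hR (sqD N) (etaw w) (hN0 N (le_trans (le_max_left _ _) hN)) (etaw_good w)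
  rw [rcProb_eq hq N w hE fun e he => ?_, Real.dist_eq]
  · refine lt_of_le_of_lt h1 (by linarith)
  · obtain ⟨v, rfl⟩ := eqv.surjective e
    have h2 : v ∈ B' := Finset.mem_map.2 ⟨eqv v, he, by simp⟩
    exact mem_sqD.1 (hN1 N (le_trans (le_max_right _ _) hN) (hrB h2))

end

end Vale.Agent.P167.H519
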