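import Vale.Agent.P167.H519.GFinB
import Vale.Agent.P167.H519.RcLim
import Vale.Agent.P167.H519.Done
import Vale.Agent.P167.H562.GDet
import Vale.Agent.P167.H562.GRml
import Vale.Agent.P167.H685.GFin

/-!
P167, general `q`: assembly, from the Russo-Seymour-Welsh property, the Gaussian limit of the
six-vertex model and the estimate for the small loops.
-/

namespace Vale.Agent.P167.H519

open MeasureTheory Set Filter Topology
open Vale.Agent.P167.H562 (G_small G_large G_F1 G_F2 G_F3)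
open Vale.Agent.P167.H685 (g_id_rsw g_gauss)
open Vale.Agent.P167.H638 (GffG)
open Vale.Agent.P167.FK (RSW)

/-- Assembly for one value of `q`. -/
theorem rc_of {q : ℝ} (h1 : 1 ≤ q) (h4 : q < 4) (hR : RSW (√q)) (hG : GffG (angq q))
    (hS : ∀ P : Measure Cfg, IsLim (√q) P → G_small (angq q) P) :
    ∃ P : Measure Cfg, IsProbabilityMeasure P ∧ IsRC q (P.map toBond) ∧
      Tendsto (fun n : ℕ => Real.log ((P.map toBond).real (oneArm n)) / Real.log n) atTop
        (𝓝 (-armExp (kappa q))) ∧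
      Tendsto (fun n : ℕ => (∫ ω, (numLoops n ω : ℝ) ∂(P.map toBond)) / Real.log n) atTop
        (𝓝 ((kappa q - 4) / (4 * Real.pi * Real.tan (Real.pi * (1 - 4 / kappa q))))) ∧
      (∀ F : ℂ → ℝ, IsTest F →
        Tendsto (fun δ : ℝ => ∫ ω, loopProd q (charge F δ) ω ∂(P.map toBond)) (𝓝[>] 0)
          (𝓝 (Real.exp (-(kappa q / (8 * Real.pi ^ 2)) * energy F)))) := by
  have hQ : 1 ≤ √q := Real.one_le_sqrt.2 h1
  have hq : 0 < q := by linarith
  have ha0 : 0 < angq q := angq_pos h4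
  have ha1 : angq q ≤ Real.pi / 3 := angq_le h1
  have hcos := angq_cos h4
  obtain ⟨α, C, hα, hC, k1, k2⟩ := FKA.arm_fk hQ hR
  obtain ⟨P, hP⟩ := exists_lim hQ hα k1
  have hPp := hP.1
  have hR' : RSW (2 * Real.cos (angq q)) := by rw [hcos]; exact hR
  have hP' : IsLim (2 * Real.cos (angq q)) P := by rw [hcos]; exact hP
  have hid := g_id_rsw ha0.le ha1 hR' hP'
  obtain ⟨hring, hmom, hlarge⟩ := H562.GL.g_rml' hQ hR hP
  have hga := g_gauss (by have := Real.pi_pos; linarith) hG hid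
  obtain ⟨F1, F2, F3⟩ := H562.GQ.g_F' ha0 ha1 hga (hS P hP) hlarge hring hmom
  obtain ⟨L, hL⟩ := exists_rat hQ hα k1 k2
  refine ⟨P, hPp, isRC_of_isLim hq hP, ?_, ?_, fun F hF => conf_rc h1 h4 hG hid hF⟩
  · have hx := armExp_pos h1
    rw [← armExp_eq h1] at hx ⊢
    exact z2_onearmP (fun R hR => pP_pos hQ hP hR) (onearmP s_bdP s_nx s_jump s_sign s_out s_step
      s_two s_loc s_armloop hQ hL hP hx F1)
  · rw [← meanExp_eq h1]
    exact z2_meanP (g_nest_mean F3 hlarge s_con s_two s_out s_loc)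

end Vale.Agent.P167.H519
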