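import Vale.Agent.P167.FKA.Clu
import Vale.Agent.P167.H259.FKDone
import Vale.Agent.P167.H259.FKMark

/-!
# P167, general `q`, block GQ7: comparison of increasing functions on the event of no connection
-/

namespace Vale.Agent.P167.H519

open Finset Filter Topology MeasureTheory Vale.Agent.P167.FK Vale.Agent.P167.FKA Relation
open Vale.Agent.P145.FB (PStep PConn)
open Vale.Agent.P167.H259 (f_markov f_fkg f_comp f_comp2 Ex_out cf_cf PC_mono)

variable {Q : ℝ}

/-- Even corners of the open squares of `ω` outside `A`. -/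
def Sx (A : Finset (ℤ × ℤ)) (ω : Cfg) : Set (ℤ × ℤ) :=
  {s | Even (s.1 + s.2) ∧ ∃ v, v ∉ A ∧ ω v = true ∧ Cor v s}

/-- `ω` joins a site of `S` to a corner of a square of `V` by open squares. -/
def Jn (S : Set (ℤ × ℤ)) (V : Finset (ℤ × ℤ)) (ω : Cfg) : Prop :=
  ∃ s ∈ S, ∃ u, (∃ v ∈ V, Cor v u) ∧ PC ω s u

lemma cf_in {A : Finset (ℤ × ℤ)} {ω : Cfg} {S : Finset (ℤ × ℤ)} {v : ℤ × ℤ} (h : v ∈ A) :
    cf A ω S v = decide (v ∈ S) := by simp [cf, h]

lemma loc_mono {A B : Finset (ℤ × ℤ)} (h : A ⊆ B) {F : Cfg → ℝ} (hF : Loc A F) : Loc B F :=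
  fun ω ω' h' => hF ω ω' fun v hv => h' v (h hv)

lemma pa_even (v : ℤ × ℤ) : Even ((FK.pa v).1 + (FK.pa v).2) := by
  unfold FK.pa
  by_cases h : Even (v.1 + v.2) <;> simp only [h, if_true, if_false]
  rw [Int.even_iff] at *
  omega

lemma pb_even (v : ℤ × ℤ) : Even ((FK.pb v).1 + (FK.pb v).2) := by
  unfold FK.pb
  by_cases h : Even (v.1 + v.2) <;> simp only [h, if_true, if_false] <;>
  rw [Int.even_iff] at * <;> omega

lemma pa_cor (v : ℤ × ℤ) : Cor v (FK.pa v) := by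
  unfold FK.pa Cor
  by_cases h : Even (v.1 + v.2) <;> simp [h]

lemma pb_cor (v : ℤ × ℤ) : Cor v (FK.pb v) := by
  unfold FK.pb Cor
  by_cases h : Even (v.1 + v.2) <;> simp [h]

/-- two even corners of an open square are connected -/
lemma pc_of_cor {ω : Cfg} {v s t : ℤ × ℤ} (hv : ω v = true) (hs : Cor v s) (ht : Cor v t)
    (h1 : Even (s.1 + s.2)) (h2 : Even (t.1 + t.2)) : PC ω s t := by
  by_cases h : s = t
  · subst h; exact ReflTransGen.refl
  · exact ReflTransGen.single (step_of_cor (F := op ω) hv hs ht h1 h2 h)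

lemma ind_le_of_imp {A B : Set Cfg} {τ : Cfg} (h : τ ∈ A → τ ∈ B) :
    A.indicator (1 : Cfg → ℝ) τ ≤ B.indicator 1 τ := by
  by_cases h1 : τ ∈ A
  · rw [Set.indicator_of_mem h1, Set.indicator_of_mem (h h1)]
  · rw [Set.indicator_of_notMem h1]
    exact ind_nonneg _ _

/-- **Monotone comparison without exploration.** -/
theorem mono_comp (hQ : 1 ≤ Q) {V : Finset (ℤ × ℤ)} {F : Cfg → ℝ} (hF : IncF F)
    (hF0 : ∀ ω, 0 ≤ F ω) (hL : Loc V F) : ∀ (n : ℕ) (A : Finset (ℤ × ℤ)) (ξ ξ' : Cfg),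
    A.card = n → V ⊆ A → Good ξ → Good ξ' → (∀ v, v ∉ A → ξ v = true → ξ' v = true) →
    Ex Q A ξ' (fun ω => F ω * (1 - {ω | Jn (Sx A ξ') V ω}.indicator 1 ω)) ≤ Ex Q A ξ F := by
  have hQ0 : 0 < Q := by linarith
  intro n
  induction n with
  | zero =>
    intro A ξ ξ' hn hVA hξ hξ' hle
    rw [Finset.card_eq_zero] at hn
    subst hn
    have hV : V = ∅ := Finset.subset_empty.1 hVA
    subst hV
    have h1 : ∀ ω ω' : Cfg, F ω = F ω' := fun ω ω' => hL ω ω' fun v hv => absurd hv (by simp)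
    refine (Ex_mono (G := fun _ => F ξ) hQ0 fun S _ => ?_).trans ?_
    · rw [h1 _ ξ]
      have := hF0 ξ
      have h2 := ind_nonneg {ω | Jn (Sx ∅ ξ') ∅ ω} (cf ∅ ξ' S)
      nlinarith
    · rw [← Ex_congr (F := fun _ => F ξ) (G := F) fun S _ => h1 _ _, Ex_const hQ0, Ex_const hQ0]
  | succ n ih =>
    intro A ξ ξ' hn hVA hξ hξ' hle
    by_cases he : ∃ e ∈ A, ∃ c ∈ Sx A ξ', Cor e c
    · obtain ⟨e, heA, c, hc, hec⟩ := he
      by_cases heV : e ∈ V
      · -- the event of no connection is empty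
        have h1 : ∀ ω : Cfg, F ω * (1 - {ω | Jn (Sx A ξ') V ω}.indicator 1 ω) = 0 := by
          intro ω
          have h2 : ω ∈ {ω | Jn (Sx A ξ') V ω} := ⟨c, hc, c, ⟨e, heV, hec⟩, ReflTransGen.refl⟩
          rw [Set.indicator_of_mem h2]
          simp
        simp only [h1]
        rw [Ex_const hQ0]
        exact Ex_nonneg hQ0 fun S _ => hF0 _
      · set A' := A.erase e with hA'
        have hA'A : A' ⊆ A := Finset.erase_subset _ _
        have hcard : A'.card = n := by rw [hA', Finset.card_erase_of_mem heA, hn]; rfl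
        have hVA' : V ⊆ A' := fun v hv => Finset.mem_erase.2 ⟨fun h => heV (h ▸ hv), hVA hv⟩
        have heA' : e ∉ A' := by rw [hA']; exact Finset.notMem_erase _ _
        have hnot : ∀ v, v ∉ A' → v ∉ A ∨ v = e := by
          intro v hv
          by_cases h : v = e
          · exact Or.inr h
          · exact Or.inl fun h' => hv (Finset.mem_erase.2 ⟨h, h'⟩)
        set ζ := cf A ξ ∅ with hζ
        have hζg : Good ζ := f_good.1 A ξ ∅ hξ
        -- the left side
        have hleft : Ex Q A ξ' (fun ω => F ω * (1 - {ω | Jn (Sx A ξ') V ω}.indicator 1 ω)) ≤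
            Ex Q A' ζ F := by
          rw [f_markov Q A' A ξ' _ hQ0 hA'A hξ']
          rw [← Ex_const (Q := Q) (D := A) (η := ξ') hQ0 (Ex Q A' ζ F)]
          refine Ex_mono hQ0 fun S hS => ?_
          set ω := cf A ξ' S with hω
          have hωg : Good ω := f_good.1 A ξ' S hξ'
          refine le_trans (Ex_mono hQ0 fun T hT => ?_) (ih A' ζ ω hcard hVA' hζg hωg ?_)
          · refine mul_le_mul_of_nonneg_left ?_ (hF0 _)
            refine sub_le_sub_left ?_ _
            refine ind_le_of_imp ?_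
            rintro ⟨s, ⟨hse, v, hvA', hvω, hvs⟩, u, hu, hsu⟩
            rcases hnot v hvA' with h | h
            · refine ⟨s, ⟨hse, v, h, ?_, hvs⟩, u, hu, hsu⟩
              rw [hω, cf_out h] at hvω
              exact hvω
            · subst h
              refine ⟨c, hc, u, hu, ReflTransGen.trans ?_ hsu⟩
              refine pc_of_cor (v := v) ?_ hec hvs hc.1 hse
              rw [cf_out heA']
              exact hvω
          · intro v hv hvt
            rcases hnot v hv with h | h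
            · rw [hω, cf_out h]
              rw [hζ, cf_out h] at hvt
              exact hle v h hvt
            · subst h
              rw [hζ, cf_in heA] at hvt
              simp at hvt
        refine hleft.trans ?_
        rw [f_markov Q A' A ξ F hQ0 hA'A hξ]
        rw [← Ex_const (Q := Q) (D := A) (η := ξ) hQ0 (Ex Q A' ζ F)]
        refine Ex_mono hQ0 fun S hS => ?_
        refine f_comp Q A' ζ (cf A ξ S) F hQ hζg (f_good.1 A ξ S hξ) ?_ hF
        intro v hv
        by_cases h : v ∈ A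
        · rw [hζ, cf_in h] at hv
          simp at hv
        · rw [hζ, cf_out h] at hv
          rw [cf_out h]
          exact hv
    · push Not at he
      refine (Ex_mono (G := F) hQ0 fun S _ => ?_).trans ?_
      · have h1 := ind_nonneg {ω | Jn (Sx A ξ') V ω} (cf A ξ' S)
        have h2 := hF0 (cf A ξ' S)
        nlinarith
      · refine f_comp2 Q A ξ' ξ F hQ hξ' hξ ?_ hF (loc_mono hVA hL)
        intro S hS a ha haS hpc
        have key : ∀ u, PC (cf A ξ' S) (FK.pa a) u → PC (cf A ξ S) (FK.pa a) u ∧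
            (∃ v ∈ A, Cor v u) ∧ Even (u.1 + u.2) := by
          intro u hu
          induction hu with
          | refl => exact ⟨ReflTransGen.refl, ⟨a, ha, pa_cor a⟩, pa_even a⟩
          | @tail u w _ huw ih =>
            obtain ⟨h1, ⟨v, hvA, hvu⟩, h2⟩ := ih
            have hcw := cor_of_step huw
            have hm : cf A ξ' S (min u.1 w.1, min u.2 w.2) = true := huw.2.2
            have hwe : Even (w.1 + w.2) := (FKA.even_step huw).1 h2
            by_cases hmA : (min u.1 w.1, min u.2 w.2) ∈ A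
            · refine ⟨h1.tail ⟨huw.1, huw.2.1, ?_⟩, ⟨_, hmA, hcw.2⟩, hwe⟩
              show cf A ξ S _ = true
              rw [cf_in hmA] at hm ⊢
              exact hm
            · exfalso
              rw [cf_out hmA] at hm
              exact he v hvA u ⟨h2, _, hmA, hm, hcw.1⟩ hvu
        exact (key _ hpc).1

/-- sites far from the box -/
lemma far_of_cor {v u : ℤ × ℤ} {R : ℤ} (hv : v ∉ Bq 0 R) (hu : Cor v u) : R ≤ nm u := by
  simp only [Bq, Prod.fst_zero, Prod.snd_zero, zero_sub, zero_add, Finset.mem_product,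
    Finset.mem_Ico, not_and_or, not_le, not_lt] at hv
  simp only [Cor] at hu
  simp only [nm, le_max_iff, le_abs]
  omega

lemma near_of_cor {v u : ℤ × ℤ} {r : ℤ} (hv : v ∈ Bq 0 r) (hu : Cor v u) : nm u ≤ r := by
  simp only [Bq, Prod.fst_zero, Prod.snd_zero, zero_sub, zero_add, Finset.mem_product,
    Finset.mem_Ico] at hv
  simp only [Cor] at hu
  simp only [nm, max_le_iff, abs_le]
  omega

lemma arm_of_jn {A V : Finset (ℤ × ℤ)} {ξ τ : Cfg} {r R : ℤ} (hrR : r ≤ R)
    (hξ : ∀ v, v ∉ A → ξ v = true → v ∈ Bq 0 r) (hV : ∀ v ∈ V, v ∉ Bq 0 R)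
    (h : Jn (Sx A ξ) V τ) : ArmPx 0 r R τ := by
  obtain ⟨s, ⟨hse, v, hvA, hvt, hvs⟩, u, ⟨w, hw, hwu⟩, hsu⟩ := h
  rw [armPx_iff hrR]
  refine ⟨s, u, hse, ?_, ?_, hsu⟩
  · rw [sub_zero]; exact near_of_cor (hξ v hvA hvt) hvs
  · rw [sub_zero]; exact far_of_cor (hV w hw) hwu

/-- the constant ratio -/
def Rat (Q : ℝ) (L : ℤ) : Prop := 2 ≤ L ∧ ∀ (x : ℤ × ℤ) (r R : ℤ) (D : Finset (ℤ × ℤ)) (η : Cfg)
  (G : Cfg → ℝ), 1 ≤ r → L * r ≤ R → Good η → Bq x R \ Bq x r ⊆ D → (∀ ω, 0 ≤ G ω) →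
  Ind (Bq x R \ Bq x r) G →
  Ex Q D η (fun ω => G ω * {ω | ArmPx x r R ω}.indicator 1 ω) ≤ 1 / 2 * Ex Q D η G ∧
  Ex Q D η (fun ω => G ω * {ω | ArmDx x r R ω}.indicator 1 ω) ≤ 1 / 2 * Ex Q D η G

theorem exists_rat (hQ : 1 ≤ Q) {α C : ℝ} (hα : 0 < α) (h1 : ArmDec Q α C)
    (h2 : ArmDecD Q α C) : ∃ L : ℤ, Rat Q L := by
  have hQ0 : 0 < Q := by linarith
  have h3 : Tendsto (fun x : ℝ => C * (1 / x) ^ α) atTop (𝓝 (C * 0)) := by
    refine Tendsto.const_mul C ?_
    have := tendsto_rpow_neg_atTop hα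
    refine this.congr' ?_
    filter_upwards [eventually_gt_atTop 0] with x hx
    rw [Real.rpow_neg hx.le, one_div, Real.inv_rpow hx.le]
  rw [mul_zero] at h3
  obtain ⟨x0, hx0⟩ := eventually_atTop.1 (h3.eventually (ge_mem_nhds (show (0 : ℝ) < 1 / 2 by norm_num)))
  obtain ⟨n, hn⟩ := exists_nat_ge x0
  refine ⟨max 2 n, le_max_left _ _, fun x r R D η G hr hR hη hD hG0 hG => ?_⟩
  have hr0 : (0 : ℝ) < r := by exact_mod_cast (by omega : 0 < r)
  have hL : 2 ≤ max 2 (n : ℤ) := le_max_left _ _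
  have hrR : r ≤ R := by nlinarith
  have hR0 : (0 : ℝ) < R := by exact_mod_cast (by omega : 0 < R)
  have h4 : C * ((r : ℝ) / R) ^ α ≤ 1 / 2 := by
    have h5 := hx0 (R / r) (by
      rw [le_div_iff₀ hr0]
      have h6 : ((n : ℤ) : ℝ) * r ≤ R := by
        have : (n : ℤ) * r ≤ R := by
          have := le_max_right 2 (n : ℤ)
          nlinarith
        exact_mod_cast this
      push_cast at h6
      nlinarith)
    rwa [one_div_div] at h5
  have h7 : 0 ≤ Ex Q D η G := Ex_nonneg hQ0 fun _ _ => hG0 _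
  exact ⟨(h1 x r R D η G hr hrR hη hD hG0 hG).trans (mul_le_mul_of_nonneg_right h4 h7),
    (h2 x r R D η G hr hrR hη hD hG0 hG).trans (mul_le_mul_of_nonneg_right h4 h7)⟩

/-- **Comparison for the inside.** The conditional expectation of an increasing function of the
outside is at most twice its expectation in the free box. -/
theorem inner_comp (hQ : 1 ≤ Q) {L : ℤ} (hL : Rat Q L) {D V : Finset (ℤ × ℤ)} {r : ℤ} (hr : 1 ≤ r)
    (hD : Bq 0 (L * r) ⊆ D) (hVD : V ⊆ D) (hV : ∀ v ∈ V, v ∉ Bq 0 (L * r)) {F : Cfg → ℝ}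
    (hF : IncF F) (hF0 : ∀ ω, 0 ≤ F ω) (hFV : Loc V F) {ω : Cfg} (hω : Good ω)
    (hωD : ∀ v, v ∉ D → ω v = false) : Ex Q (D \ Bq 0 r) ω F ≤ 2 * Ex Q D eta0 F := by
  have hQ0 : 0 < Q := by linarith
  obtain ⟨hL2, hrat⟩ := hL
  have hrL : r ≤ L * r := by nlinarith
  have hBB : Bq 0 r ⊆ Bq 0 (L * r) := by
    intro v hv
    simp only [Bq, Finset.mem_product, Finset.mem_Ico] at hv ⊢
    omega
  set A := D \ Bq 0 r with hA
  set ξ := cf D eta0 (Bq 0 r) with hξ
  have hξg : Good ξ := f_good.1 D eta0 _ f_good.2.1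
  have hnA : ∀ v, v ∉ A → v ∉ D ∨ v ∈ Bq 0 r := by
    intro v hv
    by_contra hcon
    push Not at hcon
    exact hv (Finset.mem_sdiff.2 hcon)
  have hξ0 : ∀ v, v ∉ D → ξ v = false := fun v hv => by rw [hξ, cf_out hv]; rfl
  have hξ1 : ∀ v ∈ Bq 0 r, ξ v = true := fun v hv => by
    rw [hξ, cf_in (hD (hBB hv))]; simpa using hv
  have hVA : V ⊆ A := fun v hv => Finset.mem_sdiff.2 ⟨hVD hv, fun h => hV v hv (hBB h)⟩
  -- from any configuration to the open one
  have h1 : Ex Q A ω F ≤ Ex Q A ξ F := by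
    have h2 : Ex Q A ω F = Ex Q A (cf A ω ∅) F := by
      refine Ex_out (fun v hv => ?_) F
      rw [cf_out hv]
    rw [h2]
    refine f_comp Q A _ ξ F hQ (f_good.1 A ω ∅ hω) hξg (fun v hv => ?_) hF
    by_cases hvA : v ∈ A
    · rw [cf_in hvA] at hv
      simp at hv
    · rw [cf_out hvA] at hv
      rcases hnA v hvA with h | h
      · rw [hωD v h] at hv
        simp at hv
      · exact hξ1 v h
  -- from the open one to any configuration
  have h3 : ∀ ζ : Cfg, Good ζ → (∀ v, v ∉ D → ζ v = false) → 1 / 2 * Ex Q A ξ F ≤ Ex Q A ζ F := by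
    intro ζ hζ hζD
    have h4 := mono_comp hQ hF hF0 hFV A.card A ζ ξ rfl hVA hζ hξg (fun v hv hvt => by
      rcases hnA v hv with h | h
      · rw [hζD v h] at hvt
        simp at hvt
      · exact hξ1 v h)
    refine le_trans ?_ h4
    have h5 := (hrat 0 r (L * r) A ξ F hr le_rfl hξg (fun v hv => by
      rw [Finset.mem_sdiff] at hv
      exact Finset.mem_sdiff.2 ⟨hD hv.1, hv.2⟩) hF0 (fun τ τ' h => hFV τ τ' fun v hv =>
        h v fun h' => hV v hv (Finset.mem_sdiff.1 h').1)).1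
    have h6 : Ex Q A ξ (fun τ => F τ * (1 - {τ | Jn (Sx A ξ) V τ}.indicator 1 τ)) =
        Ex Q A ξ F - Ex Q A ξ (fun τ => F τ * {τ | Jn (Sx A ξ) V τ}.indicator 1 τ) := by
      rw [← Ex_sub]
      refine Ex_congr fun S _ => ?_
      ring
    have h7 : Ex Q A ξ (fun τ => F τ * {τ | Jn (Sx A ξ) V τ}.indicator 1 τ) ≤
        Ex Q A ξ (fun τ => F τ * {τ | ArmPx 0 r (L * r) τ}.indicator 1 τ) := by
      refine Ex_mono hQ0 fun S _ => mul_le_mul_of_nonneg_left (ind_le_of_imp fun h => ?_) (hF0 _)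
      refine arm_of_jn hrL (fun v hv hvt => ?_) hV h
      rcases hnA v hv with h' | h'
      · rw [hξ0 v h'] at hvt
        simp at hvt
      · exact h'
    rw [h6]
    linarith
  have h8 : 1 / 2 * Ex Q A ξ F ≤ Ex Q D eta0 F := by
    rw [f_markov Q A D eta0 F hQ0 Finset.sdiff_subset f_good.2.1]
    rw [← Ex_const (Q := Q) (D := D) (η := eta0) hQ0 (1 / 2 * Ex Q A ξ F)]
    refine Ex_mono hQ0 fun S _ => h3 _ (f_good.1 D eta0 S f_good.2.1) fun v hv => ?_
    rw [cf_out hv]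
    rfl
  linarith

/-- Upper bound for the expectation of a product. -/
theorem qm_up (hQ : 1 ≤ Q) {L : ℤ} (hL : Rat Q L) {D V : Finset (ℤ × ℤ)} {r : ℤ} (hr : 1 ≤ r)
    (hD : Bq 0 (L * r) ⊆ D) (hVD : V ⊆ D) (hV : ∀ v ∈ V, v ∉ Bq 0 (L * r)) {F G : Cfg → ℝ}
    (hF : IncF F) (hF0 : ∀ ω, 0 ≤ F ω) (hFV : Loc V F) (hG0 : ∀ ω, 0 ≤ G ω) (hG : Loc (Bq 0 r) G) :
    Ex Q D eta0 (fun ω => G ω * F ω) ≤ 2 * Ex Q D eta0 F * Ex Q D eta0 G := by
  have hQ0 : 0 < Q := by linarith
  rw [markov f_markov hQ0 (A := D \ Bq 0 r) Finset.sdiff_subset f_good.2.1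
    (hG.ind Finset.disjoint_sdiff), ← Ex_mul_left]
  refine Ex_mono hQ0 fun S _ => ?_
  rw [mul_comm (2 * _)]
  refine mul_le_mul_of_nonneg_left ?_ (hG0 _)
  refine inner_comp hQ hL hr hD hVD hV hF hF0 hFV (f_good.1 D eta0 S f_good.2.1) fun v hv => ?_
  rw [cf_out hv]
  rfl

end Vale.Agent.P167.H519
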