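import Vale.Agent.P167.H519.Kappa

/-!
P167, block A-TOP: total turning of closed and of periodic self-avoiding lattice paths.
-/

namespace Vale.Agent.P167.H519

open Finset

/-- the step of the path `γ` at `i` -/
def stp (γ : ℤ → Z2) (i : ℤ) : Z2 := γ (i + 1) - γ i

/-- total number of quarter turns over `n` steps -/
def turns (γ : ℤ → Z2) (n : ℕ) : ℤ := ∑ i ∈ range n, turn (stp γ i) (stp γ (i + 1))

/-- sum over a period -/
lemma sum_shift {M : Type*} [AddCommGroup M] (f : ℤ → M) (n : ℕ) (h : ∀ i, f (i + n) = f i) :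
    ∑ i ∈ range n, f (i + 1) = ∑ i ∈ range n, f i := by
  have h1 := Finset.sum_range_succ (fun i : ℕ => f i) n
  have h2 := Finset.sum_range_succ' (fun i : ℕ => f i) n
  rw [h1] at h2
  have h3 : f (n : ℤ) = f 0 := by simpa using h 0
  simp only [Nat.cast_add, Nat.cast_one, Nat.cast_zero] at h2
  rw [h3] at h2
  exact (add_right_cancel h2).symm

lemma sum_shift_nat {M : Type*} [AddCommGroup M] (f : ℤ → M) (n : ℕ) (h : ∀ i, f (i + n) = f i)
    (m : ℕ) : ∑ i ∈ range n, f (i + m) = ∑ i ∈ range n, f i := by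
  induction m with
  | zero => simp
  | succ m ih =>
    rw [← ih, ← sum_shift (fun i => f (i + m)) n]
    · refine Finset.sum_congr rfl fun i _ => ?_
      congr 1
      push_cast
      ring
    · intro i
      rw [← h (i + m)]
      congr 1
      ring

/-- vertical move of the secant -/
def vm (γ : ℤ → Z2) (i j : ℤ) : ℤ := kap (γ j - γ i) (γ (j + 1) - γ i)

/-- horizontal move of the secant -/
def hm (γ : ℤ → Z2) (i j : ℤ) : ℤ := kap (γ j - γ i) (γ j - γ (i + 1))

lemma sq_move {γ : ℤ → Z2} (hs : ∀ i, IsStep (stp γ i)) {i j : ℤ} (h1 : γ j ≠ γ i)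
    (h2 : γ (j + 1) ≠ γ i) (h3 : γ j ≠ γ (i + 1)) (h4 : γ (j + 1) ≠ γ (i + 1)) :
    vm γ i j + hm γ i (j + 1) = hm γ i j + vm γ (i + 1) j := by
  have e1 : γ j - γ i + stp γ j = γ (j + 1) - γ i := by unfold stp; abel
  have e2 : γ (j + 1) - γ i - stp γ i = γ (j + 1) - γ (i + 1) := by unfold stp; abel
  have e3 : γ j - γ i - stp γ i = γ j - γ (i + 1) := by unfold stp; abel
  have := kap_square (v := γ j - γ i) (hs i) (hs j) (sub_ne_zero.2 h1)
    (by rw [e1]; exact sub_ne_zero.2 h2) (by rw [e1, e2]; exact sub_ne_zero.2 h4)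
    (by rw [e3]; exact sub_ne_zero.2 h3)
  rw [e1, e2, e3] at this
  unfold vm hm
  exact this

lemma corner_move {γ : ℤ → Z2} (hs : ∀ i, IsStep (stp γ i)) {i : ℤ} (h : γ (i + 2) ≠ γ i) :
    turn (stp γ i) (stp γ (i + 1)) = quart (stp γ (i + 1)) - quart (stp γ i) +
      4 * (vm γ i (i + 1) + hm γ i (i + 2)) := by
  have e1 : stp γ i + stp γ (i + 1) = γ (i + 2) - γ i := by
    unfold stp
    rw [show i + 1 + 1 = i + 2 by ring]
    abel
  have := kap_corner (hs i) (hs (i + 1)) (by rw [e1]; exact sub_ne_zero.2 h)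
  rw [this, e1]
  unfold vm hm
  rw [show i + 1 + 1 = i + 2 by ring]
  congr 3
  unfold stp
  rw [show i + 1 + 1 = i + 2 by ring]

lemma turns_eq {γ : ℤ → Z2} {n : ℕ} (hs : ∀ i, IsStep (stp γ i)) (hp : ∀ i, stp γ (i + n) = stp γ i)
    (h : ∀ i, γ (i + 2) ≠ γ i) :
    turns γ n = 4 * ∑ i ∈ range n, (vm γ i (i + 1) + hm γ i (i + 2)) := by
  unfold turns
  have e : ∀ i : ℕ, turn (stp γ i) (stp γ (i + 1)) = quart (stp γ (i + 1)) - quart (stp γ i) +
      4 * (vm γ i (i + 1) + hm γ i (i + 2)) := fun i => corner_move hs (h i)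
  rw [Finset.mul_sum, Finset.sum_congr rfl fun i _ => e i, Finset.sum_add_distrib,
    Finset.sum_sub_distrib, sum_shift (fun i => quart (stp γ i)) n fun i => by rw [hp i]]
  simp

/-- **(T2)** a periodic self-avoiding path has total turning zero -/
theorem turns_nc {γ : ℤ → Z2} {n : ℕ} (hn : 0 < n) (hs : ∀ i, IsStep (stp γ i))
    (hinj : Function.Injective γ) {V : Z2} (hV : ∀ i, γ (i + n) = γ i + V) : turns γ n = 0 := by
  have hp : ∀ i, stp γ (i + n) = stp γ i := by
    intro i
    unfold stp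
    rw [show i + n + 1 = (i + 1) + n by ring, hV, hV]
    abel
  have hne : ∀ {i j : ℤ}, i ≠ j → γ i ≠ γ j := fun h h' => h (hinj h')
  rw [turns_eq hs hp fun i => hne (by omega)]
  -- the sums along the diagonals
  have key : ∀ k : ℕ, ∑ i ∈ range n, (vm γ i (i + (k + 1)) + hm γ i (i + (k + 2))) =
      ∑ i ∈ range n, (vm γ i (i + 1) + hm γ i (i + 2)) := by
    intro k
    induction k with
    | zero => simp
    | succ k ih =>
      rw [← ih]
      have e : ∀ i : ℕ, vm γ i (i + ((k + 1 : ℕ) + 1)) + hm γ i (i + ((k + 1 : ℕ) + 2)) =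
          hm γ i (i + (k + 2)) + vm γ (i + 1) (i + 1 + (k + 1)) := by
        intro i
        have := sq_move hs (i := i) (j := i + (k + 2)) (hne (by omega)) (hne (by omega))
          (hne (by omega)) (hne (by omega))
        push_cast
        rw [show (i : ℤ) + (k + 1 + 1) = i + (k + 2) by ring,
          show (i : ℤ) + (k + 1 + 2) = i + (k + 2) + 1 by ring, this,
          show (i : ℤ) + 1 + (k + 1) = i + (k + 2) by ring]
      rw [Finset.sum_congr rfl fun i _ => e i, Finset.sum_add_distrib, Finset.sum_add_distrib,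
        sum_shift (fun i => vm γ i (i + (k + 1))) n, add_comm]
      intro i
      unfold vm
      rw [show i + n + (k + 1) = (i + (k + 1)) + n by ring,
        show i + (k + 1) + n + 1 = (i + (k + 1) + 1) + n by ring, hV, hV, hV,
        add_sub_add_right_eq_sub, add_sub_add_right_eq_sub]
  obtain ⟨m, rfl⟩ : ∃ m, n = m + 1 := ⟨n - 1, by omega⟩
  rw [← key m, Finset.sum_eq_zero, mul_zero]
  intro i _
  unfold vm hm
  have e1 : γ (i + (m + 1)) - γ i = V := by
    have := hV i
    push_cast at this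
    rw [this]
    abel
  have e2 : γ (i + (m + 1) + 1) - γ i = V + stp γ i := by
    have := hV (i + 1)
    push_cast at this
    rw [show (i : ℤ) + (m + 1) + 1 = i + 1 + (m + 1) by ring, this]
    unfold stp
    abel
  have e3 : γ (i + (m + 2)) - γ (i + 1) = V := by
    have := hV (i + 1)
    push_cast at this
    rw [show (i : ℤ) + (m + 2) = i + 1 + (m + 1) by ring, this]
    abel
  have e4 : γ (i + (m + 2)) - γ i = V + stp γ i := by
    rw [show (i : ℤ) + (m + 2) = i + (m + 1) + 1 by ring, e2]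
  rw [e1, e2, e3, e4, kap_antisymm (by
    rw [show V + stp γ i - V = stp γ i by abel]
    exact hs i)]
  ring

end Vale.Agent.P167.H519
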