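import Mathlib.Data.Int.Interval
import Mathlib.Algebra.BigOperators.Group.Finset.Basic
import Mathlib.Algebra.BigOperators.Ring.Finset
import Mathlib.Algebra.BigOperators.Intervals
import Mathlib.Tactic

/-!
P167, block A-TOP: the discrete theorem of turning tangents (Hopf) for lattice cycles.
-/

namespace Vale.Agent.P167.H519

open Finset

/-- the square lattice -/
abbrev Z2 := ℤ × ℤ

/-- unit vectors -/
def IsStep (v : Z2) : Prop := v = (1, 0) ∨ v = (-1, 0) ∨ v = (0, 1) ∨ v = (0, -1)

/-- quarter turns from the unit vector `s` to the unit vector `t` -/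
def turn (s t : Z2) : ℤ := s.1 * t.2 - s.2 * t.1

/-- `1` if `0 ≤ y` -/
def hv (y : ℤ) : ℤ := if 0 ≤ y then 1 else 0

/-- signed crossing of the half line `{(x, -1/2) : 0 < x}` by the unit step from `u` to `v` -/
def kap (u v : Z2) : ℤ := if 0 < u.1 then hv v.2 - hv u.2 else 0

/-- the number of the quarter of a unit vector -/
def quart (s : Z2) : ℤ := if s = (1, 0) then 0 else if s = (0, 1) then 1 else if s = (-1, 0) then 2
  else 3

lemma kap_antisymm {u v : Z2} (h : IsStep (v - u)) : kap u v = -kap v u := by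
  obtain ⟨a, b⟩ := u
  obtain ⟨c, d⟩ := v
  simp only [IsStep, Prod.mk_sub_mk, Prod.mk.injEq] at h
  unfold kap hv
  simp only
  rcases h with ⟨h1, h2⟩ | ⟨h1, h2⟩ | ⟨h1, h2⟩ | ⟨h1, h2⟩ <;> split_ifs <;> omega

/-- the cochain `kap` is closed away from the origin -/
lemma kap_square {v e f : Z2} (he : IsStep e) (hf : IsStep f) (h0 : v ≠ 0) (h1 : v + f ≠ 0)
    (h2 : v + f - e ≠ 0) (h3 : v - e ≠ 0) :
    kap v (v + f) + kap (v + f) (v + f - e) = kap v (v - e) + kap (v - e) (v + f - e) := by
  obtain ⟨a, b⟩ := v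
  simp only [Ne, Prod.ext_iff, Prod.fst_zero, Prod.snd_zero, Prod.fst_add, Prod.snd_add,
    Prod.fst_sub, Prod.snd_sub] at h0 h1 h2 h3
  unfold kap hv
  rcases he with rfl | rfl | rfl | rfl <;> rcases hf with rfl | rfl | rfl | rfl <;>
    simp only [Prod.fst_add, Prod.snd_add, Prod.fst_sub, Prod.snd_sub, add_zero, sub_zero,
      sub_self] at h0 h1 h2 h3 ⊢
  all_goals omega

/-- one corner of a path -/
lemma kap_corner {s t : Z2} (hs : IsStep s) (ht : IsStep t) (h : s + t ≠ 0) :
    turn s t = quart t - quart s + 4 * (kap s (s + t) + kap (s + t) t) := by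
  rcases hs with rfl | rfl | rfl | rfl <;> rcases ht with rfl | rfl | rfl | rfl <;>
    simp_all [turn, quart, kap, hv]

end Vale.Agent.P167.H519
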