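import Vale.Agent.P167.H519.Energy
import Mathlib.Analysis.Calculus.Deriv.Inv

/-!
P167: invariance of the logarithmic energy under Moebius maps.
-/

namespace Vale.Agent.P167

open MeasureTheory Set Filter Topology

namespace H519

lemma det_mul (t : ℂ) :
    ((ContinuousLinearMap.toSpanSingleton ℂ t).restrictScalars ℝ : ℂ →L[ℝ] ℂ).det = ‖t‖ ^ 2 := by
  have h : ((ContinuousLinearMap.toSpanSingleton ℂ t).restrictScalars ℝ : ℂ →L[ℝ] ℂ).det =
      LinearMap.det ((LinearMap.toSpanSingleton ℂ ℂ t).restrictScalars ℝ) := rfl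
  rw [h, LinearMap.det_restrictScalars, Algebra.norm_complex_eq]
  simp [Complex.normSq_eq_norm_sq, LinearMap.det_ring]

section

variable {a b c d : ℂ}

lemma moeb_image (hΔ : a * d - b * c ≠ 0) :
    ((fun z : ℂ => (a * z + b) / (c * z + d)) '' {z | c * z + d ≠ 0} : Set ℂ) =ᵐ[volume] univ := by
  rw [ae_eq_univ]
  refine measure_mono_null (t := {a / c}) ?_ (measure_singleton _)
  intro w hw
  rw [Set.mem_singleton_iff]
  by_contra hne
  apply hw
  have h1 : a - c * w ≠ 0 := by
    intro h
    by_cases hc : c = 0
    · rw [hc, zero_mul, sub_zero] at h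
      rw [hc, h] at hΔ
      simp at hΔ
    · apply hne
      field_simp
      linear_combination -h
  have h2 : c * ((d * w - b) / (a - c * w)) + d = (a * d - b * c) / (a - c * w) := by
    field_simp
    ring
  refine ⟨(d * w - b) / (a - c * w), ?_, ?_⟩
  · show c * ((d * w - b) / (a - c * w)) + d ≠ 0
    rw [h2]
    exact div_ne_zero hΔ h1
  · simp only
    rw [h2, div_div_eq_mul_div, div_eq_iff hΔ]
    have h3 : (d * w - b) / (a - c * w) * (a - c * w) = d * w - b := div_mul_cancel₀ _ h1
    linear_combination a * h3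

lemma moeb_cov (hΔ : a * d - b * c ≠ 0) (g : ℂ → ℝ) :
    ∫ w, g w = ∫ z in {z | c * z + d ≠ 0},
      ‖(a * d - b * c) / (c * z + d) ^ 2‖ ^ 2 * g ((a * z + b) / (c * z + d)) := by
  have hS : IsOpen {z : ℂ | c * z + d ≠ 0} :=
    isOpen_ne_fun (by fun_prop) continuous_const
  have hd : ∀ z ∈ {z : ℂ | c * z + d ≠ 0}, HasFDerivWithinAt
      (fun z : ℂ => (a * z + b) / (c * z + d))
      ((ContinuousLinearMap.toSpanSingleton ℂ ((a * d - b * c) / (c * z + d) ^ 2)).restrictScalars ℝ)
      {z : ℂ | c * z + d ≠ 0} z := by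
    intro z hz
    have h1 : HasDerivAt (fun z : ℂ => a * z + b) a z := by
      simpa using ((hasDerivAt_id z).const_mul a).add_const b
    have h2 : HasDerivAt (fun z : ℂ => c * z + d) c z := by
      simpa using ((hasDerivAt_id z).const_mul c).add_const d
    have h3 := h1.div h2 hz
    have h4 : (a * (c * z + d) - (a * z + b) * c) / (c * z + d) ^ 2 =
        (a * d - b * c) / (c * z + d) ^ 2 := by ring
    rw [h4] at h3
    exact (h3.hasFDerivAt.restrictScalars ℝ).hasFDerivWithinAt
  have hinj : InjOn (fun z : ℂ => (a * z + b) / (c * z + d)) {z : ℂ | c * z + d ≠ 0} := by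
    intro z hz w hw h
    have hz' : c * z + d ≠ 0 := hz
    have hw' : c * w + d ≠ 0 := hw
    simp only at h
    rw [div_eq_div_iff hz' hw'] at h
    have h5 : (a * d - b * c) * (z - w) = 0 := by linear_combination h
    exact sub_eq_zero.1 ((mul_eq_zero.1 h5).resolve_left hΔ)
  have h6 := integral_image_eq_integral_abs_det_fderiv_smul volume hS.measurableSet hd hinj g
  rw [setIntegral_congr_set (moeb_image hΔ), setIntegral_univ] at h6
  rw [h6]
  refine setIntegral_congr_fun hS.measurableSet fun z hz => ?_
  simp only [det_mul, smul_eq_mul, abs_pow, abs_norm]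

/-- **Invariance of the energy under Moebius maps.** -/
theorem energy_moebius (hΔ : a * d - b * c ≠ 0) {F F' : ℂ → ℝ} (hF : IsTest F)
    (hpole : ∀ z ∈ tsupport F, c * z + d ≠ 0)
    (hFF : ∀ z, c * z + d ≠ 0 →
      F z = ‖(a * d - b * c) / (c * z + d) ^ 2‖ ^ 2 * F' ((a * z + b) / (c * z + d))) :
    energy F' = energy F := by
  have hS : IsOpen {z : ℂ | c * z + d ≠ 0} :=
    isOpen_ne_fun (by fun_prop) continuous_const
  have hFc : Continuous F := hF.smooth.continuous
  have hFi : Integrable F := hFc.integrable_of_hasCompactSupport hF.supp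
  have hF0 : ∀ z, z ∉ {z : ℂ | c * z + d ≠ 0} → F z = 0 := by
    intro z hz
    by_contra h
    exact hz (hpole z (subset_tsupport F h))
  -- change of variables against `F'`
  have hcv : ∀ g : ℂ → ℝ, ∫ w, g w * F' w = ∫ z, g ((a * z + b) / (c * z + d)) * F z := by
    intro g
    rw [moeb_cov hΔ (fun w => g w * F' w)]
    have e0 : ∫ z in {z : ℂ | c * z + d ≠ 0}, g ((a * z + b) / (c * z + d)) * F z =
        ∫ z, g ((a * z + b) / (c * z + d)) * F z :=
      setIntegral_eq_integral_of_forall_compl_eq_zero (s := {z : ℂ | c * z + d ≠ 0})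
        (fun z hz => by rw [hF0 z hz, mul_zero])
    rw [← e0]
    refine setIntegral_congr_fun hS.measurableSet fun z hz => ?_
    rw [hFF z hz]
    ring
  have h1 : energy F' = ∫ z, ∫ w,
      -Real.log ‖(a * z + b) / (c * z + d) - (a * w + b) / (c * w + d)‖ * F z * F w := by
    unfold energy
    have e1 : ∀ z : ℂ, ∫ w, -Real.log ‖z - w‖ * F' z * F' w =
        (∫ w, -Real.log ‖z - (a * w + b) / (c * w + d)‖ * F w) * F' z := by
      intro z
      rw [hcv (fun w => -Real.log ‖z - w‖ * F' z), ← integral_mul_const]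
      refine integral_congr_ae (Filter.Eventually.of_forall fun w => ?_)
      simp only
      ring
    simp only [e1]
    rw [hcv]
    refine integral_congr_ae (Filter.Eventually.of_forall fun z => ?_)
    simp only
    rw [← integral_mul_const]
    refine integral_congr_ae (Filter.Eventually.of_forall fun w => ?_)
    simp only
    ring
  -- the logarithm of the distance of the images
  have h2 : ∀ z w : ℂ, c * z + d ≠ 0 → c * w + d ≠ 0 → z ≠ w →
      Real.log ‖(a * z + b) / (c * z + d) - (a * w + b) / (c * w + d)‖ =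
        Real.log ‖z - w‖ + Real.log ‖a * d - b * c‖ - Real.log ‖c * z + d‖ -
          Real.log ‖c * w + d‖ := by
    intro z w hz hw hzw
    have e1 : (a * z + b) / (c * z + d) - (a * w + b) / (c * w + d) =
        (z - w) * (a * d - b * c) / ((c * z + d) * (c * w + d)) := by
      rw [div_sub_div _ _ hz hw]
      congr 1
      ring
    have n1 := norm_ne_zero_iff.2 (sub_ne_zero.2 hzw)
    have n2 := norm_ne_zero_iff.2 hΔ
    have n3 := norm_ne_zero_iff.2 hz
    have n4 := norm_ne_zero_iff.2 hw
    rw [e1, norm_div, norm_mul, norm_mul, Real.log_div (mul_ne_zero n1 n2) (mul_ne_zero n3 n4),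
      Real.log_mul n1 n2, Real.log_mul n3 n4]
    ring
  -- the correction term
  have h3 : Integrable (fun w => Real.log ‖c * w + d‖ * F w) := by
    have e1 : Continuous (fun w => Real.log ‖c * w + d‖ * F w) := by
      rw [continuous_iff_continuousAt]
      intro w
      by_cases hw : c * w + d = 0
      · have hw' : w ∉ tsupport F := fun h => hpole w h hw
        have e2 : F =ᶠ[𝓝 w] 0 := notMem_tsupport_iff_eventuallyEq.1 hw'
        have e3 : (fun w => Real.log ‖c * w + d‖ * F w) =ᶠ[𝓝 w] fun _ => 0 := by
          filter_upwards [e2] with v hv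
          rw [hv]
          simp
        exact continuousAt_const.congr e3.symm
      · refine ContinuousAt.mul ?_ hFc.continuousAt
        refine ContinuousAt.log ?_ (norm_ne_zero_iff.2 hw)
        fun_prop
    refine e1.integrable_of_hasCompactSupport ?_
    exact hF.supp.mul_left
  set C := ∫ w, Real.log ‖c * w + d‖ * F w with hC
  have h4 : ∀ z, ∫ w, -Real.log ‖(a * z + b) / (c * z + d) - (a * w + b) / (c * w + d)‖ * F z * F w
      = (∫ w, -Real.log ‖z - w‖ * F z * F w) + F z * C := by
    intro z
    by_cases hz0 : F z = 0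
    · simp [hz0]
    have hz : c * z + d ≠ 0 := hpole z (subset_tsupport F hz0)
    have e1 : ∫ w, -Real.log ‖(a * z + b) / (c * z + d) - (a * w + b) / (c * w + d)‖ * F z * F w =
        ∫ w, (-Real.log ‖z - w‖ * F z * F w + (F z * (Real.log ‖c * w + d‖ * F w) +
          ((Real.log ‖c * z + d‖ - Real.log ‖a * d - b * c‖) * F z) * F w)) := by
      have e2 : ∀ᵐ w : ℂ, w ≠ z := by
        simp [ae_iff, measure_singleton]
      refine integral_congr_ae ?_
      filter_upwards [e2] with w hw
      by_cases hw0 : F w = 0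
      · simp [hw0]
      rw [h2 z w hz (hpole w (subset_tsupport F hw0)) (Ne.symm hw)]
      ring
    have i1 : Integrable (fun w => -Real.log ‖z - w‖ * F z * F w) :=
      ((pot_int hFc hF.supp z).const_mul (-F z)).congr
        (Filter.Eventually.of_forall fun w => by simp only; ring)
    have i3 : Integrable (fun w => F z * (Real.log ‖c * w + d‖ * F w)) := h3.const_mul _
    have i4 : Integrable (fun w =>
        (Real.log ‖c * z + d‖ - Real.log ‖a * d - b * c‖) * F z * F w) := hFi.const_mul _
    have i5 : Integrable (fun w => F z * (Real.log ‖c * w + d‖ * F w) +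
        (Real.log ‖c * z + d‖ - Real.log ‖a * d - b * c‖) * F z * F w) := i3.add i4
    rw [e1, integral_add i1 i5, integral_add i3 i4, integral_const_mul, integral_const_mul,
      hF.neutral, mul_zero, add_zero]
  rw [h1]
  simp only [h4]
  have i2 : Integrable (fun z => ∫ w, -Real.log ‖z - w‖ * F z * F w) :=
    (prod_int hFc hF.supp).integral_prod_left
  rw [integral_add i2 (hFi.mul_const _), integral_mul_const, hF.neutral, zero_mul, add_zero]
  rfl

end

end H519

end Vale.Agent.P167
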