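import Vale.Agent.P167.H519.ArmP
import Vale.Agent.P167.H519.GlueAbs

/-!
P167, block G: the one-arm exponent from F1, G1, G2, G3.
-/

namespace Vale.Agent.P167

open Finset MeasureTheory Filter Topology

namespace H519

/-- F1 in the form of two power bounds, with natural numbers -/
lemma F1_pow (hF : S_F1) {η : ℝ} (h0 : 0 < η) (h1 : η < 5 / 48) : ∃ m0 : ℕ, 2 ≤ m0 ∧ ∀ m ≥ m0,
    ∃ n0 : ℕ, ∀ n ≥ n0,
      (m : ℝ) ^ (-(5 / 48) - η) ≤ μ.real {ω | Nn (n : ℝ) ((m * n : ℕ) : ℝ) ω = 0} ∧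
      μ.real {ω | Nn (n : ℝ) ((m * n : ℕ) : ℝ) ω = 0} ≤ (m : ℝ) ^ (-(5 / 48) + η) := by
  obtain ⟨ε0, hε0, hF⟩ := hF η h0
  obtain ⟨m0, hm0⟩ := exists_nat_ge (1 / ε0)
  refine ⟨max m0 2, le_max_right _ _, fun m hm => ?_⟩
  have hm2 : 2 ≤ m := (le_max_right _ _).trans hm
  have hm0' : m0 ≤ m := (le_max_left _ _).trans hm
  have hmpos : (0 : ℝ) < m := by exact_mod_cast (by omega : 0 < m)
  have hlm : 0 < Real.log m := Real.log_pos (by exact_mod_cast (by omega : 1 < m))
  have hε : 1 / (m : ℝ) ≤ ε0 := by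
    rw [div_le_iff₀ hmpos]
    rw [div_le_iff₀ hε0] at hm0
    have : (m0 : ℝ) * ε0 ≤ m * ε0 :=
      mul_le_mul_of_nonneg_right (by exact_mod_cast hm0') hε0.le
    nlinarith
  obtain ⟨N, hN⟩ := eventually_atTop.1 (hF (1 / m) (by positivity) hε)
  refine ⟨max N 1, fun n hn => ?_⟩
  have hn1 : N ≤ m * n := ((le_max_left _ _).trans hn).trans (Nat.le_mul_of_pos_left _ (by omega))
  have h2 := hN (m * n) hn1
  have e1 : 1 / (m : ℝ) * ((m * n : ℕ) : ℝ) = n := by
    push_cast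
    field_simp
  rw [e1, one_div_one_div] at h2
  set p := μ.real {ω | Nn (n : ℝ) ((m * n : ℕ) : ℝ) ω = 0} with hp
  have hp0 : 0 ≤ p := measureReal_nonneg
  have hppos : 0 < p := by
    rcases hp0.eq_or_lt with h | h
    · rw [← h, Real.log_zero, zero_div, zero_add, abs_of_pos (by norm_num)] at h2
      linarith
    · exact h
  rw [abs_le] at h2
  have h3 : (-(5 / 48) - η) * Real.log m ≤ Real.log p := by
    rw [← le_div_iff₀ hlm]; linarith [h2.1]
  have h4 : Real.log p ≤ (-(5 / 48) + η) * Real.log m := by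
    rw [← div_le_iff₀ hlm]; linarith [h2.2]
  constructor
  · rw [Real.rpow_def_of_pos hmpos, ← Real.le_log_iff_exp_le hppos]
    linarith
  · rw [Real.rpow_def_of_pos hmpos, ← Real.log_le_iff_le_exp hppos]
    linarith

lemma H_of_F1 (hF : S_F1) (hno : ∃ k : ℤ, ∀ r R : ℤ, 1 ≤ r → r + 2 * k ≤ R →
    μ.real {ω | Nn r R ω = 0} ≤ 2 * pa (r + k) (R - k)) (har : S_armloop) (η : ℝ) (h0 : 0 < η) :
    ∃ m0 : ℕ, ∀ m ≥ m0, ∃ n0 : ℕ, ∀ n ≥ n0,
      (m : ℝ) ^ (-(5 / 48) - η) ≤ pa n (m * n : ℕ) ∧ pa n (m * n : ℕ) ≤ (m : ℝ) ^ (-(5 / 48) + η) := by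
  obtain ⟨k, hk⟩ := hno
  set η' := min (η / 2) (1 / 48) with hη'
  have h1 : 0 < η' := lt_min (by linarith) (by norm_num)
  have h2 : η' ≤ η / 2 := min_le_left _ _
  have h3 : η' ≤ 1 / 48 := min_le_right _ _
  obtain ⟨m0, hm02, hm0⟩ := F1_pow hF h1 (by linarith)
  -- `2 (m + 1)^(5/48 + η') ≤ m^(5/48 + η)` for large `m`
  have hlarge : ∀ᶠ m : ℕ in atTop,
      (m : ℝ) ^ (-(5 / 48) - η) ≤ 1 / 2 * ((m + 1 : ℕ) : ℝ) ^ (-(5 / 48) - η') := by
    have hl : Tendsto (fun n : ℕ => Real.log n) atTop atTop :=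
      Real.tendsto_log_atTop.comp tendsto_natCast_atTop_atTop
    have hl2 := (hl.const_mul_atTop (show 0 < η / 2 by linarith)).eventually_ge_atTop
      (2 * Real.log 2)
    filter_upwards [hl2, eventually_ge_atTop 1] with m h4 h5
    have hmpos : (0 : ℝ) < m := by exact_mod_cast (by omega : 0 < m)
    have hm1 : (0 : ℝ) < ((m + 1 : ℕ) : ℝ) := by exact_mod_cast (by omega : 0 < m + 1)
    have hlm : 0 ≤ Real.log m := Real.log_nonneg (by exact_mod_cast h5)
    have h6 : Real.log ((m + 1 : ℕ) : ℝ) ≤ Real.log 2 + Real.log m := by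
      rw [← Real.log_mul (by norm_num) hmpos.ne']
      refine Real.log_le_log hm1 ?_
      push_cast
      have : (1 : ℝ) ≤ m := by exact_mod_cast h5
      linarith
    have e1 : (1 / 2 : ℝ) = Real.exp (-Real.log 2) := by
      rw [Real.exp_neg, Real.exp_log (by norm_num)]
      norm_num
    rw [Real.rpow_def_of_pos hmpos, Real.rpow_def_of_pos hm1, e1, ← Real.exp_add]
    refine Real.exp_le_exp.2 ?_
    have hl2' : 0 < Real.log 2 := Real.log_pos (by norm_num)
    have h7 : (5 / 48 + η') * Real.log ((m + 1 : ℕ) : ℝ) ≤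
        (5 / 48 + η') * (Real.log 2 + Real.log m) :=
      mul_le_mul_of_nonneg_left h6 (by linarith)
    have h8 : (5 / 48 + η') * Real.log 2 ≤ 1 * Real.log 2 :=
      mul_le_mul_of_nonneg_right (by linarith) hl2'.le
    have h9 : η' * Real.log m ≤ η / 2 * Real.log m := mul_le_mul_of_nonneg_right h2 hlm
    nlinarith
  obtain ⟨m1, hm1⟩ := eventually_atTop.1 hlarge
  refine ⟨max m0 m1, fun m hm => ?_⟩
  have hmm0 : m0 ≤ m := (le_max_left _ _).trans hm
  have hmm1 : m1 ≤ m := (le_max_right _ _).trans hm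
  obtain ⟨na, hna⟩ := hm0 m hmm0
  obtain ⟨nb, hnb⟩ := hm0 (m + 1) (by omega)
  set K : ℕ := k.natAbs with hK
  refine ⟨max na (max (nb + K + 1) ((m + 2) * K + 2)), fun n hn => ⟨?_, ?_⟩⟩
  · have hn1 : nb + K + 1 ≤ n := ((le_max_left _ _).trans (le_max_right _ _)).trans hn
    have hn2 : (m + 2) * K + 2 ≤ n := ((le_max_right _ _).trans (le_max_right _ _)).trans hn
    have h4 := (hnb (n - K) (by omega)).1
    have h5 : (K : ℤ) = |k| := by rw [hK]; exact Int.natCast_natAbs k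
    have hk1 : k ≤ K := by rw [h5]; exact le_abs_self k
    have hk2 : -k ≤ K := by rw [h5]; exact neg_le_abs k
    have e1 : ((m + 1) * (n - K) : ℕ) = m * n + n - (m + 1) * K := by
      rw [Nat.mul_sub]
      congr 1
      ring
    have h6 : m * n + K ≤ (m + 1) * (n - K) := by
      rw [e1]
      have : (m + 2) * K = (m + 1) * K + K := by ring
      omega
    have hcast : (((n - K : ℕ) : ℤ) : ℝ) = ((n - K : ℕ) : ℝ) := by norm_cast
    have hcast' : ((((m + 1) * (n - K) : ℕ) : ℤ) : ℝ) = (((m + 1) * (n - K) : ℕ) : ℝ) := by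
      norm_cast
    have hmn : n ≤ m * n := Nat.le_mul_of_pos_left _ (by omega)
    have h7 := hk ((n - K : ℕ) : ℤ) (((m + 1) * (n - K) : ℕ) : ℤ) (by omega) (by
      have : ((m * n + K : ℕ) : ℤ) ≤ (((m + 1) * (n - K) : ℕ) : ℤ) := by exact_mod_cast h6
      have h8 : ((m * n : ℕ) : ℤ) + K ≤ (((m + 1) * (n - K) : ℕ) : ℤ) := by
        rw [← Nat.cast_add]; exact this
      have h9 : (n : ℤ) ≤ ((m * n : ℕ) : ℤ) := by exact_mod_cast hmn
      omega)
    rw [hcast, hcast'] at h7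
    have h8 : pa (((n - K : ℕ) : ℤ) + k) ((((m + 1) * (n - K) : ℕ) : ℤ) - k) ≤ pa n (m * n : ℕ) := by
      refine pa_mono (by omega) (by exact_mod_cast hmn) ?_
      have : ((m * n + K : ℕ) : ℤ) ≤ (((m + 1) * (n - K) : ℕ) : ℤ) := by exact_mod_cast h6
      rw [Nat.cast_add] at this
      omega
    have h9 := hm1 m hmm1
    linarith
  · have h4 : pa n (m * n : ℕ) ≤ μ.real {ω | Nn (n : ℝ) ((m * n : ℕ) : ℝ) ω = 0} := by
      refine measureReal_mono (fun ω hω => ?_)
      have := har ω n (m * n : ℕ) hω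
      simpa using this
    refine (h4.trans (hna n ((le_max_left _ _).trans hn)).2).trans ?_
    exact Real.rpow_le_rpow_of_exponent_le (by exact_mod_cast (by omega : 1 ≤ m)) (by linarith)

end H519

open H519

/-- **The one-arm exponent** -/
theorem onearm (hF : S_F1) (hno : S_noloop) (har : S_armloop) (hgl : S_glue) : S_onearm := by
  obtain ⟨c, hc, hgl⟩ := hgl
  have key := glue_abs (fun r R => pa r R) (x := 5 / 48) (c := min c 1) (by norm_num)
    (lt_min hc one_pos) (min_le_right _ _) 1 (fun n => pa_pos (by positivity))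
    (fun r R R' h1 h2 => pa_mono le_rfl (by exact_mod_cast h1) (by exact_mod_cast h2))
    (fun r r' R h1 h2 => pa_mono (by exact_mod_cast h1) (by exact_mod_cast h2) le_rfl)
    (fun t R h => by
      have := pa_indep (t := t) (R := R) (by positivity) (by exact_mod_cast h)
      simpa using this)
    (fun t R h1 h2 => by
      have h3 := hgl 0 t R le_rfl (by positivity) (by exact_mod_cast h1) (by exact_mod_cast h2)
      refine le_trans ?_ h3
      refine mul_le_mul_of_nonneg_right ?_ (pa_nonneg _ _)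
      refine mul_le_mul (min_le_left _ _) ?_ (pa_nonneg _ _) hc.le
      exact pa_mono le_rfl (by positivity) (by push_cast; omega))
    (H_of_F1 hF hno har)
  simpa [S_onearm, pa] using key

end Vale.Agent.P167
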