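import Vale.Agent.P167.Iface

/-!
P167, block A3b: outer boundary loops of finite clusters.
-/

namespace Vale.Agent.P167

open Finset
open Vale.Agent.P145.FB (PStep PConn)

namespace H519

/-- at an open square the interface turns right -/
lemma nx_open {ω : Cfg} {e : Ed} (h : ω (hdv e) = true) :
    rs (nx ω e) = rs e ∧ PStep (op ω) (ls e) (ls (nx ω e)) := by
  rcases e with ⟨x, y⟩ | ⟨x, y⟩ <;> by_cases hp : Even (x + y)
  · have e1 : Even (x + 1 + (y - 1)) := by rwa [show x + 1 + (y - 1) = x + y by ring]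
    simp only [hdv, hp, if_true] at h
    simp only [nx, hp, if_true, h, ls, rs, e1, PStep, op]
    refine ⟨by ext <;> simp, by first | omega | simp, by first | omega | simp, ?_⟩
    have : (min (x + 1) (x + 1 + 1), min (y + 1) (y - 1 + 1)) = (x + 1, y) := by
      ext <;> simp only <;> omega
    rw [this]
    exact h
  · simp only [hdv, hp, if_false] at h
    simp only [nx, hp, if_false, h, if_true, ls, rs, PStep, op]
    refine ⟨trivial, by first | omega | simp, by first | omega | simp, ?_⟩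
    have : (min (x + 1) x, min y (y + 1)) = (x, y) := by
      ext <;> simp only <;> omega
    rw [this]
    exact h
  · have e1 : ¬ Even (x - 1 + y) := by
      rw [Int.even_iff] at hp ⊢; omega
    simp only [hdv, hp, if_true] at h
    simp only [nx, hp, if_true, h, ls, rs, e1, if_false, PStep, op]
    refine ⟨by ext <;> simp, by first | omega | simp, by first | omega | simp, ?_⟩
    have : (min (x + 1) (x - 1 + 1), min (y + 1) y) = (x, y) := by
      ext <;> simp only <;> omega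
    rw [this]
    exact h
  · have e1 : Even (x + (y + 1)) := by
      rw [Int.even_iff] at hp ⊢; omega
    simp only [hdv, hp, if_false] at h
    simp only [nx, hp, if_false, h, if_true, ls, rs, e1, PStep, op]
    refine ⟨trivial, by first | omega | simp, by first | omega | simp, ?_⟩
    have : (min x (x + 1), min (y + 1) (y + 1 + 1)) = (x, y + 1) := by
      ext <;> simp only <;> omega
    rw [this]
    exact h

/-- at a closed square the interface turns left -/
lemma nx_closed {ω : Cfg} {e : Ed} (h : ω (hdv e) = false) :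
    ls (nx ω e) = ls e ∧ PStep (op ω)ᶜ (rs e) (rs (nx ω e)) := by
  rcases e with ⟨x, y⟩ | ⟨x, y⟩ <;> by_cases hp : Even (x + y)
  · have e1 : ¬ Even (x + 1 + y) := by
      rw [Int.even_iff] at hp ⊢; omega
    simp only [hdv, hp, if_true] at h
    simp only [nx, hp, if_true, h, ls, rs, e1, Bool.false_eq_true, if_false, PStep, op]
    refine ⟨trivial, by first | omega | simp, by first | omega | simp, ?_⟩
    have : (min (x + 1) (x + 1 + 1), min y (y + 1)) = (x + 1, y) := by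
      ext <;> simp only <;> omega
    rw [this]
    simp [h]
  · have e1 : ¬ Even (x + (y - 1)) ∨ Even (x + (y - 1)) := by tauto
    have e2 : Even (x + (y - 1)) := by
      rw [Int.even_iff] at hp ⊢; omega
    simp only [hdv, hp, if_false] at h
    simp only [nx, hp, if_false, h, ls, rs, e2, Bool.false_eq_true, if_true, PStep, op]
    refine ⟨by ext <;> simp, by first | omega | simp, by first | omega | simp, ?_⟩
    have : (min (x + 1) x, min (y + 1) (y - 1 + 1)) = (x, y) := by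
      ext <;> simp only <;> omega
    rw [this]
    simp [h]
  · simp only [hdv, hp, if_true] at h
    simp only [nx, hp, if_true, h, ls, rs, Bool.false_eq_true, if_false, PStep, op]
    refine ⟨trivial, by first | omega | simp, by first | omega | simp, ?_⟩
    have : (min x (x + 1), min (y + 1) y) = (x, y) := by
      ext <;> simp only <;> omega
    rw [this]
    simp [h]
  · have e1 : ¬ Even (x - 1 + (y + 1)) := by
      rw [Int.even_iff] at hp ⊢; omega
    simp only [hdv, hp, if_false] at h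
    simp only [nx, hp, if_false, h, Bool.false_eq_true, ls, rs, e1, PStep, op]
    refine ⟨by ext <;> simp, by first | omega | simp, by first | omega | simp, ?_⟩
    have : (min (x + 1) (x - 1 + 1), min (y + 1) (y + 1 + 1)) = (x, y + 1) := by
      ext <;> simp only <;> omega
    rw [this]
    simp [h]

/-- a finite invariant set of medial edges is a union of loops -/
lemma exists_loop {ω : Cfg} (E : Finset Ed) (hE : ∀ e ∈ E, nx ω e ∈ E) {e : Ed}
    (he : e ∈ E) : ∃ ℓ, IsLoop ω ℓ ∧ e ∈ ℓ ∧ ℓ ⊆ E := by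
  classical
  have hall : ∀ n, (nx ω)^[n] e ∈ E := by
    intro n
    induction n with
    | zero => exact he
    | succ n ih => rw [Function.iterate_succ_apply']; exact hE _ ih
  refine ⟨E.filter (fun e' => ∃ n, (nx ω)^[n] e = e'), ⟨e, fun e' => ?_⟩, ?_, filter_subset _ _⟩
  · rw [mem_filter]
    exact ⟨fun h => h.2, fun h => ⟨by obtain ⟨n, hn⟩ := h; rw [← hn]; exact hall n, h⟩⟩
  · rw [mem_filter]
    exact ⟨he, 0, rfl⟩

/-- every set of sites which is closed under nearest neighbours contains all sites -/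
lemma all_sites {A : Set (ℤ × ℤ)} (s0 : ℤ × ℤ) (h0 : s0 ∈ A)
    (h1 : ∀ x y, (x, y) ∈ A ↔ (x + 1, y) ∈ A) (h2 : ∀ x y, (x, y) ∈ A ↔ (x, y + 1) ∈ A)
    (s : ℤ × ℤ) : s ∈ A := by
  have h3 : ∀ (y : ℤ) (x : ℤ), (x, y) ∈ A ↔ (0, y) ∈ A := by
    intro y x
    induction x with
    | zero => rfl
    | succ n ih => rw [← ih]; exact (h1 _ _).symm
    | pred n ih =>
      rw [← ih]
      have := h1 (-(n : ℤ) - 1) y
      rwa [sub_add_cancel] at this
  have h4 : ∀ y : ℤ, ((0 : ℤ), y) ∈ A ↔ ((0 : ℤ), (0 : ℤ)) ∈ A := by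
    intro y
    induction y with
    | zero => rfl
    | succ n ih => rw [← ih]; exact (h2 _ _).symm
    | pred n ih =>
      rw [← ih]
      have := h2 0 (-(n : ℤ) - 1)
      rwa [sub_add_cancel] at this
  obtain ⟨a, b⟩ := s0
  obtain ⟨x, y⟩ := s
  rw [h3, h4, ← h4 b, ← h3 b a]
  exact h0

/-- the medial edge between two horizontal neighbours -/
lemma edge_h (x y : ℤ) : ∃ e : Ed, (ls e = (x, y) ∧ rs e = (x + 1, y) ∧ Even (x + y)) ∨
    (rs e = (x, y) ∧ ls e = (x + 1, y) ∧ ¬ Even (x + y)) := by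
  refine ⟨Sum.inr (x, y - 1), ?_⟩
  by_cases hp : Even (x + y)
  · have : ¬ Even (x + (y - 1)) := by rw [Int.even_iff] at hp ⊢; omega
    left
    simp [ls, rs, this, hp]
  · have : Even (x + (y - 1)) := by rw [Int.even_iff] at hp ⊢; omega
    right
    simp [ls, rs, this, hp]

/-- the medial edge between two vertical neighbours -/
lemma edge_v (x y : ℤ) : ∃ e : Ed, (ls e = (x, y) ∧ rs e = (x, y + 1) ∧ Even (x + y)) ∨
    (rs e = (x, y) ∧ ls e = (x, y + 1) ∧ ¬ Even (x + y)) := by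
  refine ⟨Sum.inl (x - 1, y), ?_⟩
  by_cases hp : Even (x + y)
  · have : ¬ Even (x - 1 + y) := by rw [Int.even_iff] at hp ⊢; omega
    left
    simp [ls, rs, this, hp]
  · have : Even (x - 1 + y) := by rw [Int.even_iff] at hp ⊢; omega
    right
    simp [ls, rs, this, hp]

/-- the primal site of a medial edge is even -/
lemma ls_even (e : Ed) : Even ((ls e).1 + (ls e).2) := by
  rcases e with ⟨x, y⟩ | ⟨x, y⟩ <;> by_cases hp : Even (x + y) <;> simp only [ls, hp, if_true,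
    if_false] <;> rw [Int.even_iff] at hp ⊢ <;> omega

/-- the dual site of a medial edge is odd -/
lemma rs_odd (e : Ed) : Odd ((rs e).1 + (rs e).2) := by
  rcases e with ⟨x, y⟩ | ⟨x, y⟩ <;> by_cases hp : Even (x + y) <;> simp only [rs, hp, if_true,
    if_false] <;> rw [Int.even_iff] at hp <;> rw [Int.odd_iff] <;> omega

/-- the medial edges with primal site `s` -/
def starP (s : ℤ × ℤ) : Finset Ed :=
  {Sum.inl (s.1 - 1, s.2 - 1), Sum.inl (s.1 - 1, s.2), Sum.inr (s.1 - 1, s.2 - 1),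
    Sum.inr (s.1, s.2 - 1)}

lemma mem_starP_ls (e : Ed) : e ∈ starP (ls e) := by
  rcases e with ⟨x, y⟩ | ⟨x, y⟩ <;> by_cases hp : Even (x + y) <;> simp [ls, starP, hp]

lemma mem_starP_rs (e : Ed) : e ∈ starP (rs e) := by
  rcases e with ⟨x, y⟩ | ⟨x, y⟩ <;> by_cases hp : Even (x + y) <;> simp [rs, starP, hp]

/-- the winding number vanishes far to the right -/
lemma W_far {ℓ : Finset Ed} {N : ℤ} (h : ∀ e ∈ ℓ, ∀ v, e = Sum.inr v → v.1 < N) (y : ℤ) :
    W ℓ (N, y) = 0 := by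
  unfold W
  refine Finset.sum_eq_zero fun e he => ?_
  rcases e with v | v
  · rfl
  · have := h _ he v rfl
    have h1 : ¬ (v.2 + 1 = y ∧ N ≤ v.1) := by omega
    simp only [h1, if_false]

/-- common part of the two statements: `a` and `b` are the two sides (`ls` and `rs` in one of the
two orders), `K` the cluster on the side `a`. -/
lemma outer_aux {ω : Cfg} (a b : Ed → ℤ × ℤ) (K : Finset (ℤ × ℤ))
    (hK : K.Nonempty)
    (hstar : ∀ e, e ∈ starP (a e)) (hinv : ∀ e, a e ∈ K → a (nx ω e) ∈ K)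
    (heh : ∀ x y : ℤ, ∃ e : Ed, (a e = (x, y) ∧ b e = (x + 1, y)) ∨ (b e = (x, y) ∧ a e = (x + 1, y)))
    (hev : ∀ x y : ℤ, ∃ e : Ed, (a e = (x, y) ∧ b e = (x, y + 1)) ∨ (b e = (x, y) ∧ a e = (x, y + 1)))
    (hpar : ∀ e, ∀ s ∈ K, b e ≠ s)
    (hjump : ∀ ℓ, IsLoop ω ℓ → ∀ e, (W ℓ (a e) = W ℓ (b e) ↔ e ∉ ℓ))
    (hcon : ∀ ℓ, IsLoop ω ℓ → ∀ s ∈ K, ∀ t ∈ K, W ℓ s = W ℓ t) :
    ∃ ℓ, IsLoop ω ℓ ∧ (∀ e ∈ ℓ, a e ∈ K) ∧ ∀ s ∈ K, W ℓ s ≠ 0 := by
  classical
  by_contra hcontra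
  push Not at hcontra
  have hzero : ∀ ℓ, IsLoop ω ℓ → (∀ e ∈ ℓ, a e ∈ K) → ∀ s ∈ K, W ℓ s = 0 := by
    intro ℓ h1 h2 s hs
    obtain ⟨t, ht, ht'⟩ := hcontra ℓ h1 h2
    rw [hcon ℓ h1 s hs t ht, ht']
  -- the edges adjacent to `K`
  set E : Finset Ed := (K.biUnion starP).filter (fun e => a e ∈ K) with hE
  have hEmem : ∀ e, e ∈ E ↔ a e ∈ K := by
    intro e
    rw [hE, mem_filter, mem_biUnion]
    exact ⟨fun h => h.2, fun h => ⟨⟨a e, h, hstar e⟩, h⟩⟩
  have hloop : ∀ e, a e ∈ K → ∃ ℓ, IsLoop ω ℓ ∧ e ∈ ℓ ∧ ∀ e' ∈ ℓ, a e' ∈ K := by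
    intro e he
    obtain ⟨ℓ, h1, h2, h3⟩ := exists_loop (ω := ω) E
      (fun e he => (hEmem _).2 (hinv e ((hEmem e).1 he))) ((hEmem e).2 he)
    exact ⟨ℓ, h1, h2, fun e' he' => (hEmem e').1 (h3 he')⟩
  set A : Set (ℤ × ℤ) := {s | s ∈ K ∨ ∃ ℓ, IsLoop ω ℓ ∧ (∀ e ∈ ℓ, a e ∈ K) ∧ W ℓ s ≠ 0} with hA
  have key : ∀ e, (a e ∈ A ↔ b e ∈ A) := by
    intro e
    constructor
    · rintro (h | ⟨ℓ, h1, h2, h3⟩)
      · obtain ⟨ℓ, h1, h2, h3⟩ := hloop e h
        refine Or.inr ⟨ℓ, h1, h3, fun h0 => ?_⟩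
        exact (hjump ℓ h1 e).1 (by rw [h0, hzero ℓ h1 h3 _ h]) h2
      · by_cases he : e ∈ ℓ
        · exact absurd (hzero ℓ h1 h2 _ (h2 e he)) h3
        · exact Or.inr ⟨ℓ, h1, h2, by rw [← (hjump ℓ h1 e).2 he]; exact h3⟩
    · rintro (h | ⟨ℓ, h1, h2, h3⟩)
      · exact absurd rfl (hpar e _ h)
      · by_cases he : e ∈ ℓ
        · exact Or.inl (h2 e he)
        · exact Or.inr ⟨ℓ, h1, h2, by rw [(hjump ℓ h1 e).2 he]; exact h3⟩
  obtain ⟨s0, hs0⟩ := hK
  have hall := all_sites (A := A) s0 (Or.inl hs0) (by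
    intro x y
    obtain ⟨e, ⟨h1, h2⟩ | ⟨h1, h2⟩⟩ := heh x y
    · rw [← h1, ← h2]; exact key e
    · rw [← h1, ← h2]; exact (key e).symm) (by
    intro x y
    obtain ⟨e, ⟨h1, h2⟩ | ⟨h1, h2⟩⟩ := hev x y
    · rw [← h1, ← h2]; exact key e
    · rw [← h1, ← h2]; exact (key e).symm)
  -- a site far to the right
  obtain ⟨N, hN⟩ : ∃ N : ℤ, ∀ s ∈ K, s.1 < N := by
    obtain ⟨M, hM⟩ := (K.image Prod.fst).bddAbove
    refine ⟨M + 1, fun s hs => ?_⟩
    have := hM (Finset.mem_coe.2 (mem_image_of_mem Prod.fst hs))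
    omega
  rcases hall (N, 0) with h | ⟨ℓ, h1, h2, h3⟩
  · exact absurd (hN _ h) (lt_irrefl _)
  · refine h3 (W_far (fun e he v hv => ?_) 0)
    have h4 := hN _ (h2 e he)
    have h5 := hstar e
    rw [hv] at h5 h4
    simp only [starP, mem_insert, mem_singleton, reduceCtorEq, Sum.inr.injEq, Prod.ext_iff,
      false_or] at h5
    omega

lemma conn_W {F : Set (ℤ × ℤ)} {ℓ : Finset Ed}
    {s t : ℤ × ℤ} (h : Relation.ReflTransGen (PStep F) s t)
    (hW : ∀ u, (u.1 + u.2) % 2 = (s.1 + s.2) % 2 → ∀ v, PStep F u v → W ℓ u = W ℓ v) :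
    W ℓ s = W ℓ t := by
  have key : W ℓ s = W ℓ t ∧ (t.1 + t.2) % 2 = (s.1 + s.2) % 2 := by
    induction h with
    | refl => exact ⟨rfl, rfl⟩
    | @tail u v _ huv ih =>
      refine ⟨ih.1.trans (hW u ih.2 v huv), ?_⟩
      obtain ⟨h1, h2, -⟩ := huv
      have := ih.2
      omega
  exact key.1

end H519

open H519

/-- **A3.9** -/
theorem bdP (hj : S_jump) (hs : S_sign) (hst : S_step) : S_bdP := by
  intro ω K hK hpar hcl hcon
  have hjump : ∀ ℓ, IsLoop ω ℓ → ∀ e, (W ℓ (ls e) = W ℓ (rs e) ↔ e ∉ ℓ) := by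
    intro ℓ h e
    rw [hj ω ℓ h e]
    split_ifs with h1 <;> simp [h1]
  have hc : ∀ ℓ, IsLoop ω ℓ → ∀ s ∈ K, ∀ t ∈ K, W ℓ s = W ℓ t := by
    intro ℓ h s h1 t h2
    refine conn_W (hcon s h1 t h2) fun u hu v huv => hst ω ℓ h u v (Or.inl ⟨?_, huv⟩)
    have := hpar s h1
    rw [Int.even_iff] at this ⊢
    omega
  obtain ⟨ℓ, h1, h2, h3⟩ := outer_aux (ω := ω) ls rs K hK mem_starP_ls (by
      intro e he
      cases h : ω (hdv e)
      · rw [(nx_closed h).1]; exact he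
      · exact hcl _ he _ (nx_open h).2) (by
      intro x y
      obtain ⟨e, he⟩ := edge_h x y
      exact ⟨e, by tauto⟩) (by
      intro x y
      obtain ⟨e, he⟩ := edge_v x y
      exact ⟨e, by tauto⟩) (by
      intro e s hs h
      have h1 := rs_odd e
      rw [h] at h1
      exact (Int.not_even_iff_odd.2 h1) (hpar s hs)) hjump hc
  refine ⟨ℓ, h1, h2, ?_⟩
  obtain ⟨e, he⟩ := h1
  have hmem : e ∈ ℓ := (he e).2 ⟨0, rfl⟩
  have h4 := hj ω ℓ ⟨e, he⟩ e
  rw [if_pos hmem] at h4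
  have h5 := h3 _ (h2 e hmem)
  have h6 : W ℓ (ls e) = 1 := by
    rcases (hs ω ℓ ⟨e, he⟩).1 with h | h
    · rcases h (ls e) with h | h
      · exact absurd h h5
      · exact h
    · rcases h (ls e) with h' | h'
      · exact absurd h' h5
      · rcases h (rs e) with h'' | h'' <;> omega
  intro s hs
  rw [hc ℓ ⟨e, he⟩ s hs _ (h2 e hmem), h6]

/-- **A3.9'** -/
theorem bdD (hj : S_jump) (hs : S_sign) (hst : S_step) : S_bdD := by
  intro ω K hK hpar hcl hcon
  have hjump : ∀ ℓ, IsLoop ω ℓ → ∀ e, (W ℓ (rs e) = W ℓ (ls e) ↔ e ∉ ℓ) := by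
    intro ℓ h e
    rw [hj ω ℓ h e]
    split_ifs with h1 <;> simp [h1]
  have hc : ∀ ℓ, IsLoop ω ℓ → ∀ s ∈ K, ∀ t ∈ K, W ℓ s = W ℓ t := by
    intro ℓ h s h1 t h2
    refine conn_W (hcon s h1 t h2) fun u hu v huv => hst ω ℓ h u v (Or.inr ⟨?_, huv⟩)
    have := hpar s h1
    rw [Int.odd_iff] at this ⊢
    omega
  obtain ⟨ℓ, h1, h2, h3⟩ := outer_aux (ω := ω) rs ls K hK mem_starP_rs (by
      intro e he
      cases h : ω (hdv e)
      · exact hcl _ he _ (nx_closed h).2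
      · rw [(nx_open h).1]; exact he) (by
      intro x y
      obtain ⟨e, he⟩ := edge_h x y
      exact ⟨e, by tauto⟩) (by
      intro x y
      obtain ⟨e, he⟩ := edge_v x y
      exact ⟨e, by tauto⟩) (by
      intro e s hs h
      have h1 := ls_even e
      rw [h] at h1
      exact (Int.not_even_iff_odd.2 (hpar s hs)) h1) hjump hc
  refine ⟨ℓ, h1, h2, ?_⟩
  obtain ⟨e, he⟩ := h1
  have hmem : e ∈ ℓ := (he e).2 ⟨0, rfl⟩
  have h4 := hj ω ℓ ⟨e, he⟩ e
  rw [if_pos hmem] at h4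
  have h5 := h3 _ (h2 e hmem)
  have h6 : W ℓ (rs e) = -1 := by
    rcases (hs ω ℓ ⟨e, he⟩).1 with h | h
    · rcases h (rs e) with h' | h'
      · exact absurd h' h5
      · rcases h (ls e) with h'' | h'' <;> omega
    · rcases h (rs e) with h' | h'
      · exact absurd h' h5
      · exact h'
  intro s hs
  rw [hc ℓ ⟨e, he⟩ s hs _ (h2 e hmem), h6]

end Vale.Agent.P167
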