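import Vale.Agent.P167.H519.RcDefs
import Vale.Agent.P167.H519.RcMerge
import Vale.Agent.P167.H519.GLim
import Vale.Agent.P167.FK.Flip

/-!
# P167: the random-cluster model on boxes of `ℤ²` and the loop weights
-/

namespace Vale.Agent.P167.H519

open Finset Filter Topology MeasureTheory Relation Vale.Agent.P167.FK
open Vale.Agent.P145.FB (PStep PConn)

/-- the edge of a square -/
def eg1 (v : ℤ × ℤ) : Sym2 (ℤ × ℤ) := s(ea v, eb v)

lemma eg1_inj : Function.Injective eg1 := fun _ _ h => ea_eb_inj h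

lemma eg1_sqr {u v : ℤ × ℤ} (h : sqLat.Adj u v) : eg1 (sqr (rot u) (rot v)) = s(u, v) := edge_sqr h

lemma eg1_eq {m u v : ℤ × ℤ} (h : eg1 m = s(u, v)) : m = sqr (rot u) (rot v) := by
  have h0 : sqLat.Adj u v := by
    have h1 := adj_ea_eb m
    have h2 : s(ea m, eb m) = s(u, v) := h
    rw [Sym2.eq_iff] at h2
    rcases h2 with ⟨h3, h4⟩ | ⟨h3, h4⟩
    · rw [← h3, ← h4]; exact h1
    · rw [← h3, ← h4]; exact h1.symm
  exact eg1_inj (h.trans (eg1_sqr h0).symm)

lemma mem_boxV {N : ℕ} {u : ℤ × ℤ} : u ∈ boxV N ↔ max |u.1| |u.2| ≤ N := by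
  unfold boxV
  rw [Finset.mem_product, Finset.mem_Icc, Finset.mem_Icc, max_le_iff, abs_le, abs_le]

lemma mem_boxE {N : ℕ} {u v : ℤ × ℤ} :
    s(u, v) ∈ boxE N ↔ u ∈ boxV N ∧ v ∈ boxV N ∧ sqLat.Adj u v := by
  simp only [boxE, Finset.mem_filter, Finset.mk_mem_sym2_iff]
  constructor
  · rintro ⟨⟨h1, h2⟩, h3⟩
    exact ⟨h1, h2, h3⟩
  · rintro ⟨h1, h2, h3⟩
    exact ⟨⟨h1, h2⟩, h3⟩

/-- the squares of the box -/
noncomputable def sqD (N : ℕ) : Finset (ℤ × ℤ) := (boxE N).preimage eg1 eg1_inj.injOn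

lemma mem_sqD {N : ℕ} {v : ℤ × ℤ} : v ∈ sqD N ↔ eg1 v ∈ boxE N := by
  unfold sqD
  rw [Finset.mem_preimage]

/-- the edges of a set of squares -/
noncomputable def eg (S : Finset (ℤ × ℤ)) : Finset (Sym2 (ℤ × ℤ)) := S.map ⟨eg1, eg1_inj⟩

lemma mem_eg {S : Finset (ℤ × ℤ)} {v : ℤ × ℤ} : eg1 v ∈ eg S ↔ v ∈ S := by
  unfold eg
  rw [Finset.mem_map]
  constructor
  · rintro ⟨w, hw, h⟩
    rwa [← eg1_inj h]
  · intro h
    exact ⟨v, h, rfl⟩

lemma mem_eg' {S : Finset (ℤ × ℤ)} {u v : ℤ × ℤ} (h : sqLat.Adj u v) :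
    s(u, v) ∈ eg S ↔ sqr (rot u) (rot v) ∈ S := by
  rw [← eg1_sqr h, mem_eg]

/-- the boundary conditions -/
def etaw (w : Bool) : Cfg := if w then eta1 else eta0

lemma etaw_good (w : Bool) : Good (etaw w) := by
  cases w
  · exact f_good.2.1
  · exact f_good.2.2

lemma sqr_mem {N : ℕ} {u v : ℤ × ℤ} (h : sqLat.Adj u v) :
    sqr (rot u) (rot v) ∈ sqD N ↔ u ∈ boxV N ∧ v ∈ boxV N := by
  rw [mem_sqD, eg1_sqr h, mem_boxE]
  tauto

lemma step_rot {ω : Cfg} {u v : ℤ × ℤ} :
    PStep (op ω) (rot u) (rot v) ↔ sqLat.Adj u v ∧ ω (sqr (rot u) (rot v)) = true := by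
  rw [adj_rot]
  constructor
  · rintro ⟨h1, h2, h3⟩
    exact ⟨⟨h1, h2⟩, h3⟩
  · rintro ⟨⟨h1, h2⟩, h3⟩
    exact ⟨h1, h2, h3⟩

section

variable {N : ℕ} {S : Finset (ℤ × ℤ)}

/-- steps outside of the box are open for wired boundary conditions -/
lemma out_step {u v : ℤ × ℤ} (h : sqLat.Adj u v) (hn : ¬ (u ∈ boxV N ∧ v ∈ boxV N)) :
    PStep (op (cf (sqD N) eta1 S)) (rot u) (rot v) := by
  rw [step_rot]
  refine ⟨h, ?_⟩
  have h1 : sqr (rot u) (rot v) ∉ sqD N := fun h2 => hn ((sqr_mem h).1 h2)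
  rw [FKA.cf_out h1]
  rfl

lemma col {x : ℤ} (hx : (N : ℤ) < |x|) (y : ℤ) (n : ℕ) :
    PC (cf (sqD N) eta1 S) (rot (x, y)) (rot (x, y + n)) := by
  induction n with
  | zero =>
    simp only [Nat.cast_zero, add_zero]
    exact ReflTransGen.refl
  | succ n ih =>
    refine ih.tail (out_step ?_ ?_)
    · rw [adj_iff]
      push_cast
      omega
    · rintro ⟨h1, -⟩
      rw [mem_boxV, max_le_iff] at h1
      simp only at h1
      omega

lemma row {y : ℤ} (hy : (N : ℤ) < |y|) (x : ℤ) (n : ℕ) :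
    PC (cf (sqD N) eta1 S) (rot (x, y)) (rot (x + n, y)) := by
  induction n with
  | zero =>
    simp only [Nat.cast_zero, add_zero]
    exact ReflTransGen.refl
  | succ n ih =>
    refine ih.tail (out_step ?_ ?_)
    · rw [adj_iff]
      push_cast
      omega
    · rintro ⟨h1, -⟩
      rw [mem_boxV, max_le_iff] at h1
      simp only at h1
      omega

lemma col' {x : ℤ} (hx : (N : ℤ) < |x|) {y y' : ℤ} (h : y ≤ y') :
    PC (cf (sqD N) eta1 S) (rot (x, y)) (rot (x, y')) := by
  have := col (N := N) (S := S) hx y (y' - y).toNat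
  have e : y + ((y' - y).toNat : ℤ) = y' := by omega
  rwa [e] at this

lemma row' {y : ℤ} (hy : (N : ℤ) < |y|) {x x' : ℤ} (h : x ≤ x') :
    PC (cf (sqD N) eta1 S) (rot (x, y)) (rot (x', y)) := by
  have := row (N := N) (S := S) hy x (x' - x).toNat
  have e : x + ((x' - x).toNat : ℤ) = x' := by omega
  rwa [e] at this

/-- the boundary is connected outside of the box -/
lemma bdry_corner {u : ℤ × ℤ} (hu : max |u.1| |u.2| = N) :
    PC (cf (sqD N) eta1 S) (rot u) (rot (N + 1, N + 1)) := by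
  obtain ⟨a, b⟩ := u
  simp only at hu
  have ha : |a| ≤ N := hu ▸ le_max_left _ _
  have hb : |b| ≤ N := hu ▸ le_max_right _ _
  rw [abs_le] at ha hb
  have hout : ∀ x y : ℤ, ((N : ℤ) < |x| ∨ (N : ℤ) < |y|) → (x, y) ∉ boxV N := by
    intro x y h h1
    rw [mem_boxV, max_le_iff] at h1
    simp only at h1
    omega
  have hN1 : (N : ℤ) < |(N : ℤ) + 1| := by rw [abs_of_nonneg (by positivity)]; omega
  have hN2 : (N : ℤ) < |-(N : ℤ) - 1| := by
    rw [show -(N : ℤ) - 1 = -((N : ℤ) + 1) by ring, abs_neg]; exact hN1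
  have hcase : a = N ∨ a = -N ∨ b = N ∨ b = -N := by
    rcases max_choice |a| |b| with h | h
    · rw [h] at hu
      rcases abs_choice a with h' | h' <;> omega
    · rw [h] at hu
      rcases abs_choice b with h' | h' <;> omega
  rcases hcase with h | h | h | h
  · refine ReflTransGen.head (out_step (v := (N + 1, b)) ?_ fun h1 => hout _ _ (Or.inl hN1) h1.2)
      (col' hN1 (by omega))
    rw [adj_iff]; left; exact ⟨by dsimp only; omega, rfl⟩
  · refine ReflTransGen.head (out_step (v := (-N - 1, b)) ?_ fun h1 => hout _ _ (Or.inl hN2) h1.2)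
      ((col' hN2 (y' := N + 1) (by omega)).trans (row' hN1 (by omega)))
    rw [adj_iff]; right; left; exact ⟨by dsimp only; omega, rfl⟩
  · refine ReflTransGen.head (out_step (v := (a, N + 1)) ?_ fun h1 => hout _ _ (Or.inr hN1) h1.2)
      (row' hN1 (by omega))
    rw [adj_iff]; right; right; left; exact ⟨rfl, by dsimp only; omega⟩
  · refine ReflTransGen.head (out_step (v := (a, -N - 1)) ?_ fun h1 => hout _ _ (Or.inr hN2) h1.2)
      ((row' hN2 (x' := N + 1) (by omega)).trans (col' hN1 (by omega)))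
    rw [adj_iff]; right; right; right; exact ⟨rfl, by dsimp only; omega⟩

/-- Connections in the graph of the box and connections of the loop model. -/
lemma reach_pc (hS : S ⊆ sqD N) (w : Bool) (x y : {u // u ∈ boxV N}) :
    (rcGraph N w (eg S)).Reachable x y ↔ PC (cf (sqD N) (etaw w) S) (rot x) (rot y) := by
  constructor
  · intro h
    rw [SimpleGraph.reachable_iff_reflTransGen] at h
    induction h with
    | refl => exact ReflTransGen.refl
    | @tail a b _ hab ih =>
      refine ih.trans ?_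
      obtain ⟨hne, h1 | ⟨hw, h2, h3⟩⟩ := hab
      · obtain ⟨m, hm, hme⟩ := Finset.mem_map.1 h1
        have hm' : eg1 m = s(a.1, b.1) := hme
        have h4 := eg1_eq hm'
        have h5 : sqLat.Adj a.1 b.1 := by
          have := hS hm
          rw [mem_sqD, hm', mem_boxE] at this
          exact this.2.2
        refine ReflTransGen.single (step_rot.2 ⟨h5, ?_⟩)
        rw [← h4, cf_in (hS hm)]
        simpa using hm
      · subst hw
        have e1 : etaw true = eta1 := rfl
        rw [e1]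
        exact (bdry_corner h2).trans (conn_symm (bdry_corner h3))
  · intro h
    have key : ∀ t, PC (cf (sqD N) (etaw w) S) (rot x) t → ∀ z, rot z = t →
        (∀ hz : z ∈ boxV N, (rcGraph N w (eg S)).Reachable x ⟨z, hz⟩) ∧
        (z ∉ boxV N → w = true ∧ ∀ b : {u // u ∈ boxV N}, max |b.1.1| |b.1.2| = N →
          (rcGraph N w (eg S)).Reachable x b) := by
      intro t ht
      induction ht with
      | refl =>
        intro z hz
        have hzx : z = x.1 := rot_inj hz
        subst hzx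
        exact ⟨fun _ => SimpleGraph.Reachable.refl _, fun h => absurd x.2 h⟩
      | @tail a b ha hab ih =>
        intro z hz
        have hp : Even (a.1 + a.2) := by
          have := parity_conn ha
          rw [Int.even_iff, this]
          simp only [rot]
          omega
        obtain ⟨z0, hz0⟩ := exists_rot hp
        obtain ⟨ih1, ih2⟩ := ih z0 hz0
        rw [← hz0, ← hz, step_rot] at hab
        obtain ⟨hadj, hop⟩ := hab
        have hbd : ∀ s t : ℤ × ℤ, sqLat.Adj s t → s ∈ boxV N → t ∉ boxV N →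
            max |s.1| |s.2| = N := by
          intro s t hst hs ht
          rw [mem_boxV] at hs ht
          rw [adj_iff] at hst
          refine le_antisymm hs ?_
          by_contra hcon
          apply ht
          have h1 : max |s.1| |s.2| ≤ (N : ℤ) - 1 := by omega
          rw [max_le_iff, abs_le, abs_le] at h1 ⊢
          omega
        have hjoin : w = true → ∀ s b : {u // u ∈ boxV N}, max |s.1.1| |s.1.2| = N →
            max |b.1.1| |b.1.2| = N → (rcGraph N w (eg S)).Reachable s b := by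
          intro hw s b hs hb
          by_cases hsb : s = b
          · subst hsb; exact SimpleGraph.Reachable.refl _
          · exact SimpleGraph.Adj.reachable ⟨hsb, Or.inr ⟨hw, hs, hb⟩⟩
        by_cases hz0b : z0 ∈ boxV N
        · by_cases hzb : z ∈ boxV N
          · refine ⟨fun hz => (ih1 hz0b).trans ?_, fun h => absurd hzb h⟩
            have hm : sqr (rot z0) (rot z) ∈ sqD N := (sqr_mem hadj).2 ⟨hz0b, hzb⟩
            rw [cf_in hm] at hop
            have hop' : sqr (rot z0) (rot z) ∈ S := by simpa using hop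
            refine SimpleGraph.Adj.reachable ⟨fun h => hadj.ne (congrArg Subtype.val h),
              Or.inl ((mem_eg' hadj).2 hop')⟩
          · have hm : sqr (rot z0) (rot z) ∉ sqD N := fun h => hzb ((sqr_mem hadj).1 h).2
            rw [FKA.cf_out hm] at hop
            have hw : w = true := by
              cases w
              · simp [etaw, eta0] at hop
              · rfl
            refine ⟨fun h => absurd h hzb, fun _ => ⟨hw, fun b hb => (ih1 hz0b).trans ?_⟩⟩
            exact hjoin hw ⟨z0, hz0b⟩ b (hbd z0 z hadj hz0b hzb) hb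
        · obtain ⟨hw, ih3⟩ := ih2 hz0b
          refine ⟨fun hz => ih3 ⟨z, hz⟩ (hbd z z0 hadj.symm hz hz0b), fun _ => ⟨hw, ih3⟩⟩
    exact (key _ h y.1 rfl).1 y.2

end

end Vale.Agent.P167.H519
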