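import Vale.Agent.P167.H45.Mom
import Vale.Agent.P167.H519.ArmLoop

/-!
P167: loops around the origin which straddle a circle; exponential moments over many scales.
-/

namespace Vale.Agent.P167.H519

open Finset Filter Topology MeasureTheory ProbabilityTheory
open Vale.Agent.P167.H562 (Em Em_mono)
open Vale.Agent.P167.H45 (S_crossL Em_cross count_le cross_many far_point grid_fin LV LV_fin
  LV_ncard box_fin gp)

/-- The loops around the origin which visit squares at distance `≤ b` and `≥ b`. -/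
def StS (b : ℤ) (ω : Cfg) : Set (Finset Ed) :=
  {ℓ | IsLoop ω ℓ ∧ W ℓ 0 ≠ 0 ∧ (∃ v ∈ vs ℓ, nm v ≤ b) ∧ ∃ v ∈ vs ℓ, b ≤ nm v}

/-- Their number. -/
noncomputable def St (b : ℤ) (ω : Cfg) : ℕ := (StS b ω).ncard

theorem StS_fin (h2 : S_two) (b : ℤ) (ω : Cfg) : (StS b ω).Finite := by
  obtain ⟨B, hB⟩ := box_fin 0 b
  refine (LV_fin h2 B ω).subset ?_
  rintro ℓ ⟨h1, -, ⟨v, hv, hvb⟩, -⟩
  exact ⟨h1, v, hv, (hB v).2 (by simpa using hvb)⟩

theorem St_meas (h2 : S_two) (hl : S_loc) (b : ℤ) : Measurable (St b) := by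
  classical
  obtain ⟨B, hB⟩ := box_fin 0 b
  have e : St b = fun ω => Set.ncard {ℓ | ℓ ∈ LV B ω ∧ (W ℓ 0 ≠ 0 ∧ ∃ v ∈ vs ℓ, b ≤ nm v)} := by
    ext ω
    unfold St
    congr 1
    ext ℓ
    simp only [StS, Set.mem_ofPred_eq, LV, hB, sub_zero]
    constructor
    · rintro ⟨h1, h3, h4, h5⟩
      exact ⟨⟨h1, h4⟩, h3, h5⟩
    · rintro ⟨⟨h1, h4⟩, h3, h5⟩
      exact ⟨h1, h3, h4, h5⟩
  rw [e]
  exact H45.meas_count h2 hl B _

/-- a straddling loop visits a square at distance exactly `b` -/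
theorem exists_on (hcon : S_con) {b : ℤ} {ω : Cfg} {ℓ : Finset Ed} (h : ℓ ∈ StS b ω) :
    ∃ p ∈ vs ℓ, nm p = b := by
  obtain ⟨h1, -, ⟨v, hv, hvb⟩, ⟨w, hw, hwb⟩⟩ := h
  by_contra hcon'
  push Not at hcon'
  obtain ⟨u, hu, u', hu', h3, h4, h5⟩ := hcon ω ℓ h1 {v | nm v ≤ b}
    ⟨v, hv, hvb⟩ ⟨w, hw, by
      show ¬ nm w ≤ b
      have := hcon' w hw
      omega⟩
  have h6 := hcon' u hu
  have h3' : nm u ≤ b := h3
  have h4' : ¬ nm u' ≤ b := h4
  have h7 : nm u' ≤ nm u + 1 := by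
    have h8 : |u.1 - u'.1| + |u.2 - u'.2| = 1 := h5
    have h9 := (nm_le (z := u) (n := nm u)).1 le_rfl
    rw [nm_le]
    have a1 := abs_nonneg (u.1 - u'.1)
    have a2 := abs_nonneg (u.2 - u'.2)
    have a3 := abs_le.1 (show |u.1 - u'.1| ≤ 1 by omega)
    have a4 := abs_le.1 (show |u.2 - u'.2| ≤ 1 by omega)
    omega
  omega

theorem str_Em (hX : S_crossL) (hcon : S_con) (h2 : S_two) (ho : S_out) (s : ℝ) :
    ∃ C : ℝ, ∃ b0 : ℤ, 0 ≤ C ∧ 1 ≤ b0 ∧ ∀ (b : ℕ → ℤ), (∀ j, b0 ≤ b j) →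
      (∀ j, 4 * b j ≤ b (j + 1)) → ∀ K : ℕ,
      Em μ (fun ω => s * ∑ j ∈ range K, (St (b j) ω : ℝ)) ≤ ENNReal.ofReal (Real.exp (K * C)) := by
  classical
  obtain ⟨k, l, C0, hk, hll, h⟩ := hX
  choose! Z hZ1 hZ2 hZ3 using h
  obtain ⟨θ, c0, hθ, hc0, hEm⟩ := Em_cross hk hll hZ1 hZ3
  obtain ⟨n, hn⟩ := exists_nat_ge (|s| / θ)
  have hsn : |s| ≤ θ * (n + 1 : ℕ) := by
    rw [div_le_iff₀ hθ] at hn
    push_cast
    nlinarith
  set N : ℕ := n + 1 with hN
  have hN1 : 1 ≤ N := by omega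
  set M0 : ℤ := 4 * (k + 4) * N with hM0
  have hN1' : (1 : ℤ) ≤ N := by exact_mod_cast hN1
  have hM0pos : 0 < M0 := by positivity
  set D : ℝ := ((8 * M0 + 2 : ℤ) : ℝ) ^ 2 with hD
  have hD0 : 0 ≤ D := by positivity
  refine ⟨D * c0, M0, by positivity, by omega, fun b hb hb4 K => ?_⟩
  have hbpos : ∀ j, 0 < b j := fun j => hM0pos.trans_le (hb j)
  -- the mesh
  set r : ℕ → ℤ := fun j => b j / M0 with hr
  have hr1 : ∀ j, 1 ≤ r j := fun j => by
    rw [hr]
    exact (Int.le_ediv_iff_mul_le hM0pos).2 (by rw [one_mul]; exact hb j)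
  have hrb : ∀ j, M0 * r j ≤ b j := fun j => by
    rw [mul_comm]; exact Int.ediv_mul_le _ hM0pos.ne'
  have hrb' : ∀ j, b j < 2 * (M0 * r j) := fun j => by
    have h1 := Int.lt_ediv_add_one_mul_self (b j) hM0pos
    have h3 : b j < (r j + 1) * M0 := h1
    have h4 := hr1 j
    nlinarith
  have hgrid := fun j : ℕ => grid_fin 0 (r := r j) (P := 2 * b j) (hr1 j)
    (by have := hbpos j; omega)
  choose J hJ1 hJ2 using hgrid
  have hJ2' : ∀ j, ((J j).card : ℝ) ≤ D := by
    intro j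
    have h3 := hJ2 j
    have h4 : (2 * (2 * b j)) / r j ≤ 8 * M0 := by
      have : (2 * (2 * b j)) / r j < 8 * M0 + 1 := by
        rw [Int.ediv_lt_iff_lt_mul (by have := hr1 j; omega)]
        have h5 := hrb' j
        have h6 := hr1 j
        nlinarith
      omega
    have h5 : 0 ≤ (2 * (2 * b j)) / r j :=
      Int.ediv_nonneg (by have := hbpos j; omega) (by have := hr1 j; omega)
    have h6 : ((2 * (2 * b j)) / r j + 2) ^ 2 ≤ (8 * M0 + 2) ^ 2 :=
      pow_le_pow_left₀ (by omega) (by omega) 2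
    rw [hD]
    exact_mod_cast h3.trans h6
  let I : Finset (ℕ × (ℤ × ℤ)) := (range K).biUnion fun j =>
    ((J j).filter (fun z => 3 * b j ≤ 4 * nm (gp (r j) z) ∧
      4 * nm (gp (r j) z) ≤ 5 * b j)).image (fun z => (j, z))
  have hImem : ∀ i : ℕ × (ℤ × ℤ), i ∈ I ↔ i.1 ∈ range K ∧ i.2 ∈ J i.1 ∧
      3 * b i.1 ≤ 4 * nm (gp (r i.1) i.2) ∧ 4 * nm (gp (r i.1) i.2) ≤ 5 * b i.1 := by
    rintro ⟨j, z⟩
    simp only [I, Finset.mem_biUnion, Finset.mem_image, Finset.mem_filter, Prod.mk.injEq]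
    constructor
    · rintro ⟨j', h3, z', ⟨h4, h5⟩, rfl, rfl⟩
      exact ⟨h3, h4, h5⟩
    · rintro ⟨h3, h4, h5⟩
      exact ⟨j, h3, z, ⟨h4, h5⟩, rfl, rfl⟩
  have hIcard : (I.card : ℝ) ≤ (K : ℝ) * D := by
    have h3 : I.card ≤ ∑ j ∈ range K, (J j).card := by
      refine Finset.card_biUnion_le.trans (Finset.sum_le_sum fun j _ => ?_)
      exact Finset.card_image_le.trans (Finset.card_filter_le _ _)
    calc (I.card : ℝ) ≤ ∑ j ∈ range K, ((J j).card : ℝ) := by exact_mod_cast h3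
      _ ≤ ∑ _j ∈ range K, D := Finset.sum_le_sum fun j _ => hJ2' j
      _ = _ := by rw [Finset.sum_const, nsmul_eq_mul, card_range]
  have hkr : ∀ j, 4 * (k * r j) ≤ b j := by
    intro j
    have h1 := hrb j
    have h3 := hr1 j
    rw [hM0] at h1
    have h4 : k * r j ≤ (k + 4) * N * r j := by
      have : k ≤ (k + 4) * N := by nlinarith
      exact mul_le_mul_of_nonneg_right this (by omega)
    linarith
  have hbox : ∀ i ∈ I, ∀ v, nm (v - gp (r i.1) i.2) ≤ k * r i.1 →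
      b i.1 ≤ 2 * nm v ∧ 2 * nm v ≤ 3 * b i.1 := by
    intro i hi v hv
    obtain ⟨-, -, h3, h4⟩ := (hImem i).1 hi
    have h5 : nm v ≤ nm (v - gp (r i.1) i.2) + nm (gp (r i.1) i.2) := by
      simpa using H45.nm_add_le (v - gp (r i.1) i.2) (gp (r i.1) i.2)
    have h6 : nm (gp (r i.1) i.2) ≤ nm (gp (r i.1) i.2 - v) + nm v := by
      simpa using H45.nm_add_le (gp (r i.1) i.2 - v) v
    rw [H45.nm_sub_comm] at h6
    have h7 := hkr i.1
    constructor <;> linarith
  have hmono : ∀ i j : ℕ, i < j → 4 * b i ≤ b j := by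
    intro i j hij
    induction j, hij using Nat.le_induction with
    | base => exact hb4 i
    | succ j _ ih =>
      have := hb4 j
      have := hbpos j
      omega
  have hdisj : ∀ i ∈ I, ∀ i' ∈ I, i.1 < i'.1 →
      Disjoint {v | nm (v - gp (r i.1) i.2) ≤ k * r i.1}
        {v | nm (v - gp (r i'.1) i'.2) ≤ k * r i'.1} := by
    intro i hi i' hi' hlt
    rw [Set.disjoint_left]
    intro v h4 h5
    have h6 := (hbox i hi v h4).2
    have h7 := (hbox i' hi' v h5).1
    have h8 := hmono _ _ hlt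
    have h9 := hbpos i.1
    linarith
  have hEmI := hEm r hr1 I (fun i hi i' hi' hne _ => by
      rcases lt_or_gt_of_ne hne with h3 | h3
      · exact hdisj i hi i' hi' h3
      · exact (hdisj i' hi' i hi h3).symm)
  have hle : ∀ ω, s * ∑ j ∈ range K, (St (b j) ω : ℝ) ≤
      θ * ∑ i ∈ I, (Z (gp (r i.1) i.2) (r i.1) ω : ℝ) := by
    intro ω
    have hone : ∀ j ∈ range K, (N : ℝ) * (St (b j) ω : ℝ) ≤
        ∑ i ∈ I.filter (fun i => i.1 = j), (Z (gp (r i.1) i.2) (r i.1) ω : ℝ) := by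
      intro j hj
      have hcount := count_le h2 (k := k) (I.filter (fun i => i.1 = j))
        (fun i => gp (r i.1) i.2) (fun i => r i.1)
        (fun i => Z (gp (r i.1) i.2) (r i.1) ω) (ω := ω)
        (fun i _ => hZ2 (gp (r i.1) i.2) (r i.1) (hr1 _) ω)
        (StS_fin h2 (b j) ω) (fun ℓ hℓ => hℓ.1) (n := N) (fun ℓ hℓ => by
          obtain ⟨p, hp, hpb⟩ := exists_on hcon hℓ
          obtain ⟨q, hq, hpq⟩ := far_point ho hℓ.1 hℓ.2.1 hp
          have h7 : (k + 3) * r j * (N : ℕ) < nm (q - p) := by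
            have h8 := hrb j
            have h9 := hr1 j
            have h10 : 4 * ((k + 3) * r j * N) < M0 * r j := by
              rw [hM0]
              have : 0 < r j * (N : ℤ) := by positivity
              nlinarith
            have h11 : 0 ≤ (k + 3) * r j * N := by positivity
            linarith
          obtain ⟨T, hT1, hT2⟩ := cross_many hcon hℓ.1 hp hq (by omega) (hr1 j) h7
          refine ⟨T.map ⟨fun z => (j, z), fun z z' hz => (Prod.ext_iff.1 hz).2⟩, ?_, ?_, ?_⟩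
          · intro i hi
            rw [Finset.mem_map] at hi
            obtain ⟨z, hz, rfl⟩ := hi
            rw [Finset.mem_filter]
            refine ⟨(hImem _).2 ⟨hj, ?_, ?_⟩, rfl⟩
            all_goals
              have h8 := (hT2 z hz).2
              have h9 : 4 * ((k + 3) * r j * N + r j) ≤ b j := by
                have h10 := hrb j
                rw [hM0] at h10
                have h11 : r j ≤ r j * N := le_mul_of_one_le_right (by have := hr1 j; omega) hN1'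
                nlinarith
              have h10 : nm (gp (r j) z) ≤ nm (gp (r j) z - p) + nm p := by
                simpa using H45.nm_add_le (gp (r j) z - p) p
              have h11 : nm p ≤ nm (p - gp (r j) z) + nm (gp (r j) z) := by
                simpa using H45.nm_add_le (p - gp (r j) z) (gp (r j) z)
              rw [H45.nm_sub_comm] at h11
            · refine hJ1 j z ?_
              rw [sub_zero]
              have := hbpos j
              linarith
            · show 3 * b j ≤ 4 * nm (gp (r j) z) ∧ 4 * nm (gp (r j) z) ≤ 5 * b j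
              constructor <;> linarith
          · rw [Finset.card_map]; exact hT1
          · intro i hi
            rw [Finset.mem_map] at hi
            obtain ⟨z, hz, rfl⟩ := hi
            exact (hT2 z hz).1)
      exact_mod_cast hcount
    have hsum : ∑ j ∈ range K, ∑ i ∈ I.filter (fun i => i.1 = j),
        (Z (gp (r i.1) i.2) (r i.1) ω : ℝ) = ∑ i ∈ I, (Z (gp (r i.1) i.2) (r i.1) ω : ℝ) :=
      Finset.sum_fiberwise_of_maps_to (fun i hi => ((hImem i).1 hi).1) _
    have h3 : (N : ℝ) * ∑ j ∈ range K, (St (b j) ω : ℝ) ≤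
        ∑ i ∈ I, (Z (gp (r i.1) i.2) (r i.1) ω : ℝ) := by
      rw [← hsum, Finset.mul_sum]
      exact Finset.sum_le_sum hone
    have h4 : (0 : ℝ) ≤ ∑ j ∈ range K, (St (b j) ω : ℝ) := by positivity
    calc s * ∑ j ∈ range K, (St (b j) ω : ℝ) ≤ |s| * ∑ j ∈ range K, (St (b j) ω : ℝ) :=
          mul_le_mul_of_nonneg_right (le_abs_self s) h4
      _ ≤ θ * N * ∑ j ∈ range K, (St (b j) ω : ℝ) := mul_le_mul_of_nonneg_right hsn h4
      _ = θ * (N * ∑ j ∈ range K, (St (b j) ω : ℝ)) := by ring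
      _ ≤ _ := mul_le_mul_of_nonneg_left h3 hθ.le
  refine (Em_mono hle).trans (hEmI.trans (ENNReal.ofReal_le_ofReal (Real.exp_le_exp.2 ?_)))
  calc (I.card : ℝ) * c0 ≤ ((K : ℝ) * D) * c0 := mul_le_mul_of_nonneg_right hIcard hc0
    _ = K * (D * c0) := by ring

end Vale.Agent.P167.H519
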