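import Vale.Agent.P167.H519.OneArm
import Mathlib.Combinatorics.SimpleGraph.Connectivity.Connected

/-!
P167, block G: critical bond percolation on the standard square lattice `ℤ²`.
-/

namespace Vale.Agent.P167

open MeasureTheory Filter Topology

/-- The square lattice `ℤ²`: two points are adjacent if their distance is one. -/
def sqLat : SimpleGraph (ℤ × ℤ) where
  Adj u v := |u.1 - v.1| + |u.2 - v.2| = 1
  symm := ⟨fun u v h => by rw [abs_sub_comm v.1, abs_sub_comm v.2]; exact h⟩
  loopless := ⟨fun u h => by simp at h⟩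

/-- Bond configurations on `ℤ²`: every edge is open (`true`) or closed (`false`). -/
abbrev BondCfg := sqLat.edgeSet → Bool

/-- Critical bond percolation on `ℤ²`: the edges are open with probability `1/2`,
independently. -/
noncomputable def bondPerc : Measure BondCfg := Measure.infinitePi fun _ => fair

/-- The graph of the open edges. -/
def openGraph (ω : BondCfg) : SimpleGraph (ℤ × ℤ) :=
  SimpleGraph.fromEdgeSet {e | ∃ h : e ∈ sqLat.edgeSet, ω ⟨e, h⟩ = true}

/-- The origin is connected by open edges to a point at sup-norm distance at least `n`. -/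
def oneArm (n : ℕ) : Set BondCfg :=
  {ω | ∃ v : ℤ × ℤ, (n : ℤ) ≤ max |v.1| |v.2| ∧ (openGraph ω).Reachable 0 v}

namespace H519

open Relation
open Vale.Agent.P145.FB (PStep PConn)

/-- the rotation -/
def rot (u : ℤ × ℤ) : ℤ × ℤ := (u.1 - u.2, u.1 + u.2)

/-- the first end of the edge which crosses the square `v` -/
def ea (v : ℤ × ℤ) : ℤ × ℤ := ((v.1 + v.2 + 1) / 2, (v.2 - v.1) / 2)

/-- the second end of the edge which crosses the square `v` -/
def eb (v : ℤ × ℤ) : ℤ × ℤ :=
  if Even (v.1 + v.2) then ((v.1 + v.2 + 1) / 2 + 1, (v.2 - v.1) / 2)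
  else ((v.1 + v.2 + 1) / 2, (v.2 - v.1) / 2 + 1)

lemma adj_ea_eb (v : ℤ × ℤ) : sqLat.Adj (ea v) (eb v) := by
  unfold sqLat ea eb
  by_cases h : Even (v.1 + v.2) <;> simp [h]

lemma adj_iff {u v : ℤ × ℤ} : sqLat.Adj u v ↔
    (v.1 = u.1 + 1 ∧ v.2 = u.2) ∨ (v.1 = u.1 - 1 ∧ v.2 = u.2) ∨
      (v.1 = u.1 ∧ v.2 = u.2 + 1) ∨ (v.1 = u.1 ∧ v.2 = u.2 - 1) := by
  show |u.1 - v.1| + |u.2 - v.2| = 1 ↔ _
  constructor
  · intro h
    rcases abs_cases (u.1 - v.1) with ⟨h1, h2⟩ | ⟨h1, h2⟩ <;>
      rcases abs_cases (u.2 - v.2) with ⟨h3, h4⟩ | ⟨h3, h4⟩ <;> rw [h1, h3] at h <;> omega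
  · rintro (⟨h1, h2⟩ | ⟨h1, h2⟩ | ⟨h1, h2⟩ | ⟨h1, h2⟩) <;> rw [h1, h2] <;> simp

/-- two points of the square lattice are adjacent iff their images are diagonal neighbours -/
lemma adj_rot {u v : ℤ × ℤ} : sqLat.Adj u v ↔
    ((rot v).1 = (rot u).1 + 1 ∨ (rot v).1 = (rot u).1 - 1) ∧
      ((rot v).2 = (rot u).2 + 1 ∨ (rot v).2 = (rot u).2 - 1) := by
  rw [adj_iff]
  simp only [rot]
  omega

/-- the edge with image the diagonal of the square -/
lemma edge_sqr {u v : ℤ × ℤ} (h : sqLat.Adj u v) :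
    s(ea (sqr (rot u) (rot v)), eb (sqr (rot u) (rot v))) = s(u, v) := by
  rw [adj_iff] at h
  rw [Sym2.eq_iff]
  obtain ⟨a, b⟩ := u
  obtain ⟨c, d⟩ := v
  simp only at h
  rcases h with ⟨h1, h2⟩ | ⟨h1, h2⟩ | ⟨h1, h2⟩ | ⟨h1, h2⟩ <;> rw [h1, h2]
  · left
    have e1 : sqr (rot (a, b)) (rot (a + 1, b)) = (a - b, a + b) := by
      simp only [sqr, rot]; ext <;> simp only <;> omega
    have e2 : Even (a - b + (a + b)) := ⟨a, by ring⟩
    rw [e1]
    simp only [ea, eb, e2, if_true]
    constructor <;> ext <;> simp only <;> omega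
  · right
    have e1 : sqr (rot (a, b)) (rot (a - 1, b)) = (a - 1 - b, a - 1 + b) := by
      simp only [sqr, rot]; ext <;> simp only <;> omega
    have e2 : Even (a - 1 - b + (a - 1 + b)) := ⟨a - 1, by ring⟩
    rw [e1]
    simp only [ea, eb, e2, if_true]
    constructor <;> ext <;> simp only <;> omega
  · left
    have e1 : sqr (rot (a, b)) (rot (a, b + 1)) = (a - b - 1, a + b) := by
      simp only [sqr, rot]; ext <;> simp only <;> omega
    have e2 : ¬ Even (a - b - 1 + (a + b)) := by rw [Int.even_iff]; omega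
    rw [e1]
    simp only [ea, eb, e2, if_false]
    constructor <;> ext <;> simp only <;> omega
  · right
    have e1 : sqr (rot (a, b)) (rot (a, b - 1)) = (a - b, a + b - 1) := by
      simp only [sqr, rot]; ext <;> simp only <;> omega
    have e2 : ¬ Even (a - b + (a + b - 1)) := by rw [Int.even_iff]; omega
    rw [e1]
    simp only [ea, eb, e2, if_false]
    constructor <;> ext <;> simp only <;> omega

lemma sqr_rot_ea_eb (v : ℤ × ℤ) : sqr (rot (ea v)) (rot (eb v)) = v := by
  unfold sqr rot ea eb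
  by_cases h : Even (v.1 + v.2)
  · have h' := h
    rw [Int.even_iff] at h'
    simp only [h, if_true]
    ext <;> simp only <;> omega
  · have h' := h
    rw [Int.even_iff] at h'
    simp only [h, if_false]
    ext <;> simp only <;> omega

lemma ea_eb_inj {v w : ℤ × ℤ} (h : s(ea v, eb v) = s(ea w, eb w)) : v = w := by
  rw [Sym2.eq_iff] at h
  rw [← sqr_rot_ea_eb v, ← sqr_rot_ea_eb w]
  rcases h with ⟨h1, h2⟩ | ⟨h1, h2⟩
  · rw [h1, h2]
  · rw [h1, h2]
    unfold sqr
    rw [min_comm (rot (eb w)).1, min_comm (rot (eb w)).2]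

lemma rot_zero : rot 0 = 0 := by
  ext <;> simp [rot]

/-- squares and edges -/
noncomputable def eqv : ℤ × ℤ ≃ sqLat.edgeSet :=
  Equiv.ofBijective (fun v => ⟨s(ea v, eb v), (adj_ea_eb v)⟩) (by
    constructor
    · intro v w h
      exact ea_eb_inj (congrArg Subtype.val h)
    · rintro ⟨e, he⟩
      induction e using Sym2.ind with
      | _ u v => exact ⟨sqr (rot u) (rot v), Subtype.ext (edge_sqr he)⟩)

lemma eqv_sqr {u v : ℤ × ℤ} (h : sqLat.Adj u v) :
    eqv (sqr (rot u) (rot v)) = ⟨s(u, v), h⟩ := Subtype.ext (edge_sqr h)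

/-- the bond configuration of a configuration of squares -/
noncomputable def toBond : Cfg ≃ᵐ BondCfg := MeasurableEquiv.piCongrLeft (fun _ => Bool) eqv

lemma toBond_apply (ω : Cfg) (v : ℤ × ℤ) : toBond ω (eqv v) = ω v := by
  unfold toBond
  rw [MeasurableEquiv.coe_piCongrLeft, Equiv.piCongrLeft_apply_apply]

lemma map_toBond : μ.map toBond = bondPerc :=
  Measure.infinitePi_map_piCongrLeft (μ := fun _ : sqLat.edgeSet => fair) eqv

lemma open_adj {ω : Cfg} {u v : ℤ × ℤ} :
    (openGraph (toBond ω)).Adj u v ↔ PStep (op ω) (rot u) (rot v) := by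
  unfold openGraph
  rw [SimpleGraph.fromEdgeSet_adj]
  constructor
  · rintro ⟨⟨h, hω⟩, -⟩
    have h' : sqLat.Adj u v := h
    have h1 := adj_rot.1 h'
    refine ⟨h1.1, h1.2, ?_⟩
    rw [← eqv_sqr h', toBond_apply] at hω
    exact hω
  · rintro ⟨h1, h2, h3⟩
    have h' : sqLat.Adj u v := adj_rot.2 ⟨h1, h2⟩
    refine ⟨⟨h', ?_⟩, h'.ne⟩
    rw [← eqv_sqr h', toBond_apply]
    exact h3

/-- every even site is in the image of the rotation -/
lemma exists_rot {s : ℤ × ℤ} (h : Even (s.1 + s.2)) : ∃ u, rot u = s := by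
  rw [Int.even_iff] at h
  refine ⟨((s.1 + s.2) / 2, (s.2 - s.1) / 2), ?_⟩
  unfold rot
  ext <;> simp only <;> omega

lemma rot_inj {u v : ℤ × ℤ} (h : rot u = rot v) : u = v := by
  simp only [rot, Prod.mk.injEq] at h
  ext <;> omega

lemma reach_iff {ω : Cfg} {u v : ℤ × ℤ} :
    (openGraph (toBond ω)).Reachable u v ↔ ReflTransGen (PStep (op ω)) (rot u) (rot v) := by
  rw [SimpleGraph.reachable_iff_reflTransGen]
  constructor
  · intro h
    exact h.lift rot fun a b hab => open_adj.1 hab
  · intro h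
    have key : ∀ s, ReflTransGen (PStep (op ω)) (rot u) s → ∀ w, rot w = s →
        ReflTransGen (openGraph (toBond ω)).Adj u w := by
      intro s hs
      induction hs with
      | refl => intro w hw; rw [rot_inj hw]
      | @tail a b ha hab ih =>
        intro w hw
        have hp : Even (a.1 + a.2) := by
          have := parity_conn ha
          rw [Int.even_iff, this]
          simp only [rot]
          omega
        obtain ⟨t, ht⟩ := exists_rot hp
        refine (ih t ht).tail (open_adj.2 ?_)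
        rw [ht, hw]
        exact hab
    exact key _ h v rfl

lemma oneArm_sub {n : ℕ} : toBond ⁻¹' (oneArm n) ⊆ {ω | ArmP 0 n ω} := by
  rintro ω ⟨v, hv, hr⟩
  rw [reach_iff, rot_zero] at hr
  show ArmP 0 n ω
  rw [armP_iff (by positivity)]
  refine armP_of_path (u := 0) (by positivity) (by simp) hr (by simp [nm]) ?_
  by_contra hcon
  have h1 := (nm_le (z := rot v) (n := n - 1)).1 (by omega)
  simp only [rot] at h1
  rcases le_max_iff.1 hv with h | h <;> rcases le_abs.1 h with h | h <;> omega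

lemma sub_oneArm {n : ℕ} : {ω | ArmP 0 (2 * n : ℕ) ω} ⊆ toBond ⁻¹' (oneArm n) := by
  rintro ω ⟨u, s, hu, hu0, hs, hus⟩
  have h0 : u = 0 := by
    rw [nm_le] at hu0
    ext
    · simp only [Prod.fst_zero]; omega
    · simp only [Prod.snd_zero]; omega
  subst h0
  have h1 : ReflTransGen (PStep (op ω)) 0 s := hus.2.lift id fun a b hab => hab.1
  have hp : Even (s.1 + s.2) := by
    have := parity_conn h1
    rw [Int.even_iff, this]
    rfl
  obtain ⟨v, rfl⟩ := exists_rot hp
  refine ⟨v, ?_, reach_iff.2 (by rw [rot_zero]; exact h1)⟩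
  by_contra hcon
  have h2 : max |v.1| |v.2| ≤ (n : ℤ) - 1 := by omega
  rw [max_le_iff, abs_le, abs_le] at h2
  have : nm (rot v) ≤ 2 * n - 1 := by
    rw [nm_le]
    simp only [rot]
    omega
  push_cast at hs
  omega

lemma oneArm_bounds (n : ℕ) : pa 0 (2 * n : ℕ) ≤ bondPerc.real (oneArm n) ∧
    bondPerc.real (oneArm n) ≤ pa 0 n := by
  have h1 : bondPerc.real (oneArm n) = μ.real (toBond ⁻¹' (oneArm n)) := by
    rw [← map_toBond, Measure.real, Measure.real, toBond.map_apply]
  rw [h1]
  exact ⟨measureReal_mono sub_oneArm, measureReal_mono oneArm_sub⟩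

/-- **The one-arm exponent on the standard square lattice** from the rotated one. -/
theorem z2_onearm (h : S_onearm) :
    Tendsto (fun n : ℕ => Real.log (bondPerc.real (oneArm n)) / Real.log n) atTop
      (𝓝 (-(5 / 48))) := by
  have hl : Tendsto (fun n : ℕ => Real.log n) atTop atTop :=
    Real.tendsto_log_atTop.comp tendsto_natCast_atTop_atTop
  have h2 : Tendsto (fun n : ℕ => Real.log (pa 0 (2 * n : ℕ)) / Real.log ((2 * n : ℕ) : ℝ)) atTop
      (𝓝 (-(5 / 48))) :=
    h.comp ((tendsto_id.const_mul_atTop' (show 0 < 2 by norm_num) :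
      Tendsto (fun n : ℕ => 2 * n) atTop atTop))
  have h3 : Tendsto (fun n : ℕ => Real.log ((2 * n : ℕ) : ℝ) / Real.log n) atTop (𝓝 1) := by
    have h4 : Tendsto (fun n : ℕ => Real.log 2 / Real.log n + 1) atTop (𝓝 (0 + 1)) :=
      (hl.const_div_atTop _).add tendsto_const_nhds
    rw [zero_add] at h4
    refine h4.congr' ?_
    filter_upwards [eventually_ge_atTop 2] with n hn
    have hn0 : (0 : ℝ) < n := by exact_mod_cast (by omega : 0 < n)
    have hln : 0 < Real.log n := Real.log_pos (by exact_mod_cast (by omega : 1 < n))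
    push_cast
    rw [Real.log_mul (by norm_num) hn0.ne', add_div, div_self hln.ne']
  have h5 := h2.mul h3
  rw [mul_one] at h5
  refine tendsto_of_tendsto_of_tendsto_of_le_of_le' h5 h ?_ ?_
  · filter_upwards [eventually_ge_atTop 2] with n hn
    have hln : 0 < Real.log n := Real.log_pos (by exact_mod_cast (by omega : 1 < n))
    have hln2 : 0 < Real.log ((2 * n : ℕ) : ℝ) :=
      Real.log_pos (by exact_mod_cast (by omega : 1 < 2 * n))
    rw [div_mul_div_cancel₀ hln2.ne']
    exact div_le_div_of_nonneg_right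
      (Real.log_le_log (pa_pos (by positivity)) (oneArm_bounds n).1) hln.le
  · filter_upwards [eventually_ge_atTop 2] with n hn
    have hln : 0 < Real.log n := Real.log_pos (by exact_mod_cast (by omega : 1 < n))
    exact div_le_div_of_nonneg_right
      (Real.log_le_log ((pa_pos (by positivity)).trans_le (oneArm_bounds n).1)
        (oneArm_bounds n).2) hln.le

end H519

end Vale.Agent.P167
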